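import Vale.Agent.P318.Win

open Finset MeasureTheory ProbabilityTheory

noncomputable section

namespace Vale.Agent.P318

/-- Hoeffding inequality for the product of the window measures -/
lemma eqa_hoeff {ι : Type} [Fintype ι] (W : Win) (g : ι → ℝ → ℝ) (hm : ∀ l, Measurable (g l))
    (c : ι → NNReal) (hs : ∀ l, HasSubgaussianMGF (g l) (c l) W.nu) {c' ε : ℝ}
    (hc : ∑ l, (c l : ℝ) ≤ c') (hε : 0 ≤ ε) :
    W.piNu ι {χ | ε ≤ ∑ l, g l (χ l)} ≤ ENNReal.ofReal (Real.exp (-ε ^ 2 / (2 * c'))) := by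
  have hc0 : 0 ≤ c' := (sum_nonneg fun l _ => (c l).2).trans hc
  have hind : iIndepFun (fun l (χ : ι → ℝ) => g l (χ l)) (W.piNu ι) :=
    iIndepFun_pi fun l => (hm l).aemeasurable
  have h1 : ∀ l ∈ (univ : Finset ι),
      HasSubgaussianMGF (fun χ : ι → ℝ => g l (χ l)) (c l) (W.piNu ι) := fun l _ => by
    have hp := measurePreserving_eval (fun _ : ι => W.nu) l
    refine HasSubgaussianMGF.of_map (Y := Function.eval l) (X := g l)
      hp.measurable.aemeasurable ?_
    unfold Win.piNu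
    rw [hp.map_eq]
    exact hs l
  have h2 := HasSubgaussianMGF.sum_of_iIndepFun hind h1
  have h3 : HasSubgaussianMGF (fun χ : ι → ℝ => ∑ l, g l (χ l)) ⟨c', hc0⟩ (W.piNu ι) := by
    refine ⟨h2.integrable_exp_mul, fun t => (h2.mgf_le t).trans (Real.exp_le_exp.2 ?_)⟩
    refine div_le_div_of_nonneg_right (mul_le_mul_of_nonneg_right ?_ (sq_nonneg t)) (by norm_num)
    rw [NNReal.coe_sum]
    exact hc
  have h4 := h3.measure_ge_le hε
  rw [← ofReal_measureReal (measure_ne_top _ _)]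
  exact ENNReal.ofReal_le_ofReal h4

end Vale.Agent.P318
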