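import Vale.Agent.P318.Kernel
import Vale.Agent.P318.EQA

open Finset MeasureTheory

noncomputable section

namespace Vale.Agent.P318

variable {β ι κ : Type} [Fintype ι] [DecidableEq ι] [Fintype κ]

omit [DecidableEq ι] in
lemma avg_block [Fintype β] (W : Win) (b : β) :
    MeasurePreserving (fun (χ : β × ι → ℝ) l => χ (b, l)) (W.piNu (β × ι)) (W.piNu ι) := by
  classical
  have hm : Measurable fun (χ : β × ι → ℝ) l => χ (b, l) := by fun_prop
  refine ⟨hm, ?_⟩
  unfold Win.piNu
  refine (Measure.pi_eq fun s hs => ?_).symm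
  rw [Measure.map_apply hm (MeasurableSet.univ_pi hs)]
  have e : (fun (χ : β × ι → ℝ) l => χ (b, l)) ⁻¹' Set.univ.pi s =
      Set.univ.pi fun p : β × ι => if p.1 = b then s p.2 else Set.univ := by
    ext χ
    simp only [Set.mem_preimage, Set.mem_pi, Set.mem_univ, true_imp_iff, Prod.forall]
    constructor
    · intro h b' l
      split_ifs with hb
      · rw [hb]; exact h l
      · trivial
    · intro h l
      simpa using h b l
  rw [e, Measure.pi_pi, Fintype.prod_prod_type, Finset.prod_comm]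
  refine prod_congr rfl fun l _ => ?_
  rw [prod_eq_single b]
  · simp
  · intro b' _ hb
    simp [hb]
  · simp

/-- union bound over the blocks -/
theorem bad_blocks [Fintype β] (W : Win) (Bad : Set (ι → ℝ)) (hB : MeasurableSet Bad) {δ : ℝ}
    (h0 : 0 ≤ δ) (hδ : W.piNu ι Bad ≤ ENNReal.ofReal δ) :
    MeasurableSet {χ : β × ι → ℝ | ∃ b, (fun l => χ (b, l)) ∈ Bad} ∧
      W.piNu (β × ι) {χ : β × ι → ℝ | ∃ b, (fun l => χ (b, l)) ∈ Bad} ≤
        ENNReal.ofReal (Fintype.card β * δ) := by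
  have e : {χ : β × ι → ℝ | ∃ b, (fun l => χ (b, l)) ∈ Bad} =
      ⋃ b, (fun (χ : β × ι → ℝ) l => χ (b, l)) ⁻¹' Bad := by
    ext χ; simp
  rw [e]
  refine ⟨MeasurableSet.iUnion fun b => (avg_block W b).measurable hB, ?_⟩
  refine (measure_iUnion_fintype_le _ _).trans ?_
  have h1 : ∀ b ∈ (univ : Finset β), W.piNu (β × ι)
      ((fun (χ : β × ι → ℝ) l => χ (b, l)) ⁻¹' Bad) ≤ ENNReal.ofReal δ := fun b _ => by
    rw [(avg_block W b).measure_preimage hB.nullMeasurableSet]
    exact hδ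
  refine (sum_le_card_nsmul _ _ _ h1).trans (le_of_eq ?_)
  rw [ENNReal.ofReal_mul (Nat.cast_nonneg _), ENNReal.ofReal_natCast, card_univ, nsmul_eq_mul]

omit [DecidableEq ι] in
lemma avg_lin (W : Win) (u : ι → ℝ) {η ε : ℝ} (hu : nsq u ≤ η) (hε : 0 ≤ ε) :
    W.piNu ι {χ | ε ≤ ∑ l, u l * χ l} ≤ ENNReal.ofReal (Real.exp (-ε ^ 2 / (2 * η))) := by
  have h0 : ProbabilityTheory.HasSubgaussianMGF (fun x : ℝ => x) ((‖(1 : ℝ) - -1‖₊ / 2) ^ 2)
      W.nu := by
    refine ProbabilityTheory.hasSubgaussianMGF_of_mem_Icc_of_integral_eq_zero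
      measurable_id.aemeasurable ?_ ?_
    · filter_upwards [W.nu_ae] with s hs
      have := W.lam_le
      exact abs_le.1 (by linarith)
    · rw [W.integral_nu]
      exact W.integral_phi_mul_id
  refine eqa_hoeff W (fun l x => u l * x) (fun l => by fun_prop) _
    (fun l => h0.const_mul (u l)) (le_trans (le_of_eq ?_) hu) hε
  refine sum_congr rfl fun l _ => ?_
  change u l ^ 2 * (‖(1 : ℝ) - -1‖ / 2) ^ 2 = _
  norm_num

/-- the projection of a random point of the cube is uniformly small -/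
theorem slab_prob (W : Win) (A : ι → κ → ℤ) {η : ℝ} (hη : 0 < η) (hs : Spread A η)
    (Pj : (ι → ℝ) →ₗ[ℝ] (ι → ℝ)) (h1 : ∀ v, InU A (Pj v))
    (h2 : ∀ v σ, ip (v - Pj v) (mv A σ) = 0) :
    MeasurableSet {χ : ι → ℝ | ∃ l, W.lam / 2 < |Pj χ l|} ∧
      W.piNu ι {χ : ι → ℝ | ∃ l, W.lam / 2 < |Pj χ l|} ≤
        ENNReal.ofReal (2 * Fintype.card ι * Real.exp (-(W.lam ^ 2 / (8 * η)))) := by
  have hsym : ∀ v w, ip (Pj v) w = ip (Pj v) (Pj w) := fun v w => by
    obtain ⟨σ, hσ⟩ := h1 v
    have := h2 w σ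
    rw [← hσ, ip_sub_left, ip_comm w, ip_comm (Pj w)] at this
    linarith
  have hco : ∀ χ l, Pj χ l = ∑ l', Pj (Pi.single l 1) l' * χ l' := fun χ l => by
    have e1 : Pj χ l = ip (Pj χ) (Pi.single l 1) := by rw [ip_single, mul_one]
    rw [e1, hsym, ip_comm, ← hsym]
    rfl
  have hn : ∀ l, nsq (Pj (Pi.single l 1)) ≤ η := fun l => by
    have e1 : nsq (Pj (Pi.single l 1)) = Pj (Pi.single l 1) l := by
      rw [← ip_self, ← hsym, ip_single, mul_one]
    obtain ⟨σ, hσ⟩ := h1 (Pi.single l 1)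
    have h3 := hs σ l
    rw [← hσ, ← e1] at h3
    have h4 := nsq_nonneg (Pj (Pi.single l 1))
    by_contra hc
    nlinarith
  have hcont : Continuous Pj := Pj.continuous_of_finiteDimensional
  have e : {χ : ι → ℝ | ∃ l, W.lam / 2 < |Pj χ l|} = ⋃ l, {χ : ι → ℝ | W.lam / 2 < |Pj χ l|} := by
    ext χ; simp
  rw [e]
  refine ⟨MeasurableSet.iUnion fun l => (isOpen_lt continuous_const (by fun_prop)).measurableSet,
    ?_⟩
  refine (measure_iUnion_fintype_le _ _).trans ?_
  have hl := W.lam_pos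
  have ex : -(W.lam / 2) ^ 2 / (2 * η) = -(W.lam ^ 2 / (8 * η)) := by
    field_simp
    norm_num
  have h3 : ∀ l ∈ (univ : Finset ι), W.piNu ι {χ : ι → ℝ | W.lam / 2 < |Pj χ l|} ≤
      ENNReal.ofReal (2 * Real.exp (-(W.lam ^ 2 / (8 * η)))) := fun l _ => by
    have h4 := avg_lin W (Pj (Pi.single l 1)) (hn l) (ε := W.lam / 2) (by positivity)
    have h5 := avg_lin W (-Pj (Pi.single l 1)) ((nsq_neg _).le.trans (hn l)) (ε := W.lam / 2)
      (by positivity)
    rw [ex] at h4 h5
    rw [two_mul, ENNReal.ofReal_add (Real.exp_pos _).le (Real.exp_pos _).le]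
    refine le_trans (measure_mono fun χ hχ => ?_) ((measure_union_le _ _).trans (add_le_add h4 h5))
    simp only [Set.mem_ofPred_eq, Set.mem_union, Pi.neg_apply, neg_mul, sum_neg_distrib] at hχ ⊢
    rw [← hco]
    rcases lt_abs.1 hχ with h | h
    · exact Or.inl h.le
    · exact Or.inr h.le
  refine (sum_le_card_nsmul _ _ _ h3).trans (le_of_eq ?_)
  rw [card_univ, nsmul_eq_mul, ← ENNReal.ofReal_natCast,
    ← ENNReal.ofReal_mul (Nat.cast_nonneg _)]
  congr 1
  ring

theorem piNu_eq (W : Win) :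
    W.piNu ι = volume.withDensity fun x => ENNReal.ofReal (W.Phi x) := by
  unfold Win.piNu
  refine Measure.pi_eq fun s hs => ?_
  have hi : Integrable W.phi := W.continuous_phi.integrable_of_hasCompactSupport
    W.hasCompactSupport_phi
  have hI : Integrable (W.Phi : (ι → ℝ) → ℝ) :=
    W.continuous_Phi.integrable_of_hasCompactSupport W.hasCompactSupport_Phi
  have h1 : ∀ l, W.nu (s l) = ENNReal.ofReal (∫ x, (s l).indicator W.phi x) := fun l => by
    unfold Win.nu
    rw [withDensity_apply _ (hs l), integral_indicator (hs l),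
      ofReal_integral_eq_lintegral_ofReal hi.integrableOn (ae_of_all _ W.phi_nonneg)]
  rw [withDensity_apply _ (MeasurableSet.univ_pi hs),
    ← ofReal_integral_eq_lintegral_ofReal hI.integrableOn (ae_of_all _ W.Phi_nonneg),
    ← integral_indicator (MeasurableSet.univ_pi hs)]
  simp only [h1]
  rw [← ENNReal.ofReal_prod_of_nonneg fun l _ => integral_nonneg fun x =>
    Set.indicator_nonneg (fun y _ => W.phi_nonneg y) x, ← integral_fintype_prod_volume_eq_prod]
  congr 1
  refine integral_congr_ae (ae_of_all _ fun x => ?_)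
  by_cases hx : x ∈ Set.univ.pi s
  · rw [Set.indicator_of_mem hx]
    exact prod_congr rfl fun l _ => (Set.indicator_of_mem (hx l trivial) _).symm
  · rw [Set.indicator_of_notMem hx]
    simp only [Set.mem_pi, Set.mem_univ, true_imp_iff, not_forall] at hx
    obtain ⟨l, hl⟩ := hx
    exact (prod_eq_zero (mem_univ l) (Set.indicator_of_notMem hl _)).symm

omit [DecidableEq ι] in
lemma avg_unfold (f : (ι → ℝ) → ENNReal) (hf : Measurable f) (y : ι → ℝ) :
    ∫⁻ c in Set.univ.pi (fun _ : ι => Set.Ico (0 : ℝ) 1), ∑' a : ι → ℤ, f (zc a - c - y) ≤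
      ∫⁻ x, f x := by
  set D := Set.univ.pi (fun _ : ι => Set.Ico (0 : ℝ) 1) with hD
  have hDm : MeasurableSet D := MeasurableSet.univ_pi fun _ => measurableSet_Ico
  have hm1 : ∀ a : ι → ℤ, Measurable fun c => f (zc a - c - y) := fun a => hf.comp (by fun_prop)
  have hm2 : ∀ a : ι → ℤ, Measurable fun x => D.indicator (1 : (ι → ℝ) → ENNReal)
      (zc a - y - x) * f x := fun a => ((measurable_one.indicator hDm).comp (by fun_prop)).mul hf
  rw [lintegral_tsum fun a => (hm1 a).aemeasurable]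
  have h1 : ∀ a : ι → ℤ, ∫⁻ c in D, f (zc a - c - y) =
      ∫⁻ x, D.indicator 1 (zc a - y - x) * f x := fun a => by
    rw [← lintegral_indicator hDm,
      ← lintegral_sub_left_eq_self (fun x => D.indicator 1 (zc a - y - x) * f x) (zc a - y)]
    refine lintegral_congr fun c => ?_
    rw [sub_sub_cancel, sub_right_comm]
    by_cases hc : c ∈ D
    · simp [hc]
    · simp [hc]
  simp only [h1]
  rw [← lintegral_tsum fun a => (hm2 a).aemeasurable]
  refine lintegral_mono fun x => ?_
  rw [tsum_eq_single (fun l => ⌈y l + x l⌉)]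
  · refine mul_le_of_le_one_left' ?_
    exact Set.indicator_apply_le' (fun _ => le_rfl) fun _ => zero_le_one
  · intro a ha
    rw [Set.indicator_of_notMem, zero_mul]
    intro hc
    apply ha
    funext l
    have := hc l trivial
    simp only [Pi.sub_apply, zc, Set.mem_Ico] at this
    symm
    rw [Int.ceil_eq_iff]
    constructor <;> linarith [this.1, this.2]

/-- choice of the offset by averaging -/
theorem exists_offset (W : Win) (A : ι → κ → ℤ) (Bad : Set (ι → ℝ)) (hB : MeasurableSet Bad)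
    {δ : ℝ} (h0 : 0 ≤ δ) (hδ : W.piNu ι Bad ≤ ENNReal.ofReal δ) :
    ∃ c ∈ cube ι, ∀ T : Finset (ι → ℤ),
      ∑ a ∈ T, ∫ t in cube κ, Bad.indicator W.Phi (zc a - c - mv A t) ≤ δ := by
  set D := Set.univ.pi (fun _ : ι => Set.Ico (0 : ℝ) 1) with hD
  have hDm : MeasurableSet D := MeasurableSet.univ_pi fun _ => measurableSet_Ico
  have hD1 : volume D = 1 := by
    rw [hD, Real.volume_pi_Ico]
    simp
  have : IsProbabilityMeasure (volume.restrict D) := ⟨by simpa using hD1⟩
  have : IsProbabilityMeasure (volume.restrict (cube κ)) := ⟨by simpa using volume_cube⟩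
  have hFm : Measurable (Bad.indicator W.Phi) := W.continuous_Phi.measurable.indicator hB
  have hF0 : ∀ x, 0 ≤ Bad.indicator W.Phi x := Set.indicator_nonneg fun y _ => W.Phi_nonneg y
  have hF1 : ∀ x, Bad.indicator W.Phi x ≤ 1 := fun x =>
    Set.indicator_apply_le' (fun _ => W.Phi_le_one x) fun _ => zero_le_one
  set f : (ι → ℝ) → ENNReal := fun x => ENNReal.ofReal (Bad.indicator W.Phi x) with hf
  have hfm : Measurable f := hFm.ennreal_ofReal
  have hmv := (continuous_mv A).measurable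
  have hint : ∫⁻ x, f x = W.piNu ι Bad := by
    rw [piNu_eq, withDensity_apply _ hB, ← lintegral_indicator hB]
    refine lintegral_congr fun x => ?_
    by_cases hx : x ∈ Bad <;> simp [hf, hx]
  have hG : Measurable (Function.uncurry fun (c : ι → ℝ) (t : κ → ℝ) =>
      ∑' a : ι → ℤ, f (zc a - c - mv A t)) :=
    Measurable.tsum fun a => hfm.comp
      ((measurable_const.sub measurable_fst).sub (hmv.comp measurable_snd))
  obtain ⟨c, hc, hle⟩ := exists_notMem_null_le_lintegral (μ := volume.restrict D) (N := Dᶜ)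
    (f := fun c => ∫⁻ t in cube κ, ∑' a : ι → ℤ, f (zc a - c - mv A t))
    hG.lintegral_prod_right.aemeasurable (by rw [Measure.restrict_apply hDm.compl]; simp)
  have hc' : c ∈ D := not_not.1 hc
  refine ⟨c, ⟨fun l => (hc' l trivial).1, fun l => (hc' l trivial).2.le⟩, fun T => ?_⟩
  rw [lintegral_lintegral_swap hG.aemeasurable] at hle
  have h2 : ∫⁻ t in cube κ, ∫⁻ c in D, ∑' a : ι → ℤ, f (zc a - c - mv A t) ≤
      ENNReal.ofReal δ := by
    refine (lintegral_mono fun t => (avg_unfold f hfm (mv A t)).trans (hint.le.trans hδ)).trans ?_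
    simp
  have hm : ∀ a : ι → ℤ, Measurable fun t : κ → ℝ => Bad.indicator W.Phi (zc a - c - mv A t) :=
    fun a => hFm.comp (measurable_const.sub hmv)
  have hi : ∀ a : ι → ℤ, Integrable (fun t : κ → ℝ => Bad.indicator W.Phi (zc a - c - mv A t))
      (volume.restrict (cube κ)) := fun a =>
    Integrable.of_bound (hm a).aestronglyMeasurable 1 (ae_of_all _ fun t => by
      rw [Real.norm_eq_abs, abs_of_nonneg (hF0 _)]; exact hF1 _)
  rw [← ENNReal.ofReal_le_ofReal_iff h0,
    ENNReal.ofReal_sum_of_nonneg fun a _ => integral_nonneg fun t => hF0 _]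
  refine le_trans ?_ (hle.trans h2)
  rw [lintegral_tsum fun a => (hm a).ennreal_ofReal.aemeasurable]
  refine le_trans (le_of_eq (sum_congr rfl fun a _ => ?_)) (ENNReal.sum_le_tsum T)
  exact ofReal_integral_eq_lintegral_ofReal (hi a) (ae_of_all _ fun t => hF0 _)

/-- one dimensional second moment -/
def avgG (W : Win) (r s : ℝ) : ℝ := ∑' n : ℤ, W.phi (n - s) * (n - s - r) ^ 2

lemma avg_coord (W : Win) (y : ι → ℝ) (r : ℝ) (l : ι) :
    ∑' a : ι → ℤ, W.Phi (zc a - y) * ((a l : ℝ) - y l - r) ^ 2 = avgG W r (y l) := by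
  have hl := W.lam_le
  have h := tsum_int_prod (fun l' (n : ℤ) => W.phi (n - y l') *
    if l' = l then ((n : ℝ) - y l' - r) ^ 2 else 1) (1 + l1 y) (fun l' n hn => by
      have h1 : |(n : ℝ) - y l'| < 1 / 2 + W.lam / 2 := by
        by_contra hc
        exact left_ne_zero_of_mul hn (W.phi_eq_zero (not_lt.1 hc))
      have h2 : |y l'| ≤ l1 y :=
        single_le_sum (f := fun l => |y l|) (fun _ _ => abs_nonneg _) (mem_univ l')
      have h3 := abs_sub_abs_le_abs_sub (n : ℝ) (y l')
      linarith)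
  simp only [prod_mul_distrib, prod_ite_eq', mem_univ, if_true] at h
  refine Eq.trans h ?_
  rw [prod_eq_single l]
  · simp [avgG]
  · intro l' _ hl'
    simp [hl', W.tsum_phi]
  · simp

lemma avg_G_cont (W : Win) (r : ℝ) : Continuous (avgG W r) := by
  have h := continuous_tsum_lattice (ι := Unit) (R := 1) W.Phi
    (fun x hx l => W.abs_le_one_of_Phi_ne hx l) W.continuous_Phi (fun (s : ℝ) _ => s)
    (by fun_prop) (fun s a => ((a () : ℝ) - s - r) ^ 2) (fun a => by fun_prop)
  refine h.congr fun s => ?_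
  exact avg_coord W (fun _ : Unit => s) r ()

lemma avg_G_per (W : Win) (r s : ℝ) : avgG W r (s + 1) = avgG W r s := by
  unfold avgG
  rw [← (Equiv.addRight (1 : ℤ)).tsum_eq]
  refine tsum_congr fun n => ?_
  have : (((Equiv.addRight (1 : ℤ)) n : ℤ) : ℝ) - (s + 1) = n - s := by
    simp only [Equiv.coe_addRight]
    push_cast
    ring
  rw [this]

/-- each coordinate of the rounding error is spread out -/
theorem far_bound (W : Win) (A : ι → κ → ℤ) (hrow : ∀ l, A l ≠ 0) (c r : ι → ℝ) :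
    (Fintype.card ι : ℝ) / 100 ≤ IE W A c fun τ a => nsq (zc a - c - mv A τ - r) := by
  have h1 : ∀ τ : κ → ℝ, ∑' a : ι → ℤ, W.Phi (zc a - c - mv A τ) * nsq (zc a - c - mv A τ - r) =
      ∑ l, avgG W (r l) (c l + ∑ i, (A l i : ℝ) * τ i) := fun τ => by
    have e : ∀ a : ι → ℤ, W.Phi (zc a - c - mv A τ) * nsq (zc a - c - mv A τ - r) =
        ∑ l, W.Phi (zc a - (c + mv A τ)) * ((a l : ℝ) - (c + mv A τ) l - r l) ^ 2 := fun a => by
      rw [sub_sub (zc a), nsq, mul_sum]
      rfl
    simp only [e]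
    rw [Summable.tsum_finsetSum fun l _ => summable_lattice (R := 1) W.Phi
      (fun x hx l => W.abs_le_one_of_Phi_ne hx l) _ _]
    exact sum_congr rfl fun l _ => avg_coord W (c + mv A τ) (r l) l
  unfold IE
  simp only [h1]
  have hc : ∀ l, Continuous fun τ : κ → ℝ => avgG W (r l) (c l + ∑ i, (A l i : ℝ) * τ i) :=
    fun l => (avg_G_cont W (r l)).comp (by fun_prop)
  rw [integral_finsetSum _ fun l _ => integrableOn_cube (hc l)]
  have h2 : ∀ l ∈ (univ : Finset ι), (1 / 100 : ℝ) ≤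
      ∫ τ in cube κ, avgG W (r l) (c l + ∑ i, (A l i : ℝ) * τ i) := fun l _ => by
    rw [integral_cube_uniform (A l) (hrow l) _ (avg_G_cont W (r l)) (avg_G_per W (r l))]
    have := W.integral_tsum_phi (fun s => (s - r l) ^ 2) (by fun_prop)
    unfold avgG
    rw [this]
    exact W.integral_phi_sq (r l)
  have h3 := card_nsmul_le_sum _ _ _ h2
  rw [card_univ, nsmul_eq_mul] at h3
  linarith

end Vale.Agent.P318
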