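import Vale.Agent.P318.Defs

open Finset MeasureTheory

noncomputable section

namespace Vale.Agent.P318

section vec
variable {ι κ β K : Type}

theorem nsq_nonneg [Fintype ι] (v : ι → ℝ) : 0 ≤ nsq v := sum_nonneg fun _ _ => sq_nonneg _
theorem nsqOn_nonneg (S : Finset ι) (v : ι → ℝ) : 0 ≤ nsqOn S v :=
  sum_nonneg fun _ _ => sq_nonneg _
theorem l1_nonneg [Fintype ι] (v : ι → ℝ) : 0 ≤ l1 v := sum_nonneg fun _ _ => abs_nonneg _
theorem nsqOn_univ [Fintype ι] (v : ι → ℝ) : nsqOn univ v = nsq v := rfl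
theorem nsqOn_le [Fintype ι] (S : Finset ι) (v : ι → ℝ) : nsqOn S v ≤ nsq v :=
  sum_le_sum_of_subset_of_nonneg (subset_univ _) fun _ _ _ => sq_nonneg _
theorem sq_le_nsq [Fintype ι] (v : ι → ℝ) (l : ι) : v l ^ 2 ≤ nsq v :=
  single_le_sum (f := fun l => v l ^ 2) (fun _ _ => sq_nonneg _) (mem_univ l)
theorem ip_self [Fintype ι] (v : ι → ℝ) : ip v v = nsq v := by simp [ip, nsq, sq]
theorem ip_comm [Fintype ι] (v w : ι → ℝ) : ip v w = ip w v := by simp [ip, mul_comm]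
theorem ip_add_left [Fintype ι] (u v w : ι → ℝ) : ip (u + v) w = ip u w + ip v w := by
  simp [ip, add_mul, sum_add_distrib]
theorem ip_add_right [Fintype ι] (u v w : ι → ℝ) : ip u (v + w) = ip u v + ip u w := by
  simp [ip, mul_add, sum_add_distrib]
theorem ip_sub_left [Fintype ι] (u v w : ι → ℝ) : ip (u - v) w = ip u w - ip v w := by
  simp [ip, sub_mul, sum_sub_distrib]
theorem ip_sub_right [Fintype ι] (u v w : ι → ℝ) : ip u (v - w) = ip u v - ip u w := by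
  simp [ip, mul_sub, sum_sub_distrib]
theorem ip_smul_left [Fintype ι] (s : ℝ) (v w : ι → ℝ) : ip (s • v) w = s * ip v w := by
  simp [ip, mul_sum, mul_assoc]
theorem ip_smul_right [Fintype ι] (s : ℝ) (v w : ι → ℝ) : ip v (s • w) = s * ip v w := by
  simp [ip, mul_sum, mul_left_comm]
theorem ip_zero_left [Fintype ι] (w : ι → ℝ) : ip 0 w = 0 := by simp [ip]
theorem ip_zero_right [Fintype ι] (w : ι → ℝ) : ip w 0 = 0 := by simp [ip]
theorem ip_single [Fintype ι] [DecidableEq ι] (v : ι → ℝ) (l : ι) (s : ℝ) :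
    ip v (Pi.single l s) = v l * s := by
  simp [ip, Pi.single_apply]
theorem nsq_smul [Fintype ι] (s : ℝ) (v : ι → ℝ) : nsq (s • v) = s ^ 2 * nsq v := by
  simp [nsq, mul_sum, mul_pow]
theorem nsq_neg [Fintype ι] (v : ι → ℝ) : nsq (-v) = nsq v := by simp [nsq]
theorem nsq_sub_comm [Fintype ι] (v w : ι → ℝ) : nsq (v - w) = nsq (w - v) := by
  rw [← nsq_neg, neg_sub]
theorem nsq_zero [Fintype ι] : nsq (0 : ι → ℝ) = 0 := by simp [nsq]
theorem nsq_add [Fintype ι] (v w : ι → ℝ) : nsq (v + w) = nsq v + 2 * ip v w + nsq w := by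
  simp only [nsq, ip, Pi.add_apply, mul_sum, ← sum_add_distrib]
  exact sum_congr rfl fun l _ => by ring
theorem nsq_sub [Fintype ι] (v w : ι → ℝ) : nsq (v - w) = nsq v - 2 * ip v w + nsq w := by
  simp only [nsq, ip, Pi.sub_apply, mul_sum, ← sum_add_distrib, ← sum_sub_distrib]
  exact sum_congr rfl fun l _ => by ring
theorem nsqOn_add_le (S : Finset ι) (v w : ι → ℝ) :
    nsqOn S (v + w) ≤ 2 * nsqOn S v + 2 * nsqOn S w := by
  simp only [nsqOn, Pi.add_apply, mul_sum, ← sum_add_distrib]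
  exact sum_le_sum fun l _ => by nlinarith [sq_nonneg (v l - w l)]
theorem nsq_add_le [Fintype ι] (v w : ι → ℝ) : nsq (v + w) ≤ 2 * nsq v + 2 * nsq w :=
  nsqOn_add_le univ v w
theorem nsq_sub_le [Fintype ι] (v w : ι → ℝ) : nsq (v - w) ≤ 2 * nsq v + 2 * nsq w := by
  rw [sub_eq_add_neg, ← nsq_neg w]; exact nsq_add_le _ _
/-- Cauchy-Schwarz -/
theorem ip_sq_le [Fintype ι] (v w : ι → ℝ) : ip v w ^ 2 ≤ nsq v * nsq w :=
  sum_mul_sq_le_sq_mul_sq univ v w
theorem l1_sq_le [Fintype ι] (v : ι → ℝ) : l1 v ^ 2 ≤ Fintype.card ι * nsq v := by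
  have := sum_mul_sq_le_sq_mul_sq univ (fun _ : ι => (1 : ℝ)) (fun l => |v l|)
  simpa [l1, nsq, sq_abs] using this
theorem nsq_eq_zero [Fintype ι] {v : ι → ℝ} (h : nsq v = 0) : v = 0 := by
  funext l
  have := sq_le_nsq v l
  rw [h] at this
  exact pow_eq_zero_iff (two_ne_zero) |>.1 (le_antisymm this (sq_nonneg _))
theorem nsq_prod [Fintype ι] [Fintype β] (v : β × ι → ℝ) :
    nsq v = ∑ b, nsq (fun l => v (b, l)) := by simp [nsq, Fintype.sum_prod_type]
theorem ip_prod [Fintype ι] [Fintype β] (v w : β × ι → ℝ) :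
    ip v w = ∑ b, ip (fun l => v (b, l)) (fun l => w (b, l)) := by
  simp [ip, Fintype.sum_prod_type]
theorem l1_prod [Fintype ι] [Fintype β] (v : β × ι → ℝ) :
    l1 v = ∑ b, l1 (fun l => v (b, l)) := by simp [l1, Fintype.sum_prod_type]

theorem zc_add (a b : ι → ℤ) : zc (a + b) = zc a + zc b := by funext l; simp [zc]
theorem zc_sub (a b : ι → ℤ) : zc (a - b) = zc a - zc b := by funext l; simp [zc]
theorem zc_neg (a : ι → ℤ) : zc (-a) = -zc a := by funext l; simp [zc]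
theorem zc_zero : zc (0 : ι → ℤ) = 0 := by funext l; simp [zc]
theorem zc_single [DecidableEq ι] (l : ι) : zc (Pi.single l 1) = Pi.single l 1 := by
  funext l'; by_cases h : l' = l <;> simp [zc, h]
theorem zc_injective : Function.Injective (zc : (ι → ℤ) → ι → ℝ) := fun a b h => by
  funext l
  have : (a l : ℝ) = b l := congrFun h l
  exact_mod_cast this

variable [Fintype κ]

theorem mv_add (A : ι → κ → ℤ) (s t : κ → ℝ) : mv A (s + t) = mv A s + mv A t := by
  funext l; simp [mv, mul_add, sum_add_distrib]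
theorem mv_sub (A : ι → κ → ℤ) (s t : κ → ℝ) : mv A (s - t) = mv A s - mv A t := by
  funext l; simp [mv, mul_sub, sum_sub_distrib]
theorem mv_neg (A : ι → κ → ℤ) (t : κ → ℝ) : mv A (-t) = -mv A t := by
  funext l; simp [mv]
theorem mv_smul (A : ι → κ → ℤ) (s : ℝ) (t : κ → ℝ) : mv A (s • t) = s • mv A t := by
  funext l; simp [mv, mul_sum, mul_left_comm]
theorem mv_zero (A : ι → κ → ℤ) : mv A 0 = 0 := by funext l; simp [mv]
theorem mv_zc (A : ι → κ → ℤ) (n : κ → ℤ) : mv A (zc n) = zc fun l => ∑ i, A l i * n i := by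
  funext l; simp [mv, zc]
theorem continuous_mv (A : ι → κ → ℤ) : Continuous (mv A) := by
  unfold mv; fun_prop
theorem zc_mem_latOf (A : ι → κ → ℤ) (n : κ → ℤ) : zc n ∈ LatOf A := ⟨_, mv_zc A n⟩
theorem zero_mem_latOf (A : ι → κ → ℤ) : (0 : κ → ℝ) ∈ LatOf A :=
  ⟨0, by rw [mv_zero, zc_zero]⟩
theorem mtv_eq_mv {κ' : Type} [Fintype ι] (A : ι → κ' → ℤ) (z : ι → ℝ) :
    mtv A z = mv (fun i l => A l i) z := rfl
theorem ip_mv [Fintype ι] (A : ι → κ → ℤ) (z : ι → ℝ) (t : κ → ℝ) :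
    ip z (mv A t) = ip (mtv A z) t := by
  simp only [ip, mv, mtv, mul_sum, sum_mul]
  rw [sum_comm]
  exact sum_congr rfl fun i _ => sum_congr rfl fun l _ => by ring
/-- an operator bound passes to the transpose -/
theorem nsq_mtv_le [Fintype ι] (A : ι → κ → ℤ) {C : ℝ} (hC : 0 ≤ C)
    (h : ∀ t, nsq (mv A t) ≤ C * nsq t) (z : ι → ℝ) : nsq (mtv A z) ≤ C * nsq z := by
  have h1 : nsq (mtv A z) = ip z (mv A (mtv A z)) := by rw [ip_mv, ip_self]
  have h2 := ip_sq_le z (mv A (mtv A z))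
  have h3 := h (mtv A z)
  have h0 := nsq_nonneg (mtv A z)
  have hz := nsq_nonneg z
  rw [← h1] at h2
  rcases h0.eq_or_lt with h0 | h0
  · rw [← h0]; positivity
  · have : nsq (mtv A z) * nsq (mtv A z) ≤ (C * nsq z) * nsq (mtv A z) := by nlinarith
    exact le_of_mul_le_mul_right this h0
theorem abs_mv_le (A : ι → κ → ℤ) {C R : ℝ} (hA : ∀ l i, |(A l i : ℝ)| ≤ C) {t : κ → ℝ}
    (ht : ∀ i, |t i| ≤ R) (l : ι) : |mv A t l| ≤ Fintype.card κ * (C * R) := by
  refine (abs_sum_le_sum_abs _ _).trans ?_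
  have : ∀ i ∈ (univ : Finset κ), |(A l i : ℝ) * t i| ≤ C * R := fun i _ => by
    rw [abs_mul]
    exact mul_le_mul (hA l i) (ht i) (abs_nonneg _) ((abs_nonneg _).trans (hA l i))
  simpa using sum_le_card_nsmul _ _ _ this

theorem InU.add {A : ι → κ → ℤ} {u v : ι → ℝ} (hu : InU A u) (hv : InU A v) : InU A (u + v) := by
  obtain ⟨s, rfl⟩ := hu; obtain ⟨t, rfl⟩ := hv; exact ⟨s + t, (mv_add A s t).symm⟩
theorem InU.sub {A : ι → κ → ℤ} {u v : ι → ℝ} (hu : InU A u) (hv : InU A v) : InU A (u - v) := by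
  obtain ⟨s, rfl⟩ := hu; obtain ⟨t, rfl⟩ := hv; exact ⟨s - t, (mv_sub A s t).symm⟩
theorem inU_zero (A : ι → κ → ℤ) : InU A 0 := ⟨0, (mv_zero A).symm⟩

variable [DecidableEq β] [Fintype β]

theorem mv_blk (B : ι → κ → ℤ) (σ : β × κ → ℝ) (b : β) (l : ι) :
    mv (blk B) σ (b, l) = mv B (fun i => σ (b, i)) l := by
  simp [mv, blk, Fintype.sum_prod_type]
theorem mv_stp [Fintype K] (A : β × ι → K → ℤ) (B : ι → κ → ℤ) (τ : K ⊕ β × κ → ℝ) :
    mv (stp A B) τ = mv A (fun i => τ (Sum.inl i)) + mv (blk B) (fun q => τ (Sum.inr q)) := by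
  funext p; simp [mv, stp, Fintype.sum_sum_type]
theorem mv_stp_apply [Fintype K] (A : β × ι → K → ℤ) (B : ι → κ → ℤ) (τ : K ⊕ β × κ → ℝ)
    (b : β) (l : ι) : mv (stp A B) τ (b, l) =
      mv A (fun i => τ (Sum.inl i)) (b, l) + mv B (fun i => τ (Sum.inr (b, i))) l := by
  rw [mv_stp, Pi.add_apply, mv_blk]
omit [Fintype κ] in
theorem mtv_stp_inl [Fintype ι] (A : β × ι → K → ℤ) (B : ι → κ → ℤ) (z : β × ι → ℝ) (i : K) :
    mtv (stp A B) z (Sum.inl i) = mtv A z i := rfl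
omit [Fintype κ] in
theorem mtv_stp_inr [Fintype ι] (A : β × ι → K → ℤ) (B : ι → κ → ℤ) (z : β × ι → ℝ) (b : β)
    (i : κ) : mtv (stp A B) z (Sum.inr (b, i)) = mtv B (fun l => z (b, l)) i := by
  simp [mtv, stp, blk, Fintype.sum_prod_type]
omit [Fintype κ] [Fintype β] in
theorem abs_blk_le (B : ι → κ → ℤ) {C : ℕ} (h : ∀ l i, |B l i| ≤ C) (p : β × ι) (q : β × κ) :
    |blk B p q| ≤ C := by
  unfold blk; split_ifs
  · exact h _ _
  · simp

end vec

section fr

theorem fr_nonneg (y : ℝ) : 0 ≤ fr y := abs_nonneg _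
theorem fr_le_half (y : ℝ) : fr y ≤ 1 / 2 := abs_sub_round y
theorem fr_le (y : ℝ) (n : ℤ) : fr y ≤ |y - n| := round_le y n
theorem fr_add_int (y : ℝ) (n : ℤ) : fr (y + n) = fr y := by
  simp [fr]
theorem fr_le_abs (y : ℝ) : fr y ≤ |y| := by simpa using fr_le y 0
theorem fr_add_le (x y : ℝ) : fr (x + y) ≤ fr x + fr y := by
  refine (fr_le (x + y) (round x + round y)).trans ?_
  have : x + y - ((round x + round y : ℤ) : ℝ) = (x - round x) + (y - round y) := by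
    push_cast; ring
  rw [this]; exact abs_add_le _ _
theorem fr_neg (y : ℝ) : fr (-y) = fr y := by
  apply le_antisymm
  · refine (fr_le (-y) (-round y)).trans (le_of_eq ?_)
    rw [← abs_neg]; unfold fr; congr 1; push_cast; ring
  · refine (fr_le y (-round (-y))).trans (le_of_eq ?_)
    rw [← abs_neg]; unfold fr; congr 1; push_cast; ring
theorem fr_eq_abs {y : ℝ} (h : |y| ≤ 1 / 2) : fr y = |y| := by
  refine le_antisymm (fr_le_abs y) ?_
  unfold fr
  rcases eq_or_ne (round y) 0 with h0 | h0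
  · simp [h0]
  · have h1 : (1 : ℝ) ≤ |(round y : ℝ)| := by exact_mod_cast Int.one_le_abs h0
    have := abs_sub_abs_le_abs_sub (round y : ℝ) y
    rw [abs_sub_comm] at this
    linarith

end fr

end Vale.Agent.P318
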