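import Vale.Agent.P318.Basic

open Finset MeasureTheory

noncomputable section

namespace Vale.Agent.P318

variable {β ι κ K : Type} [Fintype β] [DecidableEq β] [Fintype ι] [DecidableEq ι] [Fintype κ]
  [Fintype K]

/-- matrix times vector as a linear map -/
def geoL {ι κ : Type} [Fintype κ] (A : ι → κ → ℤ) : (κ → ℝ) →ₗ[ℝ] (ι → ℝ) where
  toFun := mv A
  map_add' := mv_add A
  map_smul' := mv_smul A

theorem geo_inv {P K : Type} [Fintype P] [Fintype K] (A : P → K → ℤ)
    (h : ∀ z, mtv A z = 0 → z = 0) : ∃ N : (P → ℝ) → (P → ℝ),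
      (∀ z, mv A (mtv A (N z)) = z) ∧ ∀ z, N (mv A (mtv A z)) = z := by
  let T : (P → ℝ) →ₗ[ℝ] (P → ℝ) := (geoL A).comp (geoL fun i l => A l i)
  have hinj : Function.Injective T := by
    rw [injective_iff_map_eq_zero]
    intro z hz
    have h1 := ip_mv A z (mtv A z)
    have h2 : mv A (mtv A z) = 0 := hz
    rw [h2, ip_zero_right, ip_self] at h1
    exact h z (nsq_eq_zero h1.symm)
  let e := LinearEquiv.ofBijective T ⟨hinj, LinearMap.injective_iff_surjective.1 hinj⟩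
  exact ⟨e.symm, e.apply_symm_apply, e.symm_apply_apply⟩

theorem geo_ip_elim {K K' : Type} [Fintype K] [Fintype K'] (v : K ⊕ K' → ℝ) (a : K → ℝ)
    (b : K' → ℝ) : ip v (Sum.elim a b) =
      ip (fun i => v (Sum.inl i)) a + ip (fun i => v (Sum.inr i)) b := by
  simp [ip, Fintype.sum_sum_type]

omit [Fintype ι] [DecidableEq ι] in
theorem geo_mv_elim (A : β × ι → K → ℤ) (B : ι → κ → ℤ) (a : K → ℝ) (b : β × κ → ℝ) :
    mv (stp A B) (Sum.elim a b) = mv A a + mv (blk B) b := mv_stp A B _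

omit [DecidableEq ι] [Fintype κ] in
theorem geo_mtv_blk (B : ι → κ → ℤ) (z : β × ι → ℝ) (q : β × κ) :
    mtv (blk B) z q = mtv B (fun l => z (q.1, l)) q.2 := by
  simp [mtv, blk, Fintype.sum_prod_type]

theorem geo_ip_block (v : β × κ → ℝ) (b : β) (t : κ → ℝ) :
    ip v (fun q => if q.1 = b then t q.2 else 0) = ip (fun i => v (b, i)) t := by
  simp [ip, Fintype.sum_prod_type]

omit [DecidableEq ι] in
theorem geo_dual_sub {B : ι → κ → ℤ} {v : κ → ℤ} (hv : Dual (LatOf B) v) (z : ι → ℤ) :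
    Dual (LatOf B) fun i => v i - ∑ l, B l i * z l := by
  intro t ht
  obtain ⟨n, hn⟩ := hv t ht
  obtain ⟨z', hz'⟩ := ht
  refine ⟨n - ∑ l, z l * z' l, ?_⟩
  have e : zc (fun i => v i - ∑ l, B l i * z l) = zc v - mtv B (zc z) := by
    funext i; simp [zc, mtv]
  rw [e, ip_sub_left, hn, ← ip_mv, hz']
  simp [ip, zc]

/-- the directions used in the Poincare inequality on pairs -/
theorem geo (A : β × ι → K → ℤ) (B : ι → κ → ℤ) (L : Set (K → ℝ)) (hL0 : (0 : K → ℝ) ∈ L)
    {kk Bc Γ : ℝ} (hk : 0 < kk) (hB : 0 ≤ Bc) (hΓ : 0 ≤ Γ)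
    (hlow : ∀ z, kk * nsq z ≤ Bc * nsq (mtv A z))
    (hprim : ∀ v : K → ℤ, Dual L v → ∀ cc, nsq (zc v - mtv A cc) < kk / 2 →
      ∃ z : β × ι → ℤ, zc v = mtv A (zc z))
    (hω : DualW B Γ) :
    ∃ (R : β × ι → K ⊕ β × κ → ℝ) (θ : K ⊕ β × κ → K ⊕ β × κ → ℝ),
      (∀ l, mv (stp A B) (R l) = Pi.single l 1) ∧ (∀ i, mv (stp A B) (θ i) = 0) ∧
      (∀ v : K ⊕ β × κ → ℤ,
        Dual {t | (fun i => t (Sum.inl i)) ∈ L ∧ ∀ b, (fun i => t (Sum.inr (b, i))) ∈ LatOf B} v →
        (∃ z : β × ι → ℤ, zc v = mtv (stp A B) (zc z)) ∨ 1 ≤ ∑ i, ip (zc v) (θ i) ^ 2) ∧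
      ∀ g : K → ℝ, ∑ l, ip (Sum.elim g 0) (R l) ^ 2 + ∑ i, ip (Sum.elim g 0) (θ i) ^ 2 ≤
        (Bc + 2 + Γ * Bc) / kk * nsq g := by
  classical
  obtain ⟨ω, hω0, hω1, hω2⟩ := hω
  obtain ⟨N, hN1, hN2⟩ := geo_inv A (fun z hz => by
    have := hlow z
    rw [hz, nsq_zero, mul_zero] at this
    exact nsq_eq_zero (le_antisymm (nonpos_of_mul_nonpos_right this hk) (nsq_nonneg z)))
  have hsym : ∀ a b, ip a (N b) = ip b (N a) := fun a b => by
    have e1 := ip_mv A (N b) (mtv A (N a))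
    have e2 := ip_mv A (N a) (mtv A (N b))
    rw [hN1] at e1 e2
    rw [ip_comm, e1, ip_comm b, e2, ip_comm]
  have hR : ∀ g z, ip g (mtv A (N z)) = ip z (N (mv A g)) := fun g z => by
    rw [ip_comm, ← ip_mv, ip_comm, hsym]
  have hQ : ∀ g i, ip g (Pi.single i 1 - mtv A (N (mv A (Pi.single i 1)))) =
      (g - mtv A (N (mv A g))) i := fun g i => by
    rw [ip_sub_right, hR, ip_comm (mv A _), ip_mv, ip_single, ip_single, mul_one, mul_one]
    rfl
  have hBk : ∀ g q, ip g (-mtv A (N (mv (blk B) (Pi.single q 1)))) =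
      -mtv B (fun l => N (mv A g) (q.1, l)) q.2 := fun g q => by
    rw [← zero_sub, ip_sub_right, ip_zero_right, hR, ip_comm, ip_mv, ip_single, mul_one, zero_sub,
      geo_mtv_blk]
  have hsum : ∀ v : K ⊕ β × κ → ℝ, ∑ i, ip v (Sum.elim
      (fun i => √(2 / kk) • Sum.elim (Pi.single i 1 - mtv A (N (mv A (Pi.single i 1))))
        (0 : β × κ → ℝ))
      (fun q => √(ω q.2) • Sum.elim (-mtv A (N (mv (blk B) (Pi.single q 1)))) (Pi.single q 1))
        i) ^ 2 =
      2 / kk * nsq ((fun i => v (Sum.inl i)) - mtv A (N (mv A fun i => v (Sum.inl i)))) +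
      ∑ b, ∑ i, ω i * (v (Sum.inr (b, i)) -
        mtv B (fun l => N (mv A fun i => v (Sum.inl i)) (b, l)) i) ^ 2 := fun v => by
    rw [Fintype.sum_sum_type, Fintype.sum_prod_type, nsq, mul_sum]
    simp only [Sum.elim_inl, Sum.elim_inr, ip_smul_right, geo_ip_elim, ip_zero_right, add_zero, hQ,
      hBk, ip_single, mul_one, mul_pow, Real.sq_sqrt (hω0 _),
      Real.sq_sqrt (show 0 ≤ 2 / kk by positivity), neg_add_eq_sub]
  refine ⟨fun l => Sum.elim (mtv A (N (Pi.single l 1))) 0, Sum.elim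
    (fun i => √(2 / kk) • Sum.elim (Pi.single i 1 - mtv A (N (mv A (Pi.single i 1))))
        (0 : β × κ → ℝ))
    (fun q => √(ω q.2) • Sum.elim (-mtv A (N (mv (blk B) (Pi.single q 1)))) (Pi.single q 1)),
    fun l => ?_, ?_, fun v hv => ?_, fun g => ?_⟩
  · rw [geo_mv_elim, hN1, mv_zero, add_zero]
  · rintro (i | q)
    · rw [Sum.elim_inl, mv_smul, geo_mv_elim, mv_sub, hN1, mv_zero, sub_self, add_zero, smul_zero]
    · rw [Sum.elim_inr, mv_smul, geo_mv_elim, mv_neg, hN1, neg_add_cancel, smul_zero]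
  · rw [hsum]
    have hs0 : ∀ b, 0 ≤ ∑ i, ω i * (zc v (Sum.inr (b, i)) -
        mtv B (fun l => N (mv A fun i => zc v (Sum.inl i)) (b, l)) i) ^ 2 := fun b =>
      sum_nonneg fun i _ => mul_nonneg (hω0 i) (sq_nonneg _)
    have hs1 := sum_nonneg fun b (_ : b ∈ univ) => hs0 b
    have hv0 : Dual L fun i => v (Sum.inl i) := fun t ht => by
      obtain ⟨n, hn⟩ := hv (Sum.elim t 0) ⟨ht, fun _ => zero_mem_latOf B⟩
      rw [geo_ip_elim, ip_zero_right, add_zero] at hn
      exact ⟨n, hn⟩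
    by_cases hq : nsq ((zc fun i => v (Sum.inl i)) - mtv A (N (mv A (zc fun i => v (Sum.inl i))))) <
        kk / 2
    · obtain ⟨z, hz⟩ := hprim _ hv0 _ hq
      have hz' : N (mv A fun i => zc v (Sum.inl i)) = zc z := by
        rw [← hN2 (zc z), ← hz]; rfl
      have hw : ∀ b i, zc v (Sum.inr (b, i)) - mtv B (fun l => zc z (b, l)) i =
          ((v (Sum.inr (b, i)) - ∑ l, B l i * z (b, l) : ℤ) : ℝ) := fun b i => by
        simp [zc, mtv]
      by_cases hall : ∀ b, (fun i => v (Sum.inr (b, i)) - ∑ l, B l i * z (b, l)) = 0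
      · refine Or.inl ⟨z, funext ?_⟩
        rintro (i | ⟨b, i⟩)
        · exact congrFun hz i
        · rw [mtv_stp_inr, ← sub_eq_zero, hw, congrFun (hall b) i]
          simp
      · right
        push Not at hall
        obtain ⟨b, hb⟩ := hall
        have hvb : Dual (LatOf B) fun i => v (Sum.inr (b, i)) := fun t ht => by
          obtain ⟨n, hn⟩ := hv (Sum.elim 0 fun q => if q.1 = b then t q.2 else 0) ⟨hL0, fun b' => by
            by_cases h : b' = b
            · simpa [h] using ht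
            · simp only [Sum.elim_inr, h, if_false]
              exact zero_mem_latOf B⟩
          rw [geo_ip_elim, ip_zero_right, zero_add, geo_ip_block] at hn
          exact ⟨n, hn⟩
        have h1 := hω1 _ (geo_dual_sub hvb fun l => z (b, l)) hb
        have h2 := single_le_sum (fun b _ => hs0 b) (mem_univ b)
        simp only [hz', hw] at h2 ⊢
        have h3 := mul_nonneg (show 0 ≤ 2 / kk by positivity)
          (nsq_nonneg ((fun i => zc v (Sum.inl i)) - mtv A (zc z)))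
        linarith
    · right
      have h1 := mul_le_mul_of_nonneg_left (not_lt.1 hq) (show 0 ≤ 2 / kk by positivity)
      have h2 : 2 / kk * (kk / 2) = 1 := by field_simp
      rw [h2] at h1
      exact h1.trans (le_add_of_nonneg_right hs1)
  · rw [hsum]
    simp only [Sum.elim_inl, Sum.elim_inr, geo_ip_elim, ip_zero_right, add_zero, hR, Pi.zero_apply,
      zero_sub, neg_sq]
    set y := N (mv A g) with hy
    have e1 : ∑ l, ip (Pi.single l 1) y ^ 2 = nsq y :=
      sum_congr rfl fun l _ => by rw [ip_comm, ip_single, mul_one]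
    have e2 : ip (g - mtv A y) (mtv A y) = 0 := by
      rw [ip_comm, ← ip_mv, mv_sub, hy, hN1, sub_self, ip_zero_right]
    have e3 := nsq_add (g - mtv A y) (mtv A y)
    rw [sub_add_cancel, e2] at e3
    have e4 : ∑ b, ∑ i, ω i * mtv B (fun l => y (b, l)) i ^ 2 ≤ Γ * nsq y := by
      rw [nsq_prod, mul_sum]
      exact sum_le_sum fun b _ => hω2 _
    have e5 := nsq_nonneg (g - mtv A y)
    have e6 := nsq_nonneg (mtv A y)
    have e7 : nsq y ≤ Bc / kk * nsq g := by
      rw [div_mul_eq_mul_div, le_div_iff₀ hk, mul_comm]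
      exact (hlow y).trans (mul_le_mul_of_nonneg_left (by linarith) hB)
    have e8 : 2 / kk * nsq (g - mtv A y) ≤ 2 / kk * nsq g :=
      mul_le_mul_of_nonneg_left (by linarith) (by positivity)
    have e9 := mul_le_mul_of_nonneg_left e7 hΓ
    have e10 : (Bc + 2 + Γ * Bc) / kk * nsq g =
        Bc / kk * nsq g + 2 / kk * nsq g + Γ * (Bc / kk * nsq g) := by ring
    rw [e1, e10]
    linarith

/-- orthogonal projection onto the range of a matrix -/
theorem exists_proj (A : ι → κ → ℤ) : ∃ Pj : (ι → ℝ) →ₗ[ℝ] (ι → ℝ),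
    (∀ v, InU A (Pj v)) ∧ ∀ v σ, ip (v - Pj v) (mv A σ) = 0 := by
  let e : (ι → ℝ) ≃ₗ[ℝ] EuclideanSpace ℝ ι := (WithLp.linearEquiv 2 ℝ (ι → ℝ)).symm
  let U : Submodule ℝ (EuclideanSpace ℝ ι) := LinearMap.range (e.toLinearMap.comp (geoL A))
  refine ⟨e.symm.toLinearMap.comp ((U.starProjection : _ →ₗ[ℝ] _).comp e.toLinearMap),
    fun v => ?_, fun v σ => ?_⟩
  · obtain ⟨σ, hσ⟩ := U.starProjection_apply_mem (e v)
    exact ⟨σ, by simp [← hσ, geoL]⟩
  · have h := U.starProjection_inner_eq_zero (e v) (e (mv A σ)) ⟨σ, rfl⟩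
    rw [PiLp.inner_apply] at h
    rw [← h, ip]
    refine sum_congr rfl fun l _ => ?_
    simp [e, mul_comm]

variable {k Cm m : ℕ} {Bc : ℝ} {A : β × ι → Fin k → ℤ} {B : ι → κ → ℤ}

theorem RMP.up_univ {κ' : Type} [Fintype κ'] {A : ι → Fin k → ℤ} {B : ι → κ' → ℤ}
    (h : RMP A B Cm Bc m) (hB : 0 ≤ Bc) (hk : k ≤ Fintype.card ι) (Δ : Fin k → ℝ) :
    nsq (mv A Δ) ≤ 2 * Bc * Fintype.card ι * nsq Δ := by
  have h1 := h.up univ Δ
  have h2 : (k : ℝ) ≤ Fintype.card ι := by exact_mod_cast hk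
  rw [nsqOn_univ, card_univ] at h1
  refine h1.trans (mul_le_mul_of_nonneg_right ?_ (nsq_nonneg _))
  nlinarith

theorem ent_step (h : RMP A (blk B) Cm Bc m) (hB : ∀ l i, |B l i| ≤ Cm) :
    ∀ l i, |stp A B l i| ≤ Cm := by
  rintro l (i | q)
  · exact h.ent l i
  · exact abs_blk_le B hB l q

theorem row_step (h : RMP A (blk B) Cm Bc m) (hk : 0 < k) (hm : 0 < m) (l : β × ι) :
    stp A B l ≠ 0 := by
  intro h0
  have h1 := h.low {l} (Pi.single l 1) (by rw [card_singleton]; exact hm) fun l' hl' => by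
    rw [Pi.single_eq_of_ne (by simpa using hl')]
  have h2 : mtv A (Pi.single l 1) = 0 := by
    funext i
    have : A l i = 0 := congrFun h0 (Sum.inl i)
    simp [mtv, Pi.single_apply, this]
  have h3 : nsq (Pi.single l (1 : ℝ) : β × ι → ℝ) = 1 := by
    rw [← ip_self, ip_single]; simp
  rw [h2, h3, nsq_zero, mul_zero, mul_one] at h1
  have : (0 : ℝ) < k := by exact_mod_cast hk
  linarith

theorem dualW_base : DualW base0 0 := by
  exact ⟨fun _ => 0, fun _ => le_rfl, fun v _ hv => (hv (Subsingleton.elim _ _)).elim,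
    fun z => by simp⟩
theorem kashin_base : Kashin base0 1 := by
  intro v _
  simp [nsq, l1]
theorem spread_base : Spread base0 0 := by
  intro σ l
  simp [mv]

theorem dualW_step (h : RMP A (blk B) Cm Bc m) (hB : 0 ≤ Bc) (hk : 0 < k)
    (hkM : k ≤ Fintype.card (β × ι)) {Γ Γ' : ℝ} (hω : DualW B Γ)
    (hΓ : Γ + 4 * Bc * Fintype.card (β × ι) / k ≤ Γ') : DualW (stp A B) Γ' := by
  obtain ⟨ω, hω0, hω1, hω2⟩ := hω
  have hk' : (0 : ℝ) < k := by exact_mod_cast hk
  refine ⟨Sum.elim (fun _ => 2 / k) fun q => ω q.2, ?_, fun v hv hv0 => ?_, fun z => ?_⟩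
  · rintro (i | q)
    · exact show (0 : ℝ) ≤ 2 / k by positivity
    · exact hω0 _
  · rw [Fintype.sum_sum_type, Fintype.sum_prod_type]
    simp only [Sum.elim_inl, Sum.elim_inr, ← mul_sum]
    have hs0 : ∀ b, 0 ≤ ∑ i, ω i * (v (Sum.inr (b, i)) : ℝ) ^ 2 := fun b =>
      sum_nonneg fun i _ => mul_nonneg (hω0 i) (sq_nonneg _)
    have hs1 := sum_nonneg fun b (_ : b ∈ univ) => hs0 b
    by_cases h0 : (fun i => v (Sum.inl i)) = 0
    · have : ∃ b, (fun i => v (Sum.inr (b, i))) ≠ 0 := by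
        by_contra hne
        push Not at hne
        refine hv0 (funext ?_)
        rintro (i | ⟨b, i⟩)
        · exact congrFun h0 i
        · exact congrFun (hne b) i
      obtain ⟨b, hb⟩ := this
      have hvb : Dual (LatOf B) fun i => v (Sum.inr (b, i)) := fun t ⟨z, hz⟩ => by
        obtain ⟨n, hn⟩ := hv (Sum.elim 0 fun q => if q.1 = b then t q.2 else 0)
          ⟨fun q => if q.1 = b then z q.2 else 0, by
            rw [geo_mv_elim, mv_zero, zero_add]
            funext ⟨b', l⟩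
            rw [mv_blk]
            by_cases h : b' = b
            · simpa [h, zc] using congrFun hz l
            · simp [h, zc, mv]⟩
        rw [geo_ip_elim, ip_zero_right, zero_add, geo_ip_block] at hn
        exact ⟨n, hn⟩
      have h1 := hω1 _ hvb hb
      have h2 := single_le_sum (fun b _ => hs0 b) (mem_univ b)
      have h3 : 0 ≤ 2 / (k : ℝ) * ∑ i, (v (Sum.inl i) : ℝ) ^ 2 := by positivity
      linarith
    · have hva : Dual (LatOf A) fun i => v (Sum.inl i) := fun t ⟨z, hz⟩ => by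
        obtain ⟨n, hn⟩ := hv (Sum.elim t 0) ⟨z, by rw [geo_mv_elim, mv_zero, add_zero, hz]⟩
        rw [geo_ip_elim, ip_zero_right, add_zero] at hn
        exact ⟨n, hn⟩
      have hm0 : mtv A (0 : β × ι → ℝ) = 0 := mv_zero _
      have h1 : (k : ℝ) / 2 ≤ nsq (zc fun i => v (Sum.inl i)) := by
        by_contra hlt
        obtain ⟨z, hz, hz'⟩ := h.prim ∅ (Nat.zero_le _) _ hva 0 (fun _ _ => rfl)
          (by rw [hm0, sub_zero]; exact not_le.1 hlt)
        have : z = 0 := funext fun l => hz l (notMem_empty l)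
        rw [this, zc_zero, hm0, ← zc_zero] at hz'
        exact h0 (zc_injective hz')
      have h2 := mul_le_mul_of_nonneg_left h1 (show 0 ≤ 2 / (k : ℝ) by positivity)
      have h3 : 2 / (k : ℝ) * (k / 2) = 1 := by field_simp
      rw [h3] at h2
      exact h2.trans (le_add_of_nonneg_right hs1)
  · rw [Fintype.sum_sum_type, Fintype.sum_prod_type]
    simp only [Sum.elim_inl, Sum.elim_inr, ← mul_sum, mtv_stp_inl, mtv_stp_inr]
    have e4 : ∑ b, ∑ i, ω i * mtv B (fun l => z (b, l)) i ^ 2 ≤ Γ * nsq z := by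
      rw [nsq_prod, mul_sum]
      exact sum_le_sum fun b _ => hω2 _
    have e1 := mul_le_mul_of_nonneg_left
      (nsq_mtv_le A (by positivity) (h.up_univ hB hkM) z) (show 0 ≤ 2 / (k : ℝ) by positivity)
    have e2 := mul_le_mul_of_nonneg_right hΓ (nsq_nonneg z)
    have e3 : 2 / (k : ℝ) * (2 * Bc * Fintype.card (β × ι) * nsq z) =
        4 * Bc * Fintype.card (β × ι) / k * nsq z := by ring
    rw [nsq] at e1
    linarith

theorem kashin_step (h : RMP A (blk B) Cm Bc m) (hB : 0 ≤ Bc) (hk : 0 < k)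
    (hkM : k ≤ Fintype.card (β × ι)) (hm : 0 < m) {Ka : ℝ}
    (hKa : (2 * Bc ^ 2 * Fintype.card (β × ι) / k + 1) / m ≤ Ka ^ 2) : Kashin (stp A B) Ka := by
  intro v hv
  have hk' : (0 : ℝ) < k := by exact_mod_cast hk
  have hm' : (0 : ℝ) < m := by exact_mod_cast hm
  have hA : mtv A v = 0 := funext fun i => congrFun hv (Sum.inl i)
  have hl := l1_nonneg v
  set S := univ.filter fun l => l1 v < m * |v l| with hS
  have hcard : S.card ≤ m := by
    by_contra hlt
    have hlt' : (m : ℝ) ≤ S.card := by exact_mod_cast (not_le.1 hlt).le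
    have hne : S.Nonempty := card_pos.1 (by omega)
    have h1 := sum_lt_sum_of_nonempty hne fun l hl => (mem_filter.1 hl).2
    have h2 : ∑ l ∈ S, |v l| ≤ l1 v :=
      sum_le_sum_of_subset_of_nonneg (subset_univ _) fun _ _ _ => abs_nonneg _
    rw [sum_const, nsmul_eq_mul, ← mul_sum] at h1
    nlinarith
  let vS : β × ι → ℝ := fun l => if l ∈ S then v l else 0
  let vT : β × ι → ℝ := fun l => if l ∈ S then 0 else v l
  have e1 : nsq v = nsq vS + nsq vT := by
    simp only [nsq, ← sum_add_distrib, vS, vT]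
    exact sum_congr rfl fun l _ => by split_ifs <;> ring
  have e2 : mtv A vS = -mtv A vT := by
    rw [eq_neg_iff_add_eq_zero, mtv_eq_mv, mtv_eq_mv, ← mv_add, ← hA, mtv_eq_mv]
    refine congrArg _ (funext fun l => ?_)
    simp only [vS, vT, Pi.add_apply]
    split_ifs <;> ring
  have e3 := h.low S vS hcard fun l hl => if_neg hl
  rw [e2, nsq_neg] at e3
  have e4 := e3.trans (mul_le_mul_of_nonneg_left
    (nsq_mtv_le A (by positivity) (h.up_univ hB hkM) vT) hB)
  have e5 : m * nsq vT ≤ l1 v ^ 2 := by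
    rw [nsq, mul_sum, pow_two (l1 v)]
    nth_rewrite 2 [l1]
    rw [mul_sum]
    refine sum_le_sum fun l _ => ?_
    simp only [vT]
    split_ifs with hl'
    · simpa using mul_nonneg hl (abs_nonneg _)
    · have : m * |v l| ≤ l1 v := not_lt.1 fun hh => hl' (mem_filter.2 ⟨mem_univ _, hh⟩)
      rw [← sq_abs, pow_two, ← mul_assoc]
      exact mul_le_mul_of_nonneg_right this (abs_nonneg _)
  have e6 : nsq vS ≤ 2 * Bc ^ 2 * Fintype.card (β × ι) / k * nsq vT := by
    rw [div_mul_eq_mul_div, le_div_iff₀ hk']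
    linarith
  have e7 : nsq vT ≤ l1 v ^ 2 / m := by
    rw [le_div_iff₀ hm']
    linarith
  have e8 := mul_le_mul_of_nonneg_left e7
    (show 0 ≤ 2 * Bc ^ 2 * Fintype.card (β × ι) / k + 1 by positivity)
  have e9 := mul_le_mul_of_nonneg_right hKa (sq_nonneg (l1 v))
  have e10 : (2 * Bc ^ 2 * Fintype.card (β × ι) / k + 1) * (l1 v ^ 2 / m) =
      (2 * Bc ^ 2 * Fintype.card (β × ι) / k + 1) / m * l1 v ^ 2 := by ring
  linarith

theorem spread_step (h : RMP A (blk B) Cm Bc m) (hB : 1 ≤ Bc) (hk : 0 < k)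
    (hkM : k ≤ Fintype.card (β × ι)) {η η' : ℝ} (hη0 : 0 ≤ η) (hη : Spread B η)
    (hη' : 2 * (Cm : ℝ) ^ 2 * Bc * k / Fintype.card (β × ι) + 12 * Bc ^ 2 * η ≤ η') :
    Spread (stp A B) η' := by
  rintro σ ⟨b, l⟩
  have hB0 : 0 ≤ Bc := by linarith
  have hM : (0 : ℝ) < Fintype.card (β × ι) := by exact_mod_cast hk.trans_le hkM
  rw [mv_stp_apply, mv_stp]
  set D : Fin k → ℝ := fun i => σ (Sum.inl i)
  set s : β × κ → ℝ := fun q => σ (Sum.inr q)
  have e0 := nsq_nonneg (mv A D + mv (blk B) s)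
  have e1 := h.rig0 D s
  have e2 : mv A D (b, l) ^ 2 ≤ (Cm : ℝ) ^ 2 * k * nsq D := by
    refine (sum_mul_sq_le_sq_mul_sq univ _ _).trans (mul_le_mul_of_nonneg_right ?_ (nsq_nonneg _))
    have : ∀ i ∈ (univ : Finset (Fin k)), (A (b, l) i : ℝ) ^ 2 ≤ (Cm : ℝ) ^ 2 := fun i _ => by
      have h1 : |(A (b, l) i : ℝ)| ≤ Cm := by exact_mod_cast h.ent (b, l) i
      exact sq_le_sq' (abs_le.1 h1).1 (abs_le.1 h1).2
    simpa [mul_comm] using sum_le_card_nsmul _ _ _ this
  have e3 : nsq D ≤ Bc / Fintype.card (β × ι) * nsq (mv A D + mv (blk B) s) := by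
    rw [div_mul_eq_mul_div, le_div_iff₀ hM]
    linarith
  have e4 : nsq (mv A D) ≤ 2 * Bc ^ 2 * nsq (mv A D + mv (blk B) s) := by
    have := mul_le_mul_of_nonneg_left e1 (show 0 ≤ 2 * Bc by positivity)
    have := h.up_univ hB0 hkM D
    linarith
  have e5 := nsq_sub_le (mv A D + mv (blk B) s) (mv A D)
  rw [add_sub_cancel_left] at e5
  have e6 : nsq (mv B fun i => σ (Sum.inr (b, i))) ≤ nsq (mv (blk B) s) := by
    rw [nsq_prod (mv (blk B) s)]
    simp only [mv_blk]
    exact single_le_sum (f := fun b => nsq (mv B fun i => s (b, i))) (fun _ _ => nsq_nonneg _)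
      (mem_univ b)
  have e7 := hη (fun i => σ (Sum.inr (b, i))) l
  have e8 : nsq (mv B fun i => σ (Sum.inr (b, i))) ≤ 6 * Bc ^ 2 * nsq (mv A D + mv (blk B) s) := by
    have := mul_le_mul_of_nonneg_right (one_le_pow₀ hB (n := 2)) e0
    linarith
  have e9 := mul_le_mul_of_nonneg_left e8 hη0
  have e10 := mul_le_mul_of_nonneg_left e3 (show 0 ≤ (Cm : ℝ) ^ 2 * k by positivity)
  have e11 := mul_le_mul_of_nonneg_right hη' e0
  have e12 : (2 * (Cm : ℝ) ^ 2 * Bc * k / Fintype.card (β × ι) + 12 * Bc ^ 2 * η) *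
      nsq (mv A D + mv (blk B) s) =
      2 * ((Cm : ℝ) ^ 2 * k * (Bc / Fintype.card (β × ι) * nsq (mv A D + mv (blk B) s))) +
      2 * (η * (6 * Bc ^ 2 * nsq (mv A D + mv (blk B) s))) := by ring
  nlinarith [sq_nonneg (mv A D (b, l) - mv B (fun i => σ (Sum.inr (b, i))) l)]

end Vale.Agent.P318
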