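import Vale.Agent.P318.Avg
import Vale.Agent.P318.Geo

open Finset MeasureTheory

noncomputable section

namespace Vale.Agent.P318

section aux

variable {ι κ : Type} [Fintype ι] [Fintype κ] {A : ι → κ → ℤ} {Pj : (ι → ℝ) →ₗ[ℝ] (ι → ℝ)}

theorem coreB_orth (h2 : ∀ v σ, ip (v - Pj v) (mv A σ) = 0) (v : ι → ℝ) {u : ι → ℝ}
    (hu : InU A u) : ip (v - Pj v) u = 0 := by
  obtain ⟨σ, rfl⟩ := hu
  exact h2 v σ

theorem coreB_fix (h1 : ∀ v, InU A (Pj v)) (h2 : ∀ v σ, ip (v - Pj v) (mv A σ) = 0) {u : ι → ℝ}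
    (hu : InU A u) : Pj u = u := by
  have := coreB_orth h2 u (hu.sub (h1 u))
  rw [ip_self] at this
  exact (sub_eq_zero.1 (nsq_eq_zero this)).symm

theorem coreB_pyth (h1 : ∀ v, InU A (Pj v)) (h2 : ∀ v σ, ip (v - Pj v) (mv A σ) = 0) (v : ι → ℝ) :
    nsq (v - Pj v) ≤ nsq v ∧ nsq (Pj v) ≤ nsq v := by
  have := nsq_add (v - Pj v) (Pj v)
  rw [sub_add_cancel, coreB_orth h2 v (h1 v)] at this
  constructor <;> linarith [nsq_nonneg (v - Pj v), nsq_nonneg (Pj v)]

theorem coreB_nsq_le {v : ι → ℝ} {r : ℝ} (h : ∀ l, |v l| ≤ r) : nsq v ≤ Fintype.card ι * r ^ 2 := by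
  have := sum_le_card_nsmul univ (fun l => v l ^ 2) (r ^ 2) fun l _ =>
    sq_le_sq' (abs_le.1 (h l)).1 (abs_le.1 (h l)).2
  rwa [card_univ, nsmul_eq_mul] at this

theorem coreB_ip_le {p q : ι → ℝ} {r : ℝ} (h : ∀ l, |p l| ≤ r) : -ip p q ≤ r * l1 q := by
  rw [ip, l1, mul_sum, ← sum_neg_distrib]
  refine sum_le_sum fun l _ => (neg_le_abs _).trans ?_
  rw [abs_mul]
  exact mul_le_mul_of_nonneg_right (h l) (abs_nonneg _)

/-- the embedding -/
def coreX (Pj : (ι → ℝ) →ₗ[ℝ] (ι → ℝ)) (c : ι → ℝ) (a : ι → ℤ) : ι → ℝ :=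
  (zc a - c) - Pj (zc a - c)

omit [Fintype ι] in
theorem coreX_sub (c : ι → ℝ) (a b : ι → ℤ) :
    coreX Pj c a - coreX Pj c b = zc (a - b) - Pj (zc (a - b)) := by
  simp only [coreX, zc_sub, map_sub]
  abel

theorem coreX_eq (h1 : ∀ v, InU A (Pj v)) (h2 : ∀ v σ, ip (v - Pj v) (mv A σ) = 0) (c : ι → ℝ)
    (a : ι → ℤ) (t : κ → ℝ) :
    coreX Pj c a = (zc a - c - mv A t) - Pj (zc a - c - mv A t) := by
  rw [map_sub Pj (zc a - c), coreB_fix h1 h2 ⟨t, rfl⟩, coreX]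
  abel

omit [Fintype ι] in
theorem coreX_inZU (h1 : ∀ v, InU A (Pj v)) (c : ι → ℝ) (a b : ι → ℤ) :
    InZU A (coreX Pj c a - coreX Pj c b) := by
  obtain ⟨σ, hσ⟩ := h1 (zc (a - b))
  exact ⟨-σ, a - b, by rw [coreX_sub, hσ, mv_neg]; abel⟩

variable [DecidableEq ι] (W : Win)

theorem coreB_mem {Cm : ℕ} (hA : ∀ l i, |A l i| ≤ Cm) {c : ι → ℝ} (hc : c ∈ cube ι) {a b : ι → ℤ}
    (h : ∃ t ∈ cube κ, W.Phi (zc a - c - mv A t) ≠ 0) (hb : ∀ l, |b l| ≤ 1) :
    a + b ∈ zbox ι (Cm * Fintype.card κ + 4) := by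
  obtain ⟨t, ht, h⟩ := h
  refine mem_zbox.2 fun l => ?_
  have h1 := abs_le.1 (abs_le_of_Phi_ne W A (C := Cm) (fun l i => by exact_mod_cast hA l i) ht h l)
  have h2 := abs_le.1 (abs_le_one_of_mem_cube hc l)
  have h3 : |(b l : ℝ)| ≤ 1 := by exact_mod_cast hb l
  have h4 := abs_le.1 h3
  simp only [Pi.sub_apply, zc] at h1
  have : |((a l : ℝ) + b l)| ≤ Cm * Fintype.card κ + 4 :=
    abs_le.2 ⟨by linarith [h1.1, h2.1, h4.1], by linarith [h1.2, h2.2, h4.2]⟩
  rw [Pi.add_apply]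
  exact_mod_cast this

omit [Fintype ι] in
theorem coreB_single (l l' : ι) : |(Pi.single l 1 : ι → ℤ) l'| ≤ 1 := by
  by_cases h : l' = l <;> simp [h]

theorem coreB_sum_pm (A : ι → κ → ℤ) (y : ι → ℝ) (S : Finset (ι → ℤ)) :
    ∑ a ∈ S, pm W A (zc a - y) ≤ 1 := by
  have h := tsum_pm W A y
  have hs : Summable fun a : ι → ℤ => pm W A (zc a - y) := by
    by_contra hs
    rw [tsum_eq_zero_of_not_summable hs] at h
    exact zero_ne_one h
  exact (hs.sum_le_tsum S fun _ _ => pm_nonneg W A _).trans h.le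

omit [Fintype ι] [DecidableEq ι] in
theorem coreB_tsum (T : Finset (ι → ℤ)) (g : (ι → ℤ) → ℝ) (h : ∀ a, g a ≠ 0 → a ∈ T) :
    ∑' a, g a = ∑ v : T, g v.1 := by
  rw [sum_coe_sort T g]
  exact tsum_eq_sum fun a ha => by_contra fun h' => ha (h a h')

theorem coreB_sum_pm' (A : ι → κ → ℤ) (y : ι → ℝ) {T : Finset (ι → ℤ)} (S : Finset T) :
    ∑ v ∈ S, pm W A (zc v.1 - y) ≤ 1 := by
  have := coreB_sum_pm W A y (S.map (Function.Embedding.subtype _))
  rwa [sum_map] at this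

/-- the edge weights -/
def coreW (A : ι → κ → ℤ) (c : ι → ℝ) (a b : ι → ℤ) : ℝ :=
  ∑ l, if b = a + Pi.single l 1 then ew W A l (zc a - c) else 0

theorem coreW_out {T : Finset (ι → ℤ)} {c : ι → ℝ}
    (hT : ∀ a l, ew W A l (zc a - c) ≠ 0 → a + Pi.single l 1 ∈ T) (a : ι → ℤ) (Φ : (ι → ℤ) → ℝ) :
    ∑ v : T, coreW W A c a v.1 * Φ v.1 = ∑ l, ew W A l (zc a - c) * Φ (a + Pi.single l 1) := by
  rw [sum_coe_sort T fun b => coreW W A c a b * Φ b]
  simp only [coreW, sum_mul]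
  rw [sum_comm]
  refine sum_congr rfl fun l _ => ?_
  simp only [ite_mul, zero_mul, sum_ite_eq']
  split_ifs with h
  · rfl
  · rw [not_not.1 fun h' => h (hT a l h'), zero_mul]

theorem coreW_in (T : Finset (ι → ℤ)) (c : ι → ℝ) (b : ι → ℤ) :
    ∑ v : T, coreW W A c v.1 b ≤ ∑ l, ew W A l (zc b - (c + Pi.single l 1)) := by
  rw [sum_coe_sort T fun a => coreW W A c a b]
  simp only [coreW]
  rw [sum_comm]
  refine sum_le_sum fun l _ => ?_
  simp only [← sub_eq_iff_eq_add, sum_ite_eq]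
  split_ifs
  · rw [zc_sub, zc_single, sub_sub, add_comm]
  · exact ew_nonneg W A l _

theorem coreW_bad {T : Finset (ι → ℤ)} {c : ι → ℝ}
    (hT : ∀ a l, ew W A l (zc a - c) ≠ 0 → a + Pi.single l 1 ∈ T) (Bd : Finset T) {s : ℝ}
    (hs : 0 < s) : ∑ v ∈ Bd, ∑ v' : T, (coreW W A c v.1 v'.1 + coreW W A c v'.1 v.1) ≤
      W.kap * Fintype.card ι * (s * ∑ v ∈ Bd, pm W A (zc v.1 - c) + 1 / s) := by
  have hk : 0 ≤ W.kap := zero_le_one.trans W.one_le_kap
  have h1 : ∀ v : T, ∑ v' : T, (coreW W A c v.1 v'.1 + coreW W A c v'.1 v.1) ≤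
      ∑ l, W.kap / 2 * (2 * s * pm W A (zc v.1 - c) + 1 / s * (pm W A (zc v.1 - (c - Pi.single l 1)) +
        pm W A (zc v.1 - (c + Pi.single l 1)))) := fun v => by
    have a1 := coreW_out W hT v.1 fun _ => 1
    simp only [mul_one] at a1
    rw [sum_add_distrib, a1]
    refine (add_le_add le_rfl (coreW_in W T c v.1)).trans ?_
    rw [← sum_add_distrib]
    refine sum_le_sum fun l _ => ?_
    have a2 := ew_le W A l (zc v.1 - c) hs
    have a3 := ew_le W A l (zc v.1 - (c + Pi.single l 1)) (one_div_pos.2 hs)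
    rw [show zc v.1 - c + Pi.single l 1 = zc v.1 - (c - Pi.single l 1) by abel] at a2
    rw [show zc v.1 - (c + Pi.single l 1) + Pi.single l 1 = zc v.1 - c by abel,
      div_div_eq_mul_div, div_one] at a3
    refine (add_le_add a2 a3).trans (le_of_eq ?_)
    ring
  refine (sum_le_sum fun v _ => h1 v).trans ?_
  rw [sum_comm]
  refine (sum_le_card_nsmul _ _ (W.kap * (s * ∑ v ∈ Bd, pm W A (zc v.1 - c) + 1 / s))
    fun l _ => ?_).trans (le_of_eq ?_)
  · rw [← mul_sum, sum_add_distrib, ← mul_sum, ← mul_sum, sum_add_distrib]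
    have a1 := add_le_add (coreB_sum_pm' W A (c - Pi.single l 1) Bd)
      (coreB_sum_pm' W A (c + Pi.single l 1) Bd)
    have a2 := mul_le_mul_of_nonneg_left a1 (mul_nonneg hk (one_div_pos.2 hs).le)
    linarith
  · rw [card_univ, nsmul_eq_mul]
    ring

theorem coreB_far (hrow : ∀ l, A l ≠ 0) (h1 : ∀ v, InU A (Pj v))
    (h2 : ∀ v σ, ip (v - Pj v) (mv A σ) = 0) {T : Finset (ι → ℤ)} {c : ι → ℝ}
    (hT : ∀ a, (∃ t ∈ cube κ, W.Phi (zc a - c - mv A t) ≠ 0) → a ∈ T) {Bad : Set (ι → ℝ)}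
    (hB : MeasurableSet Bad) (hs : ∀ χ ∉ Bad, ∀ l, |Pj χ l| ≤ W.lam / 2)
    (hδ : ∑ a ∈ T, ∫ t in cube κ, Bad.indicator W.Phi (zc a - c - mv A t) ≤ 1 / 500) (r : ι → ℝ) :
    (Fintype.card ι : ℝ) / 400 ≤ ∑ v : T, pm W A (zc v.1 - c) * nsq (coreX Pj c v.1 - r) := by
  have cm := continuous_mv A
  have cP : Continuous (W.Phi : (ι → ℝ) → ℝ) := W.continuous_Phi
  have cy : ∀ a, Continuous fun t => zc a - c - mv A t := fun a => continuous_const.sub cm
  have cn : ∀ a, Continuous fun t => nsq (zc a - c - mv A t - r) := fun a =>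
    continuous_finsetSum _ fun l _ =>
      ((continuous_apply l).comp ((cy a).sub continuous_const)).pow 2
  have a1 := far_bound W A hrow c r
  have a2 := integral_tsum_lattice W.Phi (fun x hx => W.abs_le_one_of_Phi_ne hx) cP
    (fun t => c + mv A t) (continuous_const.add cm) (fun t a => nsq (zc a - c - mv A t - r)) cn
  simp only [← sub_sub] at a2
  rw [IE, a2, tsum_eq_sum (s := T) fun a ha => setIntegral_eq_zero_of_forall_eq_zero fun t ht => by
    rw [not_not.1 fun h' => ha (hT a ⟨t, ht, h'⟩), zero_mul]] at a1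
  have hM : (0 : ℝ) ≤ Fintype.card ι := Nat.cast_nonneg _
  have a3 : ∀ a, ∫ t in cube κ, W.Phi (zc a - c - mv A t) * nsq (zc a - c - mv A t - r) ≤
      2 * (pm W A (zc a - c) * nsq (coreX Pj c a - r)) +
        Fintype.card ι / 20000 * pm W A (zc a - c) +
        2 * Fintype.card ι * ∫ t in cube κ, Bad.indicator W.Phi (zc a - c - mv A t) := fun a => by
    have i1 : IntegrableOn (fun t => W.Phi (zc a - c - mv A t)) (cube κ) :=
      integrableOn_cube (cP.comp (cy a))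
    have i2 : IntegrableOn (fun t => Bad.indicator W.Phi (zc a - c - mv A t)) (cube κ) :=
      Integrable.indicator i1 ((cy a).measurable hB)
    have i3 := i1.const_mul (2 * nsq (coreX Pj c a - r) + Fintype.card ι / 20000)
    have b1 : ∫ t in cube κ, W.Phi (zc a - c - mv A t) * nsq (zc a - c - mv A t - r) ≤
        ∫ t in cube κ, ((2 * nsq (coreX Pj c a - r) + Fintype.card ι / 20000) *
          W.Phi (zc a - c - mv A t) +
          2 * Fintype.card ι * Bad.indicator W.Phi (zc a - c - mv A t)) := by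
      refine integral_mono (integrableOn_cube ((cP.comp (cy a)).mul (cn a)))
        (i3.add (i2.const_mul _)) fun t => ?_
      simp only [coreX_eq h1 h2 c a t]
      generalize zc a - c - mv A t = χ
      have p0 := W.Phi_nonneg χ
      have p1 := nsq_add_le (χ - Pj χ - r) (Pj χ)
      rw [show χ - Pj χ - r + Pj χ = χ - r by abel] at p1
      have p2 := mul_le_mul_of_nonneg_left p1 p0
      by_cases hχ : χ ∈ Bad
      · rw [Set.indicator_of_mem hχ]
        rcases p0.eq_or_lt with p3 | p3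
        · simp [← p3]
        · have p4 := mul_le_mul_of_nonneg_left ((coreB_pyth h1 h2 χ).2.trans
            (coreB_nsq_le (W.abs_le_one_of_Phi_ne p3.ne'))) p0
          have p5 := mul_nonneg hM p0
          linarith
      · rw [Set.indicator_of_notMem hχ]
        have p3 : (W.lam / 2) ^ 2 ≤ 1 / 40000 := by nlinarith [W.lam_pos, W.lam_le]
        have p4 := mul_le_mul_of_nonneg_left ((coreB_nsq_le (hs χ hχ)).trans
          (mul_le_mul_of_nonneg_left p3 hM)) p0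
        linarith
    rw [integral_add i3 (i2.const_mul _), integral_const_mul, integral_const_mul] at b1
    refine b1.trans (le_of_eq ?_)
    simp only [pm]
    ring
  have a4 := a1.trans (sum_le_sum fun a _ => a3 a)
  rw [sum_add_distrib, sum_add_distrib, ← mul_sum, ← mul_sum, ← mul_sum] at a4
  have a5 := mul_le_mul_of_nonneg_left (coreB_sum_pm W A c T) hM
  have a6 := mul_le_mul_of_nonneg_left hδ hM
  rw [sum_coe_sort T fun a => pm W A (zc a - c) * nsq (coreX Pj c a - r)]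
  linarith

end aux

/-- the graph built from a system satisfying the invariant -/
theorem core_of_inv {ι κ : Type} [Fintype ι] [DecidableEq ι] [Fintype κ] (W : Win)
    (A : ι → κ → ℤ) {Cm : ℕ} {G Γ Ka η C0 C1 C2 ε δ δ' : ℝ}
    (h : Invt W A Cm G Γ Ka η C0 C1 C2 ε δ) (hη : 0 < η) (hrow : ∀ l, A l ≠ 0) (hδ : 0 ≤ δ)
    (hC0 : 0 ≤ C0)
    (hδ' : δ + 2 * Fintype.card ι * Real.exp (-(W.lam ^ 2 / (8 * η))) ≤ δ') (h5 : δ' ≤ 1 / 500) :
    ∃ (V : Type) (_ : Fintype V) (_ : DecidableEq V) (μ : V → ℝ) (w : V → V → ℝ)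
      (x : V → ι → ℝ) (Gd : Finset V),
      Core μ w x Gd G (W.kap * Fintype.card ι) δ' ε (2 * C0) ∧
        Fintype.card V ≤ (2 * (Cm * Fintype.card κ + 4) + 1) ^ Fintype.card ι := by
  classical
  have _ := hC0
  obtain ⟨Pj, h1, h2⟩ := exists_proj A
  obtain ⟨Bad0, b1, b2, b3⟩ := h.bad
  obtain ⟨s1, s2⟩ := slab_prob W A hη h.spread Pj h1 h2
  have e0 : 0 ≤ 2 * Fintype.card ι * Real.exp (-(W.lam ^ 2 / (8 * η))) := by positivity
  obtain ⟨Bad, hB, hBm, hd, hs⟩ : ∃ Bad : Set (ι → ℝ), MeasurableSet Bad ∧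
      W.piNu ι Bad ≤ ENNReal.ofReal δ' ∧ (∀ χ ∉ Bad, Dec A W.lam C1 C2 ε χ) ∧
      ∀ χ ∉ Bad, ∀ l, |Pj χ l| ≤ W.lam / 2 := by
    refine ⟨_, b1.union s1, (measure_union_le _ _).trans ((add_le_add b2 s2).trans ?_),
      fun χ hχ => b3 χ fun h' => hχ (Or.inl h'),
      fun χ hχ l => not_lt.1 fun h' => hχ (Or.inr ⟨l, h'⟩)⟩
    rw [← ENNReal.ofReal_add hδ e0]
    exact ENNReal.ofReal_le_ofReal hδ'
  obtain ⟨c, hc, ho⟩ := exists_offset W A Bad hB (by linarith) hBm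
  set T := zbox ι (Cm * Fintype.card κ + 4) with hT
  have m0 : ∀ a, (∃ t ∈ cube κ, W.Phi (zc a - c - mv A t) ≠ 0) → a ∈ T := fun a ha => by
    simpa using coreB_mem W h.ent hc ha (b := 0) fun l => by simp
  have m1 : ∀ a l, ew W A l (zc a - c) ≠ 0 → a + Pi.single l 1 ∈ T := fun a l ha =>
    coreB_mem W h.ent hc (exists_of_ew_ne W A ha) (coreB_single l)
  have eE : ∀ f : (ι → ℤ) → ℝ, Ex W A c f = ∑ v : T, pm W A (zc v.1 - c) * f v.1 := fun f =>
    coreB_tsum T _ fun a ha => m0 a (exists_of_pm_ne W A (left_ne_zero_of_mul ha))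
  have eS : ∑ v : T, pm W A (zc v.1 - c) = 1 := by
    rw [← tsum_pm W A c]
    exact (coreB_tsum T _ fun a ha => m0 a (exists_of_pm_ne W A ha)).symm
  set Gd : Finset T := univ.filter fun v =>
    ∃ t ∈ cube κ, W.Phi (zc v.1 - c - mv A t) ≠ 0 ∧ zc v.1 - c - mv A t ∉ Bad with hGd
  have g1 : ∀ v ∈ Gd, ∃ χ ∉ Bad, coreX Pj c v.1 = χ - Pj χ ∧ ∀ l, |χ l| ≤ 1 / 2 + W.lam / 2 :=
    fun v hv => by
      obtain ⟨t, -, a1, a2⟩ := (mem_filter.1 hv).2
      exact ⟨_, a2, coreX_eq h1 h2 c v.1 t, fun l => (W.abs_lt_of_Phi_ne a1 l).le⟩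
  have g2 : ∀ v ∈ Gd, ∀ l, |coreX Pj c v.1 l| ≤ 1 / 2 + W.lam := fun v hv l => by
    obtain ⟨χ, a1, a2, a3⟩ := g1 v hv
    rw [a2, Pi.sub_apply]
    exact (abs_sub _ _).trans (by linarith [a3 l, hs χ a1 l])
  have g3 : ∀ (u y : T) (u0 : ι → ℝ), InU A u0 → ip (coreX Pj c u.1 - coreX Pj c y.1) u0 = 0 :=
    fun u y u0 hu => by rw [coreX_sub, coreB_orth h2 _ hu]
  have hl := W.lam_pos
  refine ⟨T, inferInstance, inferInstance, fun v => pm W A (zc v.1 - c),
    fun v v' => coreW W A c v.1 v'.1, fun v => coreX Pj c v.1, Gd,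
    ⟨fun v => pm_nonneg W A _, eS, fun v v' => sum_nonneg fun l _ => ?_, fun g hg => ?_, ?_,
      fun Bd s hs => coreW_bad W m1 Bd hs, fun v v' hw => ?_, ?_, fun v hv => ?_,
      fun u hu v hv y hy => ?_, fun u hu v hv y hy => ?_,
      coreB_far W hrow h1 h2 m0 hB hs ((ho T).trans h5)⟩, ?_⟩
  · split_ifs
    · exact ew_nonneg W A l _
    · exact le_rfl
  · have a1 := h.pi c (fun a => g (coreX Pj c a))
      (fun a => by rcases hg (coreX Pj c a) with e | e <;> simp [e]) fun a z hz => by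
        have := coreX_sub (Pj := Pj) c (a + z) a
        rw [add_sub_cancel_left, coreB_fix h1 h2 hz, sub_self, sub_eq_zero] at this
        simp only [this]
    have a2 : (fun a => g (coreX Pj c a) ^ 2) = fun a => g (coreX Pj c a) := funext fun a => by
      rcases hg (coreX Pj c a) with e | e <;> simp [e]
    rw [a2, eE] at a1
    refine le_trans (le_of_eq (by ring)) (a1.trans (le_of_eq ?_))
    rw [Per, sum_congr rfl fun l _ => coreB_tsum T _ fun a ha =>
      m0 a (exists_of_ew_ne W A (left_ne_zero_of_mul ha)), sum_comm]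
    refine sum_congr rfl fun v _ => ?_
    rw [coreW_out W m1 v.1 fun b => |g (coreX Pj c v.1) - g (coreX Pj c b)|]
    exact sum_congr rfl fun l _ => by rw [abs_sub_comm]
  · have a1 := coreW_bad W m1 univ one_pos
    simp only [sum_add_distrib] at a1
    rw [eS, sum_comm (f := fun v v' : T => coreW W A c v'.1 v.1)] at a1
    linarith
  · obtain ⟨l, -, hl⟩ := exists_ne_zero_of_sum_ne_zero hw
    have e : v'.1 = v.1 + Pi.single l 1 := by_contra fun e => hl (if_neg e)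
    rw [nsq_sub_comm, coreX_sub, e, add_sub_cancel_left]
    refine (coreB_pyth h1 h2 _).1.trans (le_of_eq ?_)
    rw [zc_single, ← ip_self, ip_single]
    simp
  · have a1 := ho (Gdᶜ.map (Function.Embedding.subtype _))
    rw [sum_map] at a1
    refine le_trans (le_of_eq (sum_congr rfl fun v hv => ?_)) a1
    refine setIntegral_congr_fun measurableSet_cube fun t ht => ?_
    by_cases hχ : zc v.1 - c - mv A t ∈ Bad
    · exact (Set.indicator_of_mem hχ _).symm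
    · exact (not_not.1 fun h' => mem_compl.1 hv (mem_filter.2 ⟨mem_univ _, t, ht, h', hχ⟩)).trans
        (Set.indicator_of_notMem hχ _).symm
  · obtain ⟨t, -, a1⟩ : ∃ t ∈ cube κ, W.Phi (zc v.1 - c - mv A t) ≠ 0 := by
      rcases hv with hv | hv
      · exact exists_of_pm_ne W A hv
      · obtain ⟨t, a0, a1, -⟩ := (mem_filter.1 hv).2
        exact ⟨t, a0, a1⟩
    rw [coreX_eq h1 h2 c v.1 t]
    simpa using (coreB_pyth h1 h2 _).1.trans (coreB_nsq_le (W.abs_le_one_of_Phi_ne a1))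
  · obtain ⟨χ, a1, a2, a3⟩ := g1 y hy
    have a4 : ∀ u ∈ Gd, ∀ l, |χ l + (coreX Pj c u.1 - coreX Pj c y.1) l| ≤ 1 / 2 + 2 * W.lam :=
      fun u hu l => by
        rw [a2, show χ l + (coreX Pj c u.1 - (χ - Pj χ)) l = coreX Pj c u.1 l + Pj χ l by
          simp only [Pi.sub_apply]; ring]
        exact (abs_add_le _ _).trans (by linarith [g2 u hu l, hs χ a1 l])
    obtain ⟨u0, a5, S, -, a6⟩ := hd χ a1 (coreX Pj c u.1 - coreX Pj c y.1)
      (coreX Pj c v.1 - coreX Pj c y.1) 0 0 ⟨by rw [sub_zero]; exact coreX_inZU h1 c _ _,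
        by rw [sub_zero]; exact coreX_inZU h1 c _ _, fun l => by linarith [a3 l], a4 u hu, a4 v hv⟩
    rw [sub_zero, ip_sub_right _ _ u0, g3 u y u0 a5, nsq_zero] at a6
    simpa [nsqOn] using a6
  · obtain ⟨u0, a1, a2⟩ := h.dec0 _ (coreX_inZU h1 c v.1 y.1)
    have a3 := coreB_ip_le (p := coreX Pj c u.1 - coreX Pj c y.1)
      (q := coreX Pj c v.1 - coreX Pj c y.1 - u0) (r := 2) fun l =>
        (abs_sub _ _).trans (by linarith [g2 u hu l, g2 y hy l, W.lam_le])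
    rw [ip_sub_right _ _ u0, g3 u y u0 a1] at a3
    linarith
  · rw [Fintype.card_coe, card_zbox]

end Vale.Agent.P318
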