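import Vale.Agent.P318.Basic

open Finset MeasureTheory

noncomputable section

namespace Vale.Agent.P318

variable {ι κ β K : Type}

section sums
variable [Fintype ι] [DecidableEq ι]

theorem mem_zbox {R : ℕ} {a : ι → ℤ} : a ∈ zbox ι R ↔ ∀ l, |a l| ≤ R := by
  simp [zbox, Fintype.mem_piFinset, abs_le]
theorem card_zbox (R : ℕ) : (zbox ι R).card = (2 * R + 1) ^ Fintype.card ι := by
  have h : (Finset.Icc (-(R : ℤ)) R).card = 2 * R + 1 := by rw [Int.card_Icc]; omega
  simp only [zbox, Fintype.card_piFinset, h, prod_const, card_univ]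
/-- only finitely many lattice points are within distance `R` of a bounded set -/
theorem exists_zbox (C R : ℝ) : ∃ n : ℕ, ∀ (y : ι → ℝ) (a : ι → ℤ), (∀ l, |y l| ≤ C) →
    (∀ l, |(zc a - y) l| ≤ R) → a ∈ zbox ι n := by
  obtain ⟨n, hn⟩ := exists_nat_ge (C + R)
  refine ⟨n, fun y a h1 h2 => mem_zbox.2 fun l => ?_⟩
  have h3 := abs_add_le ((a l : ℝ) - y l) (y l)
  have h4 : |(a l : ℝ) - y l| ≤ R := h2 l
  rw [sub_add_cancel] at h3
  have h5 : |(a l : ℝ)| ≤ n := by linarith [h1 l]
  exact_mod_cast h5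
theorem cube_zero {R C : ℝ} {w : (ι → ℝ) → ℝ} (hw : ∀ x, w x ≠ 0 → ∀ l, |x l| ≤ R) :
    ∃ n : ℕ, ∀ y : ι → ℝ, ‖y‖ ≤ C → ∀ a ∉ zbox ι n, w (zc a - y) = 0 := by
  obtain ⟨n, hn⟩ := exists_zbox (ι := ι) C R
  refine ⟨n, fun y hy a ha => ?_⟩
  by_contra h
  exact ha (hn y a (fun l => (norm_le_pi_norm y l).trans hy) (hw _ h))
theorem summable_lattice {R : ℝ} (w : (ι → ℝ) → ℝ) (hw : ∀ x, w x ≠ 0 → ∀ l, |x l| ≤ R)
    (y : ι → ℝ) (g : (ι → ℤ) → ℝ) : Summable fun a : ι → ℤ => w (zc a - y) * g a := by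
  obtain ⟨n, hn⟩ := cube_zero (C := ‖y‖) hw
  exact summable_of_ne_finset_zero (s := zbox ι n) fun a ha => by rw [hn y le_rfl a ha, zero_mul]
theorem tsum_pi_prod {X : Type} (g : ι → X → ℝ) (T : Finset X) (hT : ∀ l, ∀ x ∉ T, g l x = 0) :
    ∑' a : ι → X, ∏ l, g l (a l) = ∏ l, ∑' x, g l x := by
  rw [tsum_eq_sum (s := Fintype.piFinset fun _ => T), ← Finset.prod_univ_sum]
  · exact prod_congr rfl fun l _ => (tsum_eq_sum (hT l)).symm
  · intro a ha
    rw [Fintype.mem_piFinset, not_forall] at ha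
    obtain ⟨l, hl⟩ := ha
    exact prod_eq_zero (mem_univ l) (hT l _ hl)
/-- integer version: every factor vanishes outside a bounded set -/
theorem tsum_int_prod (g : ι → ℤ → ℝ) (R : ℝ) (hT : ∀ l n, g l n ≠ 0 → |(n : ℝ)| ≤ R) :
    ∑' a : ι → ℤ, ∏ l, g l (a l) = ∏ l, ∑' n, g l n := by
  obtain ⟨m, hm⟩ := exists_nat_ge R
  refine tsum_pi_prod g (Finset.Icc (-(m : ℤ)) m) fun l n hn => ?_
  by_contra h
  have h1 : |(n : ℝ)| ≤ m := (hT l n h).trans hm
  have h2 : |n| ≤ (m : ℤ) := by exact_mod_cast h1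
  exact hn (Finset.mem_Icc.2 (abs_le.1 h2))
theorem continuous_tsum_lattice {Y : Type} [TopologicalSpace Y] {R : ℝ} (w : (ι → ℝ) → ℝ)
    (hw : ∀ x, w x ≠ 0 → ∀ l, |x l| ≤ R) (hwc : Continuous w) (y : Y → ι → ℝ)
    (hy : Continuous y) (g : Y → (ι → ℤ) → ℝ) (hg : ∀ a, Continuous fun τ => g τ a) :
    Continuous fun τ => ∑' a : ι → ℤ, w (zc a - y τ) * g τ a := by
  refine continuous_iff_continuousAt.2 fun τ0 => ?_
  obtain ⟨n, hn⟩ := cube_zero (C := ‖y τ0‖ + 1) hw
  have h1 : Continuous fun τ => ∑ a ∈ zbox ι n, w (zc a - y τ) * g τ a :=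
    continuous_finsetSum _ fun a _ => (hwc.comp (continuous_const.sub hy)).mul (hg a)
  refine h1.continuousAt.congr ?_
  filter_upwards [hy.norm.continuousAt.eventually (gt_mem_nhds (lt_add_one ‖y τ0‖))] with τ hτ
  exact (tsum_eq_sum fun a ha => by rw [hn _ hτ.le a ha, zero_mul]).symm

end sums

variable [Fintype κ]

theorem isCompact_cube : IsCompact (cube κ) := isCompact_Icc
theorem measurableSet_cube : MeasurableSet (cube κ) := measurableSet_Icc
theorem abs_le_one_of_mem_cube {t : κ → ℝ} (h : t ∈ cube κ) (i : κ) : |t i| ≤ 1 := by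
  have h1 : (0 : ℝ) ≤ t i := h.1 i
  have h2 : t i ≤ 1 := h.2 i
  rwa [abs_of_nonneg h1]
theorem volume_cube : volume (cube κ) = 1 := by
  simp [cube, Real.volume_Icc_pi]
theorem integral_cube_const (c : ℝ) : ∫ _ in cube κ, c = c := by
  rw [setIntegral_const, Measure.real, volume_cube]; simp
theorem integrableOn_cube {E : Type} [NormedAddCommGroup E] {G : (κ → ℝ) → E}
    (hG : Continuous G) : IntegrableOn G (cube κ) :=
  hG.continuousOn.integrableOn_compact isCompact_cube
theorem continuous_integral_cube {Y : Type} [TopologicalSpace Y] [FirstCountableTopology Y]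
    [LocallyCompactSpace Y] {G : Y → (κ → ℝ) → ℝ} (hG : Continuous (Function.uncurry G)) :
    Continuous fun y => ∫ t in cube κ, G y t :=
  continuous_parametric_integral_of_continuous hG isCompact_cube
/-- translation invariance for periodic functions -/
theorem integral_cube_translate {E : Type} [NormedAddCommGroup E] [NormedSpace ℝ E]
    (G : (κ → ℝ) → E) (hG : Continuous G) (hper : ∀ τ (n : κ → ℤ), G (τ + zc n) = G τ)
    (w : κ → ℝ) : ∫ τ in cube κ, G (τ + w) = ∫ τ in cube κ, G τ := by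
  have _ := hG
  have h0 := ZSpan.isAddFundamentalDomain (Pi.basisFun ℝ κ) volume
  have hae : ZSpan.fundamentalDomain (Pi.basisFun ℝ κ) =ᵐ[volume] cube κ := by
    rw [ZSpan.fundamentalDomain_pi_basisFun]
    exact Measure.univ_pi_Ico_ae_eq_Icc
  have h1 := h0.preimage_of_equiv (H := Submodule.span ℤ (Set.range (Pi.basisFun ℝ κ)))
    (measurePreserving_add_right volume (-w)).quasiMeasurePreserving (e := id)
    Function.bijective_id fun g x => by
      simp only [id, Submodule.vadd_def, vadd_eq_add, add_assoc]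
  haveI : VAddInvariantMeasure (Submodule.span ℤ (Set.range (Pi.basisFun ℝ κ))) (κ → ℝ) volume :=
    ⟨fun g s _ => measure_preimage_add volume g.1 s⟩
  have h2 := h1.setIntegral_eq h0 (f := G) fun g x => by
    choose n hn using fun i => (Module.Basis.mem_span_iff_repr_mem ℤ (Pi.basisFun ℝ κ) g.1).1 g.2 i
    have : g.1 = zc n := funext fun i => by simpa [zc] using (hn i).symm
    rw [Submodule.vadd_def, vadd_eq_add, add_comm, this, hper]
  rw [← setIntegral_congr_set hae, ← setIntegral_congr_set hae, ← h2,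
    ← (measurePreserving_add_right volume (-w)).setIntegral_preimage_emb
      (measurableEmbedding_addRight _)]
  simp
theorem integral_tsum_lattice [Fintype ι] [DecidableEq ι] {R : ℝ} (w : (ι → ℝ) → ℝ)
    (hw : ∀ x, w x ≠ 0 → ∀ l, |x l| ≤ R) (hwc : Continuous w) (y : (κ → ℝ) → ι → ℝ)
    (hy : Continuous y) (g : (κ → ℝ) → (ι → ℤ) → ℝ) (hg : ∀ a, Continuous fun τ => g τ a) :
    ∫ τ in cube κ, ∑' a : ι → ℤ, w (zc a - y τ) * g τ a =
      ∑' a : ι → ℤ, ∫ τ in cube κ, w (zc a - y τ) * g τ a := by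
  obtain ⟨C, hC⟩ := isCompact_cube.exists_bound_of_continuousOn hy.continuousOn
  obtain ⟨n, hn⟩ := cube_zero (C := C) hw
  rw [tsum_eq_sum (s := zbox ι n), ← integral_finsetSum]
  · exact setIntegral_congr_fun measurableSet_cube fun τ hτ =>
      tsum_eq_sum fun a ha => by rw [hn _ (hC τ hτ) a ha, zero_mul]
  · exact fun a _ => integrableOn_cube ((hwc.comp (continuous_const.sub hy)).mul (hg a))
  · intro a ha
    exact setIntegral_eq_zero_of_forall_eq_zero fun τ hτ => by rw [hn _ (hC τ hτ) a ha, zero_mul]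
theorem cube_restrict : (volume : Measure (κ → ℝ)).restrict (cube κ) =
    Measure.pi fun _ => (volume : Measure ℝ).restrict (Set.Icc 0 1) := by
  rw [← Measure.restrict_pi_pi, cube, ← Set.pi_univ_Icc, volume_pi]
  rfl
/-- Fubini on the cube of the next level -/
theorem integral_cube_sum_prod [Fintype K] [Fintype β] (r : (K → ℝ) → ℝ)
    (g : β → (K → ℝ) → (κ → ℝ) → ℝ) (hr : Continuous r)
    (hg : ∀ b, Continuous (Function.uncurry (g b))) :
    ∫ τ in cube (K ⊕ β × κ), r (fun i => τ (Sum.inl i)) *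
        ∏ b, g b (fun i => τ (Sum.inl i)) (fun i => τ (Sum.inr (b, i))) =
      ∫ t in cube K, r t * ∏ b, ∫ σ in cube κ, g b t σ := by
  haveI : IsProbabilityMeasure ((volume : Measure ℝ).restrict (Set.Icc 0 1)) := ⟨by simp⟩
  have hc : Continuous fun τ : K ⊕ β × κ → ℝ => r (fun i => τ (Sum.inl i)) *
      ∏ b, g b (fun i => τ (Sum.inl i)) (fun i => τ (Sum.inr (b, i))) :=
    (hr.comp (by fun_prop)).mul (continuous_finsetProd _ fun b _ => (hg b).comp
      (f := fun τ : K ⊕ β × κ → ℝ => (fun i => τ (Sum.inl i), fun i => τ (Sum.inr (b, i))))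
      (by fun_prop))
  have hi := integrableOn_cube hc
  have hm := measurePreserving_sumPiEquivProdPi_symm (X := fun _ : K ⊕ β × κ => ℝ)
    fun _ => (volume : Measure ℝ).restrict (Set.Icc 0 1)
  rw [IntegrableOn, cube_restrict, ← hm.integrable_comp_emb
    (MeasurableEquiv.measurableEmbedding _)] at hi
  simp only [cube_restrict]
  rw [← hm.integral_comp']
  refine (integral_prod _ hi).trans (integral_congr_ae (Filter.Eventually.of_forall fun t => ?_))
  have hcur : MeasurePreserving (MeasurableEquiv.curry β κ ℝ)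
      (Measure.pi fun _ => (volume : Measure ℝ).restrict (Set.Icc 0 1))
      (Measure.pi fun _ => Measure.pi fun _ => (volume : Measure ℝ).restrict (Set.Icc 0 1)) := by
    refine ⟨(MeasurableEquiv.curry β κ ℝ).measurable, ?_⟩
    simpa only [Measure.infinitePi_eq_pi] using Measure.infinitePi_map_curry
      fun (_ : β) (_ : κ) => (volume : Measure ℝ).restrict (Set.Icc 0 1)
  simp only
  rw [← integral_fintype_prod_eq_prod, ← hcur.integral_comp', ← integral_const_mul]
  rfl
/-- a nonzero integer linear form is uniformly distributed modulo one -/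
theorem integral_cube_uniform (α : κ → ℤ) (hα : α ≠ 0) (γ : ℝ → ℝ) (hγ : Continuous γ)
    (hper : ∀ s, γ (s + 1) = γ s) (c : ℝ) :
    ∫ t in cube κ, γ (c + ∑ i, (α i : ℝ) * t i) = ∫ s in (0 : ℝ)..1, γ s := by
  classical
  obtain ⟨i, hi⟩ := Function.ne_iff.1 hα
  have hi' : (α i : ℝ) ≠ 0 := by exact_mod_cast hi
  have hp : Function.Periodic γ 1 := hper
  have h1 : ∀ s : ℝ, ∫ t in cube κ, γ (c + ∑ i, (α i : ℝ) * t i) =
      ∫ t in cube κ, γ (s + (c + ∑ i, (α i : ℝ) * t i)) := by
    intro s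
    rw [← integral_cube_translate (fun t => γ (c + ∑ i, (α i : ℝ) * t i)) (by fun_prop)
      (fun τ n => ?_) (Pi.single i (s / α i))]
    · refine integral_congr_ae (Filter.Eventually.of_forall fun t => ?_)
      simp only [Pi.add_apply, mul_add, sum_add_distrib, Pi.single_apply, mul_ite, mul_zero,
        sum_ite_eq', mem_univ, if_true, mul_div_cancel₀ _ hi']
      congr 1; ring
    · rw [← hp.int_mul (∑ i, α i * n i) (c + ∑ i, (α i : ℝ) * τ i)]
      simp only [Pi.add_apply, zc, mul_add, sum_add_distrib, mul_one, add_assoc]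
      push_cast
      rfl
  have hc : Continuous (Function.uncurry fun (s : ℝ) (t : κ → ℝ) =>
      γ (s + (c + ∑ i, (α i : ℝ) * t i))) := by
    unfold Function.uncurry; fun_prop
  calc ∫ t in cube κ, γ (c + ∑ i, (α i : ℝ) * t i)
      = ∫ s in Set.Icc (0 : ℝ) 1, ∫ t in cube κ, γ (s + (c + ∑ i, (α i : ℝ) * t i)) := by
        simp only [← h1]
        rw [setIntegral_const]; simp
    _ = ∫ t in cube κ, ∫ s in Set.Icc (0 : ℝ) 1, γ (s + (c + ∑ i, (α i : ℝ) * t i)) := by
        refine integral_integral_swap ?_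
        rw [Measure.prod_restrict]
        exact hc.continuousOn.integrableOn_compact (isCompact_Icc.prod isCompact_cube)
    _ = ∫ _ in cube κ, ∫ s in (0 : ℝ)..1, γ s := by
        refine integral_congr_ae (Filter.Eventually.of_forall fun t => ?_)
        simp only
        rw [integral_Icc_eq_integral_Ioc, ← intervalIntegral.integral_of_le zero_le_one,
          intervalIntegral.integral_comp_add_right, zero_add, add_comm 1,
          hp.intervalIntegral_add_eq _ 0, zero_add]
    _ = _ := integral_cube_const _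

end Vale.Agent.P318
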