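import Vale.Agent.P318.Geo

open Finset MeasureTheory

noncomputable section

namespace Vale.Agent.P318

variable {β ι κ K : Type} [Fintype β] [DecidableEq β] [Fintype ι] [DecidableEq ι] [Fintype κ]
  [Fintype K]

theorem dec_abs_le_sq (n : ℤ) : |n| ≤ n ^ 2 := by
  rw [← sq_abs]
  exact Int.le_self_sq _

theorem dec0_base : Dec0 base0 1 := by
  rintro g ⟨σ, z, rfl⟩
  refine ⟨0, inU_zero _, ?_⟩
  have h1 : |(z () : ℝ)| ≤ (z () : ℝ) ^ 2 := by exact_mod_cast dec_abs_le_sq (z ())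
  simpa [l1, nsq, mv, zc] using h1

theorem dec_base {lam τ : ℝ} (h0 : 0 ≤ lam) (hτ : 0 < τ) (h : lam ≤ τ) (χ : Unit → ℝ) :
    Dec base0 lam 2 (1 / τ) (10 * τ) χ := by
  rintro p p' e e' ⟨-, ⟨σ, z, hz⟩, -, hp, hp'⟩
  have hn : p' () - e' () = z () := by simpa [mv, zc] using congrFun hz ()
  have h1 : |(z () : ℝ)| ≤ (z () : ℝ) ^ 2 := by exact_mod_cast dec_abs_le_sq (z ())
  refine ⟨0, inU_zero _, ?_⟩
  have a1 := sq_nonneg (p ())
  have a2 := sq_nonneg (p' ())
  have a3 := sq_nonneg (e ())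
  have a4 := sq_nonneg (e' ())
  by_cases h0 : z () = 0
  · refine ⟨∅, ?_, ?_⟩
    · simp only [card_empty, nsq, univ_unique, sum_singleton, PUnit.default_eq_unit, Nat.cast_zero]
      positivity
    · simp only [nsq, ip, nsqOn, univ_unique, sum_singleton, PUnit.default_eq_unit, sum_empty,
        Pi.sub_apply, hn, h0, Pi.zero_apply, Int.cast_zero, sub_zero, mul_zero, neg_zero]
      positivity
  · have h2 : (1 : ℝ) ≤ |(z () : ℝ)| := by exact_mod_cast Int.one_le_abs h0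
    have h3 : (z () : ℝ) ^ 2 ≤ 2 * p' () ^ 2 + 2 * e' () ^ 2 := by
      rw [← hn]; nlinarith [sq_nonneg (p' () + e' ())]
    refine ⟨univ, ?_, ?_⟩
    · simp only [nsq, univ_unique, sum_singleton,
        PUnit.default_eq_unit, Nat.cast_one, card_singleton]
      linarith
    · simp only [nsq, ip, nsqOn, univ_unique, sum_singleton, PUnit.default_eq_unit,
        Pi.sub_apply, hn, Pi.zero_apply, sub_zero]
      set n : ℝ := ((z () : ℤ) : ℝ)
      have b1 : |(χ () + p ()) - (χ () + p' ())| ≤ 1 + 4 * lam :=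
        (abs_sub _ _).trans (by linarith [hp (), hp' ()])
      have b2 : -(((χ () + p ()) - (χ () + p' ())) * n) ≤ (1 + 4 * lam) * |n| := by
        refine (neg_le_abs _).trans ?_
        rw [abs_mul]
        exact mul_le_mul_of_nonneg_right b1 (abs_nonneg _)
      have b3 : -(e' () * n) ≤ τ * n ^ 2 + 1 / τ * e' () ^ 2 := by
        have : τ * n ^ 2 + 1 / τ * e' () ^ 2 + e' () * n =
            1 / τ * ((τ * n + e' () / 2) ^ 2 + 3 / 4 * e' () ^ 2) := by
          field_simp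
          ring
        have h4 : 0 ≤ 1 / τ * ((τ * n + e' () / 2) ^ 2 + 3 / 4 * e' () ^ 2) := by positivity
        linarith
      have b4 : lam * |n| ≤ τ * n ^ 2 := mul_le_mul h h1 (abs_nonneg _) hτ.le
      have b5 : p () * n = ((χ () + p ()) - (χ () + p' ())) * n + n ^ 2 + e' () * n := by
        rw [← hn]; ring
      have b6 := mul_le_mul_of_nonneg_left h3 hτ.le
      have b7 : 0 ≤ 1 / τ * e () ^ 2 := by positivity
      have b8 := mul_nonneg hτ.le a1
      have b9 := mul_nonneg hτ.le a3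
      linarith

theorem Dec.mono {A : ι → κ → ℤ} {lam C1 C2 ε C1' C2' ε' : ℝ} {χ : ι → ℝ}
    (h : Dec A lam C1 C2 ε χ) (h1 : C1 ≤ C1') (h2 : C2 ≤ C2') (h3 : ε ≤ ε') :
    Dec A lam C1' C2' ε' χ := by
  intro p p' e e' ha
  obtain ⟨u, hu, S, hS, hi⟩ := h p p' e e' ha
  have hμ : 0 ≤ nsq p + nsq p' + nsq e + nsq e' :=
    add_nonneg (add_nonneg (add_nonneg (nsq_nonneg _) (nsq_nonneg _)) (nsq_nonneg _)) (nsq_nonneg _)
  exact ⟨u, hu, S, hS.trans (mul_le_mul_of_nonneg_right h1 hμ), hi.trans (add_le_add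
    (mul_le_mul_of_nonneg_right h3 hμ)
    (mul_le_mul_of_nonneg_right h2 (add_nonneg (nsqOn_nonneg _ _) (nsqOn_nonneg _ _))))⟩

variable {k Cm m : ℕ} {Bc : ℝ} {A : β × ι → Fin k → ℤ} {B : ι → κ → ℤ}

omit [DecidableEq ι] in
theorem dec_rig (h : RMP A (blk B) Cm Bc m) {g : β × ι → ℝ} (hg : InZU (stp A B) g)
    (hM : Bc * nsq g ≤ Fintype.card (β × ι)) : ∃ Δ : Fin k → ℝ,
      Fintype.card (β × ι) * nsq Δ ≤ Bc * nsq g ∧ ∀ b, InZU B fun l => (g - mv A Δ) (b, l) := by
  obtain ⟨σ, z, rfl⟩ := hg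
  rw [mv_stp] at hM ⊢
  obtain ⟨t, ⟨z', hz'⟩, ht⟩ := h.rig _ _ z hM
  refine ⟨_, ht, fun b => ⟨fun i => σ (Sum.inr (b, i)), fun l => z (b, l) + z' (b, l), ?_⟩⟩
  funext l
  simp only [mv_sub, hz', Pi.sub_apply, Pi.add_apply, mv_blk, zc, Int.cast_add]
  ring

theorem dec0_step (h : RMP A (blk B) Cm Bc m) (hB : 1 ≤ Bc) (hk : 0 < k)
    (hkM : k ≤ Fintype.card (β × ι)) {C0 C0' : ℝ} (h1 : 1 ≤ C0) (hd : Dec0 B C0)
    (h2 : 6 * Bc ^ 2 * C0 ≤ C0') : Dec0 (stp A B) C0' := by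
  intro g hg
  have g0 := nsq_nonneg g
  have hB2 : 1 ≤ Bc ^ 2 := one_le_pow₀ hB
  by_cases hM : Bc * nsq g ≤ Fintype.card (β × ι)
  · obtain ⟨Δ, hΔ, hb⟩ := dec_rig h hg hM
    choose u hu hl using fun b => hd _ (hb b)
    choose σ hσ using hu
    refine ⟨mv (stp A B) (Sum.elim Δ fun q => σ q.1 q.2), ⟨_, rfl⟩, ?_⟩
    have e1 : l1 (g - mv (stp A B) (Sum.elim Δ fun q => σ q.1 q.2)) ≤ C0 * nsq (g - mv A Δ) := by
      rw [l1_prod, nsq_prod, mul_sum]
      refine sum_le_sum fun b _ => le_trans (le_of_eq (congrArg l1 (funext fun l => ?_))) (hl b)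
      simp only [Pi.sub_apply, mv_stp_apply, hσ, Sum.elim_inl, Sum.elim_inr]
      ring
    have e2 := h.up_univ (by linarith) hkM Δ
    have e3 := mul_le_mul_of_nonneg_left hΔ (show 0 ≤ 2 * Bc by linarith)
    have e4 := nsq_sub_le g (mv A Δ)
    have e5 := mul_le_mul_of_nonneg_right hB2 g0
    have e6 : nsq (g - mv A Δ) ≤ 6 * Bc ^ 2 * nsq g := by linarith
    have e7 := mul_le_mul_of_nonneg_left e6 (show 0 ≤ C0 by linarith)
    have e8 := mul_le_mul_of_nonneg_right h2 g0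
    linarith
  · refine ⟨0, inU_zero _, ?_⟩
    rw [sub_zero]
    have e1 := (l1_sq_le g).trans (mul_le_mul_of_nonneg_right (not_le.1 hM).le g0)
    have e2 : Bc ≤ C0' := by nlinarith
    have e3 : l1 g ≤ Bc * nsq g := by
      refine abs_le_of_sq_le_sq' ?_ (by positivity) |>.2
      have := mul_le_mul_of_nonneg_right (show Bc ≤ Bc ^ 2 by nlinarith) (sq_nonneg (nsq g))
      nlinarith
    exact e3.trans (mul_le_mul_of_nonneg_right e2 g0)

theorem dec_step (h : RMP A (blk B) Cm Bc m) (hB : 1 ≤ Bc) (hk : 0 < k)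
    (hkM : k ≤ Fintype.card (β × ι)) {lam τ ct C1 C2 ε C1' C2' ε' : ℝ} (hτ : 0 < τ) (hτ1 : τ ≤ 1)
    (hct : 0 < ct) (hct1 : 2 * Bc * ct ≤ 1) (hC1 : 0 ≤ C1) (hC2 : 0 ≤ C2) (hε : 0 ≤ ε)
    (χ : β × ι → ℝ) (hlow : ∀ b, Dec B lam C1 C2 ε fun l => χ (b, l))
    (hE : Eqd (stp A B) lam τ χ) (a1 : 1 / ct ≤ C1') (a2 : 18 * Bc ^ 2 * C1 ≤ C1')
    (a3 : 17 / τ ^ 2 ≤ C2') (a4 : 2 * C2 ≤ C2') (a5 : 201 * τ / ct ≤ ε')
    (a6 : 18 * Bc ^ 2 * ε + 8 * C2 * Bc ^ 2 *
      (k / Fintype.card (β × ι) + 18 * Bc ^ 2 * C1 * ct) ≤ ε') :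
    Dec (stp A B) lam C1' C2' ε' χ := by
  intro p p' e e' ha
  have n1 := nsq_nonneg p
  have n2 := nsq_nonneg p'
  have n3 := nsq_nonneg e
  have n4 := nsq_nonneg e'
  have hB0 : 0 ≤ Bc := by linarith
  have hB2 : 1 ≤ Bc ^ 2 := one_le_pow₀ hB
  have hM : (0 : ℝ) < Fintype.card (β × ι) := by exact_mod_cast hk.trans_le hkM
  set μ := nsq p + nsq p' + nsq e + nsq e' with hμ
  have hμ0 : 0 ≤ μ := by positivity
  rcases le_total (ct * Fintype.card (β × ι)) μ with hc | hc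
  · have c1 : (Fintype.card (β × ι) : ℝ) ≤ 1 / ct * μ := by
      rw [div_mul_eq_mul_div, le_div_iff₀ hct]
      linarith
    refine ⟨0, inU_zero _, univ, ?_, ?_⟩
    · rw [card_univ]
      exact c1.trans (mul_le_mul_of_nonneg_right a1 hμ0)
    · have c2 := hE p p' e e' ha
      have c3 : ip p e' ≤ τ * nsq p + 1 / τ ^ 2 * nsq e' := by
        have d1 := nsq_nonneg (τ • p - e')
        rw [nsq_sub, nsq_smul, ip_smul_left] at d1
        have d2 : 1 / τ ^ 2 * nsq e' = 1 / τ * (1 / τ * nsq e') := by ring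
        have d3 : 1 ≤ 1 / τ := by rw [le_div_iff₀ hτ]; linarith
        have d4 := mul_le_mul_of_nonneg_right d3 (show 0 ≤ 1 / τ * nsq e' by positivity)
        have d5 : 2 * ip p e' ≤ τ * nsq p + 1 / τ * nsq e' := by
          refine le_of_mul_le_mul_left ?_ hτ
          have : τ * (τ * nsq p + 1 / τ * nsq e') = τ ^ 2 * nsq p + nsq e' := by field_simp
          linarith
        have d6 : 0 ≤ τ * nsq p := by positivity
        have d7 : 0 ≤ 1 / τ * nsq e' := by positivity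
        linarith
      have c4 : 1 ≤ 1 / ct := by rw [le_div_iff₀ hct]; nlinarith
      have c5 := mul_le_mul_of_nonneg_left c1 (show 0 ≤ 200 * τ by positivity)
      have c6 : τ * nsq p ≤ τ * (1 / ct * μ) := by
        refine mul_le_mul_of_nonneg_left ?_ hτ.le
        have := mul_le_mul_of_nonneg_right c4 hμ0
        linarith
      have c7 := mul_le_mul_of_nonneg_right a5 hμ0
      have c8 := mul_le_mul_of_nonneg_right a3 (add_nonneg n3 n4)
      have c9 : 201 * τ / ct * μ = 200 * τ * (1 / ct * μ) + τ * (1 / ct * μ) := by ring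
      have c10 : 17 / τ ^ 2 * (nsq e + nsq e') =
          16 / τ ^ 2 * (nsq e + nsq e') + 1 / τ ^ 2 * nsq e + 1 / τ ^ 2 * nsq e' := by ring
      have c11 : 0 ≤ 1 / τ ^ 2 * nsq e := by positivity
      rw [sub_zero, ip_sub_right, nsqOn_univ, nsqOn_univ]
      linarith
  · have c1 : 2 * Bc * μ ≤ Fintype.card (β × ι) := by
      have d1 := mul_le_mul_of_nonneg_left hc (show 0 ≤ 2 * Bc by positivity)
      have d2 := mul_le_mul_of_nonneg_right hct1 hM.le
      linarith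
    have c2 := mul_le_mul_of_nonneg_left (nsq_sub_le p e) hB0
    have c3 := mul_le_mul_of_nonneg_left (nsq_sub_le p' e') hB0
    have m1 := mul_nonneg hB0 n1
    have m2 := mul_nonneg hB0 n2
    have m3 := mul_nonneg hB0 n3
    have m4 := mul_nonneg hB0 n4
    obtain ⟨Δ, hΔ, hb⟩ := dec_rig h ha.1 (by rw [hμ] at c1; linarith)
    obtain ⟨Δ', hΔ', hb'⟩ := dec_rig h ha.2.1 (by rw [hμ] at c1; linarith)
    have hadm : ∀ b, Adm B lam (fun l => χ (b, l)) (fun l => p (b, l)) (fun l => p' (b, l))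
        (fun l => (e + mv A Δ) (b, l)) (fun l => (e' + mv A Δ') (b, l)) := fun b => by
      refine ⟨?_, ?_, fun l => ha.2.2.1 _, fun l => ha.2.2.2.1 _, fun l => ha.2.2.2.2 _⟩
      · have := hb b
        rw [sub_sub] at this
        exact this
      · have := hb' b
        rw [sub_sub] at this
        exact this
    choose u hu S hS hi using fun b => hlow b _ _ _ _ (hadm b)
    choose σ hσ using hu
    have c4 : Fintype.card (β × ι) * (nsq Δ + nsq Δ') ≤ 2 * Bc * μ := by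
      rw [hμ]; linarith
    have c5 : nsq (mv A Δ) + nsq (mv A Δ') ≤ 4 * Bc ^ 2 * μ := by
      have d1 := h.up_univ hB0 hkM Δ
      have d2 := h.up_univ hB0 hkM Δ'
      have d3 := mul_le_mul_of_nonneg_left c4 (show 0 ≤ 2 * Bc by positivity)
      linarith
    have c6 : nsq p + nsq p' + nsq (e + mv A Δ) + nsq (e' + mv A Δ') ≤ 18 * Bc ^ 2 * μ := by
      have d1 := nsq_add_le e (mv A Δ)
      have d2 := nsq_add_le e' (mv A Δ')
      have d3 := mul_le_mul_of_nonneg_right hB2 hμ0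
      rw [hμ] at d3 c5 ⊢
      linarith
    set T := univ.filter fun q : β × ι => q.2 ∈ S q.1 with hT
    have hOn : ∀ v : β × ι → ℝ, nsqOn T v = ∑ b, nsqOn (S b) fun l => v (b, l) := fun v => by
      simp only [nsqOn, hT, sum_filter, Fintype.sum_prod_type, sum_ite_mem, univ_inter]
    have hcard : (T.card : ℝ) = ∑ b, ((S b).card : ℝ) := by
      simpa [nsqOn] using hOn fun _ => 1
    have c7 : (T.card : ℝ) ≤ C1 * (18 * Bc ^ 2 * μ) := by
      rw [hcard]
      refine (sum_le_sum fun b _ => hS b).trans ?_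
      simp only [← mul_sum, sum_add_distrib, ← nsq_prod]
      exact mul_le_mul_of_nonneg_left c6 hC1
    refine ⟨mv (stp A B) (Sum.elim Δ' fun q => σ q.1 q.2), ⟨_, rfl⟩, T, ?_, ?_⟩
    · have := mul_le_mul_of_nonneg_right a2 hμ0
      linarith
    · have d1 : -ip p (p' - e' - mv (stp A B) (Sum.elim Δ' fun q => σ q.1 q.2)) ≤
          ε * (nsq p + nsq p' + nsq (e + mv A Δ) + nsq (e' + mv A Δ')) +
            C2 * (nsqOn T (e + mv A Δ) + nsqOn T (e' + mv A Δ')) := by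
        have d2 := sum_le_sum fun b (_ : b ∈ univ) => hi b
        simp only [← mul_sum, sum_add_distrib, ← nsq_prod, ← hOn] at d2
        refine le_trans (le_of_eq ?_) d2
        rw [ip_prod, ← sum_neg_distrib]
        refine sum_congr rfl fun b _ => congrArg (fun v => -ip _ v) (funext fun l => ?_)
        simp only [Pi.sub_apply, Pi.add_apply, mv_stp_apply, hσ, Sum.elim_inl, Sum.elim_inr]
        ring
      have d2 := mul_le_mul_of_nonneg_left c6 hε
      have d3 : nsq Δ + nsq Δ' ≤ 2 * Bc * μ / Fintype.card (β × ι) := by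
        rw [le_div_iff₀ hM]
        linarith
      have d4 : (T.card : ℝ) ≤ C1 * (18 * Bc ^ 2 * (ct * Fintype.card (β × ι))) :=
        c7.trans (by gcongr)
      have d5 : nsqOn T (mv A Δ) + nsqOn T (mv A Δ') ≤
          2 * Bc ^ 2 * (k / Fintype.card (β × ι) + 18 * Bc ^ 2 * C1 * ct) * μ := by
        calc _ ≤ Bc * (k + T.card) * (nsq Δ + nsq Δ') := by
              have := h.up T Δ
              have := h.up T Δ'
              linarith
          _ ≤ Bc * (k + C1 * (18 * Bc ^ 2 * (ct * Fintype.card (β × ι)))) *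
              (2 * Bc * μ / Fintype.card (β × ι)) := by
              have := add_nonneg (nsq_nonneg Δ) (nsq_nonneg Δ')
              gcongr
          _ = _ := by field_simp
      have d6 := nsqOn_add_le T e (mv A Δ)
      have d7 := nsqOn_add_le T e' (mv A Δ')
      have d8 : nsqOn T (e + mv A Δ) + nsqOn T (e' + mv A Δ') ≤ 2 * (nsqOn T e + nsqOn T e') +
          4 * Bc ^ 2 * (k / Fintype.card (β × ι) + 18 * Bc ^ 2 * C1 * ct) * μ := by linarith
      have d9 := mul_le_mul_of_nonneg_left d8 hC2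
      have d10 := mul_le_mul_of_nonneg_right a4 (add_nonneg (nsqOn_nonneg T e) (nsqOn_nonneg T e'))
      have d11 := mul_le_mul_of_nonneg_right a6 hμ0
      have d12 : 0 ≤ C2 * Bc ^ 2 * (k / Fintype.card (β × ι) + 18 * Bc ^ 2 * C1 * ct) * μ := by
        positivity
      linarith

end Vale.Agent.P318
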