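import Mathlib

open Finset MeasureTheory

noncomputable section

namespace Vale.Agent.P318

section vec
variable {ι κ β K : Type}

/-- squared Euclidean norm -/
def nsq [Fintype ι] (v : ι → ℝ) : ℝ := ∑ l, v l ^ 2
def nsqOn (S : Finset ι) (v : ι → ℝ) : ℝ := ∑ l ∈ S, v l ^ 2
def ip [Fintype ι] (v w : ι → ℝ) : ℝ := ∑ l, v l * w l
def l1 [Fintype ι] (v : ι → ℝ) : ℝ := ∑ l, |v l|
/-- matrix times vector -/
def mv [Fintype κ] (A : ι → κ → ℤ) (t : κ → ℝ) : ι → ℝ := fun l => ∑ i, (A l i : ℝ) * t i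
/-- transpose times vector -/
def mtv [Fintype ι] (A : ι → κ → ℤ) (z : ι → ℝ) : κ → ℝ := fun i => ∑ l, (A l i : ℝ) * z l
def zc (a : ι → ℤ) : ι → ℝ := fun l => (a l : ℝ)
def LatOf [Fintype κ] (A : ι → κ → ℤ) : Set (κ → ℝ) := {t | ∃ z : ι → ℤ, mv A t = zc z}
def InU [Fintype κ] (A : ι → κ → ℤ) (u : ι → ℝ) : Prop := ∃ σ, u = mv A σ
def InZU [Fintype κ] (A : ι → κ → ℤ) (g : ι → ℝ) : Prop :=
  ∃ σ, ∃ z : ι → ℤ, g = mv A σ + zc z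
def Dual [Fintype κ] (Λ : Set (κ → ℝ)) (v : κ → ℤ) : Prop :=
  ∀ t ∈ Λ, ∃ n : ℤ, ip (zc v) t = n
def InvU [Fintype κ] (A : ι → κ → ℤ) (f : (ι → ℤ) → ℝ) : Prop :=
  ∀ a z : ι → ℤ, InU A (zc z) → f (a + z) = f a
def cube (κ : Type) : Set (κ → ℝ) := Set.Icc 0 1
def zbox (ι : Type) [Fintype ι] [DecidableEq ι] (R : ℕ) : Finset (ι → ℤ) :=
  Fintype.piFinset fun _ => Finset.Icc (-(R : ℤ)) R
/-- block diagonal matrix -/
def blk [DecidableEq β] (B : ι → κ → ℤ) : β × ι → β × κ → ℤ :=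
  fun p q => if p.1 = q.1 then B p.2 q.2 else 0
/-- the matrix of the next level -/
def stp [DecidableEq β] (A : β × ι → K → ℤ) (B : ι → κ → ℤ) : β × ι → K ⊕ β × κ → ℤ :=
  fun p => Sum.elim (A p) (blk B p)
/-- the matrix of level zero -/
def base0 : Unit → Empty → ℤ := fun _ e => e.elim

end vec

/-- smooth rounding window -/
structure Win where
  lam : ℝ
  kap : ℝ
  P : ℝ → ℝ
  dP : ℝ → ℝ
  lam_pos : 0 < lam
  lam_le : lam ≤ 1 / 100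
  one_le_kap : 1 ≤ kap
  hasDeriv : ∀ s, HasDerivAt P (dP s) s
  cont_dP : Continuous dP
  mono : Monotone P
  zero : ∀ s, s ≤ -(lam / 2) → P s = 0
  one : ∀ s, lam / 2 ≤ s → P s = 1
  symm : ∀ s, P (-s) = 1 - P s
  bound : ∀ s, dP s ^ 2 ≤ kap ^ 2 * (P s * (1 - P s))

namespace Win
variable (W : Win) {ι : Type}

def phi (s : ℝ) : ℝ := W.P (s + 1 / 2) - W.P (s - 1 / 2)
def dphi (s : ℝ) : ℝ := W.dP (s + 1 / 2) - W.dP (s - 1 / 2)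
/-- one-dimensional edge weight -/
def ed1 (s : ℝ) : ℝ := W.kap * √(W.phi s * W.phi (s + 1))
def Phi [Fintype ι] (x : ι → ℝ) : ℝ := ∏ l, W.phi (x l)
def dPhi [Fintype ι] [DecidableEq ι] (l : ι) (x : ι → ℝ) : ℝ :=
  W.dphi (x l) * ∏ l' ∈ univ.erase l, W.phi (x l')
def ed [Fintype ι] [DecidableEq ι] (l : ι) (x : ι → ℝ) : ℝ :=
  W.ed1 (x l) * ∏ l' ∈ univ.erase l, W.phi (x l')
/-- the probability measure with density `phi` -/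
def nu : Measure ℝ := volume.withDensity fun s => ENNReal.ofReal (W.phi s)
def piNu (ι : Type) [Fintype ι] : Measure (ι → ℝ) := Measure.pi fun _ => W.nu

end Win

section kern
variable {ι κ : Type} [Fintype ι] [DecidableEq ι] [Fintype κ]

def pm (W : Win) (A : ι → κ → ℤ) (x : ι → ℝ) : ℝ := ∫ t in cube κ, W.Phi (x - mv A t)
def dpm (W : Win) (A : ι → κ → ℤ) (l : ι) (x : ι → ℝ) : ℝ :=
  ∫ t in cube κ, W.dPhi l (x - mv A t)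
def ew (W : Win) (A : ι → κ → ℤ) (l : ι) (x : ι → ℝ) : ℝ := ∫ t in cube κ, W.ed l (x - mv A t)
/-- expectation of a function of the lattice point -/
def Ex (W : Win) (A : ι → κ → ℤ) (c : ι → ℝ) (f : (ι → ℤ) → ℝ) : ℝ :=
  ∑' a : ι → ℤ, pm W A (zc a - c) * f a
/-- perimeter -/
def Per (W : Win) (A : ι → κ → ℤ) (c : ι → ℝ) (f : (ι → ℤ) → ℝ) : ℝ :=
  ∑ l, ∑' a : ι → ℤ, ew W A l (zc a - c) * |f (a + Pi.single l 1) - f a|
/-- joint expectation over the hidden point and the lattice point -/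
def IE (W : Win) (A : ι → κ → ℤ) (c : ι → ℝ) (g : (κ → ℝ) → (ι → ℤ) → ℝ) : ℝ :=
  ∫ τ in cube κ, ∑' a : ι → ℤ, W.Phi (zc a - c - mv A τ) * g τ a
/-- Poincare (isoperimetric) inequality with constant `G` -/
def PI (W : Win) (A : ι → κ → ℤ) (G : ℝ) : Prop :=
  ∀ (c : ι → ℝ) (f : (ι → ℤ) → ℝ), (∀ a, |f a| ≤ 1) → InvU A f →
    G * (Ex W A c (fun a => f a ^ 2) - Ex W A c f ^ 2) ≤ Per W A c f
/-- weights on the dual lattice -/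
def DualW (A : ι → κ → ℤ) (Γ : ℝ) : Prop :=
  ∃ ω : κ → ℝ, (∀ i, 0 ≤ ω i) ∧
    (∀ v : κ → ℤ, Dual (LatOf A) v → v ≠ 0 → 1 ≤ ∑ i, ω i * (v i : ℝ) ^ 2) ∧
    ∀ z : ι → ℝ, ∑ i, ω i * mtv A z i ^ 2 ≤ Γ * nsq z
def Kashin (A : ι → κ → ℤ) (Ka : ℝ) : Prop := ∀ v, mtv A v = 0 → nsq v ≤ Ka ^ 2 * l1 v ^ 2
def Spread (A : ι → κ → ℤ) (η : ℝ) : Prop := ∀ σ l, mv A σ l ^ 2 ≤ η * nsq (mv A σ)
def Dec0 (A : ι → κ → ℤ) (C0 : ℝ) : Prop :=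
  ∀ g, InZU A g → ∃ u, InU A u ∧ l1 (g - u) ≤ C0 * nsq g
/-- admissible configuration around the point `χ` -/
def Adm (A : ι → κ → ℤ) (lam : ℝ) (χ p p' e e' : ι → ℝ) : Prop :=
  InZU A (p - e) ∧ InZU A (p' - e') ∧ (∀ l, |χ l| ≤ 1 / 2 + lam) ∧
    (∀ l, |χ l + p l| ≤ 1 / 2 + 2 * lam) ∧ ∀ l, |χ l + p' l| ≤ 1 / 2 + 2 * lam
def Dec (A : ι → κ → ℤ) (lam C1 C2 ε : ℝ) (χ : ι → ℝ) : Prop :=
  ∀ p p' e e', Adm A lam χ p p' e e' → ∃ u, InU A u ∧ ∃ S : Finset ι,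
    (S.card : ℝ) ≤ C1 * (nsq p + nsq p' + nsq e + nsq e') ∧
    -ip p (p' - e' - u) ≤ ε * (nsq p + nsq p' + nsq e + nsq e') + C2 * (nsqOn S e + nsqOn S e')
def Eqd (A : ι → κ → ℤ) (lam τ : ℝ) (χ : ι → ℝ) : Prop :=
  ∀ p p' e e', Adm A lam χ p p' e e' →
    -ip p p' ≤ 200 * τ * Fintype.card ι + 16 / τ ^ 2 * (nsq e + nsq e')

/-- properties of the random matrix -/
structure RMP {k : ℕ} (A : ι → Fin k → ℤ) (B : ι → κ → ℤ) (Cm : ℕ) (Bc : ℝ) (m : ℕ) : Prop where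
  ent : ∀ l i, |A l i| ≤ Cm
  up : ∀ (S : Finset ι) (Δ : Fin k → ℝ), nsqOn S (mv A Δ) ≤ Bc * (k + S.card) * nsq Δ
  low : ∀ (S : Finset ι) (z : ι → ℝ), S.card ≤ m → (∀ l ∉ S, z l = 0) →
    k * nsq z ≤ Bc * nsq (mtv A z)
  prim : ∀ S : Finset ι, S.card ≤ m → ∀ v : Fin k → ℤ, Dual (LatOf A) v → ∀ cc : ι → ℝ,
    (∀ l ∉ S, cc l = 0) → nsq (zc v - mtv A cc) < k / 2 →
    ∃ z : ι → ℤ, (∀ l ∉ S, z l = 0) ∧ zc v = mtv A (zc z)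
  rig : ∀ (Δ : Fin k → ℝ) (σ : κ → ℝ) (b : ι → ℤ),
    Bc * nsq (mv A Δ + mv B σ + zc b) ≤ Fintype.card ι →
    ∃ t ∈ LatOf A, Fintype.card ι * nsq (Δ - t) ≤ Bc * nsq (mv A Δ + mv B σ + zc b)
  rig0 : ∀ (Δ : Fin k → ℝ) (σ : κ → ℝ), Fintype.card ι * nsq Δ ≤ Bc * nsq (mv A Δ + mv B σ)

/-- the invariant carried through the levels -/
structure Invt (W : Win) (A : ι → κ → ℤ) (Cm : ℕ) (G Γ Ka η C0 C1 C2 ε δ : ℝ) : Prop where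
  ent : ∀ l i, |A l i| ≤ Cm
  pi : PI W A G
  dual : DualW A Γ
  kash : Kashin A Ka
  spread : Spread A η
  dec0 : Dec0 A C0
  bad : ∃ Bad : Set (ι → ℝ), MeasurableSet Bad ∧ W.piNu ι Bad ≤ ENNReal.ofReal δ ∧
    ∀ χ ∉ Bad, Dec A W.lam C1 C2 ε χ

end kern

section es
variable {β X : Type} [Fintype β] [DecidableEq β]

/-- finitely supported probability weights on each coordinate -/
def FinProb (p : β → X → ℝ) : Prop :=
  (∀ b x, 0 ≤ p b x) ∧ ∃ T : Finset X, (∀ b, ∀ x ∉ T, p b x = 0) ∧ ∀ b, ∑ x ∈ T, p b x = 1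
def EP (p : β → X → ℝ) (F : (β → X) → ℝ) : ℝ := ∑' a : β → X, (∏ b, p b (a b)) * F a
/-- keep the coordinates in `N`, average the others -/
def CE (p : β → X → ℝ) (N : Finset β) (F : (β → X) → ℝ) (a : β → X) : ℝ :=
  EP p fun a' => F (N.piecewise a a')
/-- Efron-Stein component -/
def cp (p : β → X → ℝ) (J : Finset β) (F : (β → X) → ℝ) (a : β → X) : ℝ :=
  ∑ N ∈ J.powerset, (-1 : ℝ) ^ (J.card - N.card) * CE p N F a
def extJ (J : Finset β) (x0 : X) (a : J → X) : β → X :=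
  fun b => if h : b ∈ J then a ⟨b, h⟩ else x0

end es

section lev
variable {β ι κ K : Type} [Fintype β] [DecidableEq β] [Fintype ι] [DecidableEq ι] [Fintype κ]
  [Fintype K]

/-- offset of block `b` when the top hidden point is `t` -/
def yb (A : β × ι → K → ℤ) (c : β × ι → ℝ) (t : K → ℝ) (b : β) : ι → ℝ :=
  fun l => c (b, l) + mv A t (b, l)
def pt (W : Win) (A : β × ι → K → ℤ) (B : ι → κ → ℤ) (c : β × ι → ℝ) (t : K → ℝ) :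
    β → (ι → ℤ) → ℝ := fun b x => pm W B (zc x - yb A c t b)
def Zf (W : Win) (A : β × ι → K → ℤ) (B : ι → κ → ℤ) (c : β × ι → ℝ) (t : K → ℝ)
    (F : (β → ι → ℤ) → ℝ) (b : β) (l : ι) (a : β → ι → ℤ) : ℝ :=
  ∑' x : ι → ℤ, dpm W B l (zc x - yb A c t b) * F (Function.update a b x)

end lev

/-- the weighted graph with its embedding -/
structure Core {V ι : Type} [Fintype V] [DecidableEq V] [Fintype ι] (μ : V → ℝ) (w : V → V → ℝ)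
    (x : V → ι → ℝ) (Gd : Finset V) (G Wt δ ε C0 : ℝ) : Prop where
  mu_nonneg : ∀ v, 0 ≤ μ v
  mu_sum : ∑ v, μ v = 1
  w_nonneg : ∀ v v', 0 ≤ w v v'
  cut : ∀ g : (ι → ℝ) → ℝ, (∀ y, g y = 0 ∨ g y = 1) →
    G * ((∑ v, μ v * g (x v)) * (1 - ∑ v, μ v * g (x v))) ≤
      ∑ v, ∑ v', w v v' * |g (x v) - g (x v')|
  tot : ∑ v, ∑ v', w v v' ≤ Wt
  bad : ∀ (Bd : Finset V) (s : ℝ), 0 < s →
    ∑ v ∈ Bd, ∑ v', (w v v' + w v' v) ≤ Wt * (s * ∑ v ∈ Bd, μ v + 1 / s)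
  len : ∀ v v', w v v' ≠ 0 → nsq (x v - x v') ≤ 1
  good : ∑ v ∈ Gdᶜ, μ v ≤ δ
  rad : ∀ v, μ v ≠ 0 ∨ v ∈ Gd → nsq (x v) ≤ Fintype.card ι
  tri1 : ∀ u ∈ Gd, ∀ v ∈ Gd, ∀ y ∈ Gd,
    -ip (x u - x y) (x v - x y) ≤ ε * (nsq (x u - x y) + nsq (x v - x y))
  tri2 : ∀ u ∈ Gd, ∀ v ∈ Gd, ∀ y ∈ Gd, -ip (x u - x y) (x v - x y) ≤ C0 * nsq (x v - x y)
  far : ∀ r : ι → ℝ, (Fintype.card ι : ℝ) / 400 ≤ ∑ v, μ v * nsq (x v - r)

section rm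
open scoped Classical

abbrev Row (k m : ℕ) : Type := Fin k → Fin (2 * m + 1)
def rv {k m : ℕ} (x : Row k m) : Fin k → ℤ := fun i => ((x i : ℕ) : ℤ) - m
/-- centred binomial weights -/
def bw (m : ℕ) (j : Fin (2 * m + 1)) : ℝ := ((2 * m).choose j : ℝ) / 4 ^ m
def w0 {k m : ℕ} (x : Row k m) : ℝ := ∏ i, bw m (x i)
def InK {h k q : ℕ} (H : Fin h → Fin k → ZMod q) (v : Fin k → ℤ) : Prop :=
  ∀ r, ∑ i, H r i * (v i : ZMod q) = 0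
def ZH {h k q : ℕ} (m : ℕ) (H : Fin h → Fin k → ZMod q) : ℝ :=
  ∑ x : Row k m, if InK H (rv x) then w0 x else 0
/-- row distribution conditioned on the kernel of `H` -/
def wH {h k q m : ℕ} (H : Fin h → Fin k → ZMod q) (x : Row k m) : ℝ :=
  (if InK H (rv x) then w0 x else 0) / ZH m H
/-- distance to the nearest integer -/
def fr (y : ℝ) : ℝ := |y - round y|
def hu {h k q : ℕ} (H : Fin h → Fin k → ZMod q) (u : Fin h → ZMod q) : Fin k → ℝ :=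
  fun i => (((∑ r, u r * H r i).val : ℕ) : ℝ) / q
def GoodH {h k q : ℕ} (H : Fin h → Fin k → ZMod q) : Prop :=
  ∀ u : Fin h → ZMod q, u ≠ 0 →
    k ≤ 2 * (univ.filter fun i => (1 : ℝ) / 10 ^ 6 ≤ fr (hu H u i)).card
def LH {h k q : ℕ} (H : Fin h → Fin k → ZMod q) : Set (Fin k → ℝ) :=
  {t | ∃ u, ∃ n : Fin k → ℤ, t = hu H u + zc n}
/-- probability of an event for independent samples with weights `p` -/
def Pr {ι X : Type} [Fintype ι] [DecidableEq ι] [Fintype X] (p : X → ℝ)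
    (E : (ι → X) → Prop) : ℝ :=
  ∑ A : ι → X, if E A then ∏ l, p (A l) else 0
/-- reduction of the rows modulo `q` -/
def red {σ : Type} {k m : ℕ} (q : ℕ) (β : σ → Row k m) : σ → Fin k → ZMod q :=
  fun l i => (rv (β l) i : ZMod q)
def P0 {σ : Type} [Fintype σ] {k : ℕ} (β : σ → Fin k → ℤ) : Prop :=
  ∀ θ : σ → ℝ, 1 / 100 ≤ ∑ l, fr (θ l) ^ 2 →
    (k : ℝ) / 20 ≤ ∑ i, (1 - Real.cos (2 * Real.pi * mtv β θ i))
def R0 {ι κ : Type} [Fintype ι] [Fintype κ] {k : ℕ} (A : ι → Fin k → ℤ) (B : ι → κ → ℤ)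
    (L : Set (Fin k → ℝ)) : Prop :=
  ∀ (Δ : Fin k → ℝ) (σ : κ → ℝ) (b : ι → ℤ), (∀ t ∈ L, 1 / 64 ≤ nsq (Δ - t)) →
    (Fintype.card ι : ℝ) / 1000 ≤ nsq (mv A Δ + mv B σ + zc b)

end rm

end Vale.Agent.P318
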