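import Vale.Agent.P318.EQA

open Finset MeasureTheory

noncomputable section

namespace Vale.Agent.P318

/-- upper half line indicator -/
def eqH (s x : ℝ) : ℝ := (Set.Ici (1 / 2 - s)).indicator 1 x

/-- interval indicator -/
def eqJ (a b x : ℝ) : ℝ := (Set.Icc a b).indicator 1 x

def eqPsi (τ s s' x : ℝ) : ℝ :=
  -((s - eqH s x) * (s' - eqH s' x)) + 5 * (eqJ (1 / 2 - s - 4 * τ) (1 / 2 - s + 4 * τ) x +
    eqJ (1 / 2 - s' - 4 * τ) (1 / 2 - s' + 4 * τ) x + eqJ (-(1 / 2) - τ) (-(1 / 2) + 4 * τ) x +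
    eqJ (1 / 2 - 4 * τ) (1 / 2 + τ) x)

lemma eq_H_meas (s : ℝ) : Measurable (eqH s) := measurable_one.indicator measurableSet_Ici

lemma eq_J_meas (a b : ℝ) : Measurable (eqJ a b) := measurable_one.indicator measurableSet_Icc

lemma eq_psi_meas (τ s s' : ℝ) : Measurable (eqPsi τ s s') := by
  have := eq_H_meas
  have := eq_J_meas
  unfold eqPsi
  fun_prop

lemma eq_H_cases (s x : ℝ) : (1 / 2 - s ≤ x ∧ eqH s x = 1) ∨ (x < 1 / 2 - s ∧ eqH s x = 0) := by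
  unfold eqH
  by_cases h : 1 / 2 - s ≤ x
  · exact Or.inl ⟨h, Set.indicator_of_mem (Set.mem_Ici.2 h) _⟩
  · exact Or.inr ⟨not_le.1 h, Set.indicator_of_notMem (by simpa using h) _⟩

lemma eq_J_cases (a b x : ℝ) : eqJ a b x = 1 ∨ ((x < a ∨ b < x) ∧ eqJ a b x = 0) := by
  unfold eqJ
  by_cases h : x ∈ Set.Icc a b
  · exact Or.inl (Set.indicator_of_mem h _)
  · refine Or.inr ⟨?_, Set.indicator_of_notMem h _⟩
    by_contra hc
    push Not at hc
    exact h hc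

lemma eq_J_mem (a b x : ℝ) : 0 ≤ eqJ a b x ∧ eqJ a b x ≤ 1 := by
  rcases eq_J_cases a b x with h | ⟨-, h⟩ <;> rw [h] <;> norm_num

lemma eq_wh_abs {s : ℝ} (h0 : 0 ≤ s) (h1 : s ≤ 1) (x : ℝ) : |s - eqH s x| ≤ 1 := by
  rcases eq_H_cases s x with ⟨-, h⟩ | ⟨-, h⟩ <;> rw [h, abs_le] <;> constructor <;> linarith

lemma eq_prod_abs {s s' : ℝ} (h0 : 0 ≤ s) (h1 : s ≤ 1) (h0' : 0 ≤ s') (h1' : s' ≤ 1) (x : ℝ) :
    |(s - eqH s x) * (s' - eqH s' x)| ≤ 1 := by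
  rw [abs_mul]
  exact mul_le_one₀ (eq_wh_abs h0 h1 x) (abs_nonneg _) (eq_wh_abs h0' h1' x)

lemma eq_psi_mem (τ : ℝ) {s s' : ℝ} (h0 : 0 ≤ s) (h1 : s ≤ 1) (h0' : 0 ≤ s') (h1' : s' ≤ 1)
    (x : ℝ) : eqPsi τ s s' x ∈ Set.Icc (-1 : ℝ) 21 := by
  have h := abs_le.1 (eq_prod_abs h0 h1 h0' h1' x)
  have a := eq_J_mem (1 / 2 - s - 4 * τ) (1 / 2 - s + 4 * τ) x
  have b := eq_J_mem (1 / 2 - s' - 4 * τ) (1 / 2 - s' + 4 * τ) x
  have c := eq_J_mem (-(1 / 2) - τ) (-(1 / 2) + 4 * τ) x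
  have d := eq_J_mem (1 / 2 - 4 * τ) (1 / 2 + τ) x
  unfold eqPsi
  constructor <;> linarith [h.1, h.2, a.1, a.2, b.1, b.2, c.1, c.2, d.1, d.2]

lemma eq_int {τ s x w : ℝ} {n : ℤ} (h0 : 0 ≤ s) (h1 : s < 1) (hw : w = n + s)
    (hx1 : -(1 / 2) + 4 * τ < x) (hx2 : x < 1 / 2 - 4 * τ)
    (hs : x < 1 / 2 - s - 4 * τ ∨ 1 / 2 - s + 4 * τ < x) (hτ : 0 ≤ τ)
    (hxw : |x + w| ≤ 1 / 2 + 4 * τ) : w = s - eqH s x := by
  obtain ⟨a, b⟩ := abs_le.1 hxw
  rcases eq_H_cases s x with ⟨h, e⟩ | ⟨h, e⟩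
  · have h2 : 1 / 2 - s + 4 * τ < x := hs.resolve_left (by linarith)
    have h3 : (n : ℝ) < 0 := by linarith
    have h4 : (-2 : ℝ) < n := by linarith
    have h5 : n < 0 := by exact_mod_cast h3
    have h6 : -2 < n := by exact_mod_cast h4
    have h7 : n = -1 := by omega
    rw [e, hw, h7]
    push_cast
    ring
  · have h2 : x < 1 / 2 - s - 4 * τ := hs.resolve_right (by linarith)
    have h3 : (n : ℝ) < 1 := by linarith
    have h4 : (-1 : ℝ) < n := by linarith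
    have h5 : n < 1 := by exact_mod_cast h3
    have h6 : -1 < n := by exact_mod_cast h4
    have h7 : n = 0 := by omega
    rw [e, hw, h7]
    push_cast
    ring

lemma eq_point {lam τ s s' x p p' e e' ζ ζ' : ℝ} {n n' : ℤ} (hl0 : 0 < lam)
    (hl : lam ≤ 1 / 100) (hτ : lam ≤ τ) (h0 : 0 ≤ s) (h1 : s < 1) (h0' : 0 ≤ s') (h1' : s' < 1)
    (hp : p = n + s + ζ + e) (hp' : p' = n' + s' + ζ' + e') (hζ : |ζ| ≤ τ) (hζ' : |ζ'| ≤ τ)
    (hx : |x| ≤ 1 / 2 + lam) (hxp : |x + p| ≤ 1 / 2 + 2 * lam)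
    (hxp' : |x + p'| ≤ 1 / 2 + 2 * lam) :
    -(p * p') ≤ eqPsi τ s s' x + 8 * τ + 16 / τ ^ 2 * (e ^ 2 + e' ^ 2) := by
  have hτ0 : 0 < τ := by linarith
  obtain ⟨x1, x2⟩ := abs_le.1 hx
  obtain ⟨p1, p2⟩ := abs_le.1 hxp
  obtain ⟨q1, q2⟩ := abs_le.1 hxp'
  have hpa : |p| ≤ 3 / 2 := abs_le.2 ⟨by linarith, by linarith⟩
  have hqa : |p'| ≤ 3 / 2 := abs_le.2 ⟨by linarith, by linarith⟩
  have hpp : -(p * p') ≤ 9 / 4 := by
    have h2 : |p * p'| ≤ 3 / 2 * (3 / 2) := by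
      rw [abs_mul]
      exact mul_le_mul hpa hqa (abs_nonneg _) (by norm_num)
    linarith [neg_abs_le (p * p')]
  have hE : 0 ≤ 16 / τ ^ 2 * (e ^ 2 + e' ^ 2) := by positivity
  by_cases he : |e| ≤ τ ∧ |e'| ≤ τ
  swap
  · have h2 : τ ^ 2 ≤ e ^ 2 + e' ^ 2 := by
      rcases not_and_or.1 he with h | h
      · have := pow_le_pow_left₀ hτ0.le (not_le.1 h).le 2
        rw [sq_abs] at this
        nlinarith [sq_nonneg e']
      · have := pow_le_pow_left₀ hτ0.le (not_le.1 h).le 2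
        rw [sq_abs] at this
        nlinarith [sq_nonneg e]
    have h3 : 16 ≤ 16 / τ ^ 2 * (e ^ 2 + e' ^ 2) := by
      rw [div_mul_eq_mul_div, le_div_iff₀ (by positivity)]
      linarith
    linarith [(eq_psi_mem τ h0 h1.le h0' h1'.le x).1]
  have h := abs_le.1 (eq_prod_abs h0 h1.le h0' h1'.le x)
  have a := eq_J_mem (1 / 2 - s - 4 * τ) (1 / 2 - s + 4 * τ) x
  have b := eq_J_mem (1 / 2 - s' - 4 * τ) (1 / 2 - s' + 4 * τ) x
  have c := eq_J_mem (-(1 / 2) - τ) (-(1 / 2) + 4 * τ) x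
  have d := eq_J_mem (1 / 2 - 4 * τ) (1 / 2 + τ) x
  unfold eqPsi
  rcases eq_J_cases (1 / 2 - s - 4 * τ) (1 / 2 - s + 4 * τ) x with a' | ⟨a', a''⟩
  · linarith [h.2, b.1, c.1, d.1]
  rcases eq_J_cases (1 / 2 - s' - 4 * τ) (1 / 2 - s' + 4 * τ) x with b' | ⟨b', b''⟩
  · linarith [h.2, a.1, c.1, d.1]
  rcases eq_J_cases (-(1 / 2) - τ) (-(1 / 2) + 4 * τ) x with c' | ⟨c', c''⟩
  · linarith [h.2, a.1, b.1, d.1]
  rcases eq_J_cases (1 / 2 - 4 * τ) (1 / 2 + τ) x with d' | ⟨d', d''⟩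
  · linarith [h.2, a.1, b.1, c.1]
  have c3 : -(1 / 2) + 4 * τ < x := c'.resolve_left (by linarith)
  have d3 : x < 1 / 2 - 4 * τ := d'.resolve_right (by linarith)
  obtain ⟨z1, z2⟩ := abs_le.1 hζ
  obtain ⟨y1, y2⟩ := abs_le.1 hζ'
  obtain ⟨e1, e2⟩ := abs_le.1 he.1
  obtain ⟨f1, f2⟩ := abs_le.1 he.2
  have hw := eq_int (n := n) h0 h1 rfl c3 d3 a' hτ0.le (abs_le.2 ⟨by linarith, by linarith⟩)
  have hw' := eq_int (n := n') h0' h1' rfl c3 d3 b' hτ0.le (abs_le.2 ⟨by linarith, by linarith⟩)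
  have hwa := eq_wh_abs h0 h1.le x
  rw [a'', b'', c'', d'', ← hw, ← hw']
  rw [← hw] at hwa
  have g1 : |(n + s) * (ζ' + e')| ≤ 1 * (2 * τ) := by
    rw [abs_mul]
    exact mul_le_mul hwa (abs_le.2 ⟨by linarith, by linarith⟩) (abs_nonneg _) (by norm_num)
  have g2 : |(ζ + e) * p'| ≤ 2 * τ * (3 / 2) := by
    rw [abs_mul]
    exact mul_le_mul (abs_le.2 ⟨by linarith, by linarith⟩) hqa (abs_nonneg _) (by positivity)
  have g3 : p * p' = (n + s) * (n' + s') + (n + s) * (ζ' + e') + (ζ + e) * p' := by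
    rw [hp]
    nth_rewrite 1 [hp']
    nth_rewrite 1 [hp']
    ring
  linarith [neg_abs_le ((n + s) * (ζ' + e')), neg_abs_le ((ζ + e) * p')]

lemma eq_nu_le (W : Win) {S : Set ℝ} {a b : ℝ} (hab : a ≤ b)
    (h : ∀ x, |x| ≤ 1 / 2 + W.lam / 2 → x ∈ S → x ∈ Set.Icc a b) : W.nu.real S ≤ b - a := by
  have h1 : W.nu S ≤ ENNReal.ofReal (b - a) := by
    refine (measure_mono_ae (t := Set.Icc a b) ?_).trans ((W.nu_le_volume _).trans ?_)
    · filter_upwards [W.nu_ae] with x hx using h x hx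
    · rw [Real.volume_Icc]
  exact ENNReal.toReal_le_of_le_ofReal (by linarith) h1

lemma eq_J_int (W : Win) {a b : ℝ} (hab : a ≤ b) : ∫ x, eqJ a b x ∂W.nu ≤ b - a := by
  unfold eqJ
  rw [integral_indicator_one measurableSet_Icc]
  exact eq_nu_le W hab fun x _ h => h

lemma eq_H_int (W : Win) {s : ℝ} (h0 : 0 ≤ s) (h1 : s ≤ 1) :
    s - W.lam / 2 ≤ ∫ x, eqH s x ∂W.nu ∧ ∫ x, eqH s x ∂W.nu ≤ s + W.lam / 2 := by
  have hl := W.lam_pos
  unfold eqH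
  rw [integral_indicator_one measurableSet_Ici]
  constructor
  · have h2 := eq_nu_le W (S := (Set.Ici (1 / 2 - s))ᶜ) (a := -(1 / 2 + W.lam / 2))
      (b := 1 / 2 - s) (by linarith) fun x hx h => ⟨(abs_le.1 hx).1, le_of_lt (by simpa using h)⟩
    rw [measureReal_compl measurableSet_Ici, probReal_univ] at h2
    linarith
  · have h2 := eq_nu_le W (S := Set.Ici (1 / 2 - s)) (a := 1 / 2 - s)
      (b := 1 / 2 + W.lam / 2) (by linarith) fun x hx h => ⟨h, (abs_le.1 hx).2⟩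
    linarith

lemma eq_psi_int (W : Win) {τ s s' : ℝ} (hτ : W.lam ≤ τ) (h0 : 0 ≤ s) (h1 : s ≤ 1) (h0' : 0 ≤ s')
    (h1' : s' ≤ 1) : ∫ x, eqPsi τ s s' x ∂W.nu ≤ 132 * τ := by
  have hl := W.lam_pos
  have iH : ∀ s, Integrable (eqH s) W.nu := fun s =>
    (integrable_const (1 : ℝ)).indicator measurableSet_Ici
  have iJ : ∀ a b, Integrable (eqJ a b) W.nu := fun a b =>
    (integrable_const (1 : ℝ)).indicator measurableSet_Icc
  have e : eqPsi τ s s' = fun x => (-(s * s') + s * eqH s' x + s' * eqH s x - eqH (min s s') x) +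
      5 * (eqJ (1 / 2 - s - 4 * τ) (1 / 2 - s + 4 * τ) x +
      eqJ (1 / 2 - s' - 4 * τ) (1 / 2 - s' + 4 * τ) x + eqJ (-(1 / 2) - τ) (-(1 / 2) + 4 * τ) x +
      eqJ (1 / 2 - 4 * τ) (1 / 2 + τ) x) := by
    funext x
    have : eqH s x * eqH s' x = eqH (min s s') x := by
      rcases eq_H_cases s x with ⟨a, a'⟩ | ⟨a, a'⟩ <;>
      rcases eq_H_cases s' x with ⟨b, b'⟩ | ⟨b, b'⟩ <;>
      rcases eq_H_cases (min s s') x with ⟨c, c'⟩ | ⟨c, c'⟩ <;>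
      rw [a', b', c'] <;> norm_num <;>
      rcases min_choice s s' with h | h <;>
      linarith [min_le_left s s', min_le_right s s']
    unfold eqPsi
    rw [← this]
    ring
  have i1 : Integrable (fun x => -(s * s') + s * eqH s' x) W.nu :=
    (integrable_const _).add ((iH _).const_mul _)
  have i2 : Integrable (fun x => -(s * s') + s * eqH s' x + s' * eqH s x) W.nu :=
    i1.add ((iH _).const_mul _)
  have i3 : Integrable (fun x => -(s * s') + s * eqH s' x + s' * eqH s x - eqH (min s s') x)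
      W.nu := i2.sub (iH _)
  have j1 : Integrable (fun x => eqJ (1 / 2 - s - 4 * τ) (1 / 2 - s + 4 * τ) x +
      eqJ (1 / 2 - s' - 4 * τ) (1 / 2 - s' + 4 * τ) x) W.nu := (iJ _ _).add (iJ _ _)
  have j2 : Integrable (fun x => eqJ (1 / 2 - s - 4 * τ) (1 / 2 - s + 4 * τ) x +
      eqJ (1 / 2 - s' - 4 * τ) (1 / 2 - s' + 4 * τ) x + eqJ (-(1 / 2) - τ) (-(1 / 2) + 4 * τ) x)
      W.nu := j1.add (iJ _ _)
  have j3 : Integrable (fun x => eqJ (1 / 2 - s - 4 * τ) (1 / 2 - s + 4 * τ) x +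
      eqJ (1 / 2 - s' - 4 * τ) (1 / 2 - s' + 4 * τ) x + eqJ (-(1 / 2) - τ) (-(1 / 2) + 4 * τ) x +
      eqJ (1 / 2 - 4 * τ) (1 / 2 + τ) x) W.nu := j2.add (iJ _ _)
  rw [e, integral_add i3 (j3.const_mul 5), integral_sub i2 (iH _),
    integral_add i1 ((iH _).const_mul _), integral_add (integrable_const _) ((iH _).const_mul _),
    integral_const_mul, integral_const_mul, integral_const_mul, integral_add j2 (iJ _ _),
    integral_add j1 (iJ _ _), integral_add (iJ _ _) (iJ _ _), integral_const, probReal_univ,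
    one_smul]
  have a := eq_J_int W (a := 1 / 2 - s - 4 * τ) (b := 1 / 2 - s + 4 * τ) (by linarith)
  have b := eq_J_int W (a := 1 / 2 - s' - 4 * τ) (b := 1 / 2 - s' + 4 * τ) (by linarith)
  have c := eq_J_int W (a := -(1 / 2) - τ) (b := -(1 / 2) + 4 * τ) (by linarith)
  have d := eq_J_int W (a := 1 / 2 - 4 * τ) (b := 1 / 2 + τ) (by linarith)
  have h2 := mul_le_mul_of_nonneg_left (eq_H_int W h0' h1').2 h0
  have h3 := mul_le_mul_of_nonneg_left (eq_H_int W h0 h1).2 h0'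
  have h4 := (eq_H_int W (le_min h0 h0') ((min_le_left _ _).trans h1)).1
  have h5 : s * s' ≤ min s s' := le_min (mul_le_of_le_one_right h0 h1')
    (mul_le_of_le_one_left h0' h1)
  have h6 := mul_le_of_le_one_left hl.le h1
  have h7 := mul_le_of_le_one_left hl.le h1'
  linarith

/-- fractional parts on the grid -/
def eqS {ι κ : Type} [Fintype κ] (A : ι → κ → ℤ) {Q : ℕ} (j : κ → Fin Q) (l : ι) : ℝ :=
  Int.fract (mv A (fun i => ((j i : ℕ) : ℝ) / Q) l)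

lemma eq_grid {ι κ : Type} [Fintype κ] (A : ι → κ → ℤ) {Cm : ℕ} (hA : ∀ l i, |A l i| ≤ Cm)
    {τ : ℝ} {Q : ℕ} (hQ0 : 0 < Q) (hQ : (Cm : ℝ) * Fintype.card κ ≤ τ * Q) {g : ι → ℝ}
    (hg : InZU A g) : ∃ j : κ → Fin Q, ∀ l, ∃ (n : ℤ) (ζ : ℝ), |ζ| ≤ τ ∧
      g l = n + eqS A j l + ζ := by
  obtain ⟨σ, z, rfl⟩ := hg
  have hQ' : (0 : ℝ) < Q := by exact_mod_cast hQ0
  have hlt : ∀ i, ⌊(Q : ℝ) * Int.fract (σ i)⌋₊ < Q := fun i => by
    rw [Nat.floor_lt (mul_nonneg hQ'.le (Int.fract_nonneg _))]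
    exact mul_lt_of_lt_one_right hQ' (Int.fract_lt_one _)
  refine ⟨fun i => ⟨_, hlt i⟩, fun l => ?_⟩
  set σg : κ → ℝ := fun i => (⌊(Q : ℝ) * Int.fract (σ i)⌋₊ : ℝ) / Q with hσg
  set er : κ → ℝ := fun i => Int.fract (σ i) - σg i with her
  have her1 : ∀ i, |er i| ≤ 1 / Q := fun i => by
    have h1 := Nat.floor_le (mul_nonneg hQ'.le (Int.fract_nonneg (σ i)))
    have h2 := Nat.lt_floor_add_one ((Q : ℝ) * Int.fract (σ i))
    have e : er i = (Q * Int.fract (σ i) - ⌊(Q : ℝ) * Int.fract (σ i)⌋₊) / Q := by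
      simp only [her, hσg]
      field_simp
    rw [e, abs_div, abs_of_pos hQ']
    exact div_le_div_of_nonneg_right (abs_le.2 ⟨by linarith, by linarith⟩) hQ'.le
  have e : σ = zc (fun i => ⌊σ i⌋) + σg + er := by
    funext i
    simp only [her, zc, Pi.add_apply]
    linarith [Int.floor_add_fract (σ i)]
  refine ⟨(∑ i, A l i * ⌊σ i⌋) + z l + ⌊mv A σg l⌋, mv A er l, ?_, ?_⟩
  · refine (abs_mv_le A (C := Cm) (fun l i => by exact_mod_cast hA l i) her1 l).trans ?_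
    rw [mul_one_div, ← mul_div_assoc, div_le_iff₀ hQ', mul_comm]
    exact hQ
  · have e2 : mv A σ l = ((∑ i, A l i * ⌊σ i⌋ : ℤ) : ℝ) + mv A σg l + mv A er l := by
      conv_lhs => rw [e, mv_add, mv_add, mv_zc]
      rfl
    have e3 : eqS A (fun i => (⟨_, hlt i⟩ : Fin Q)) l = Int.fract (mv A σg l) := rfl
    rw [e3, Pi.add_apply, e2, Int.cast_add, Int.cast_add]
    simp only [zc]
    linarith [Int.floor_add_fract (mv A σg l)]

/-- equidistribution holds outside a set of small measure -/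
theorem eqd_prob {ι κ : Type} [Fintype ι] [DecidableEq ι] [Fintype κ] (W : Win) (A : ι → κ → ℤ)
    {Cm : ℕ} (hA : ∀ l i, |A l i| ≤ Cm) {τ : ℝ} (hτ : W.lam ≤ τ) (hτ1 : τ ≤ 1) (Q : ℕ)
    (hQ0 : 0 < Q) (hQ : (Cm : ℝ) * Fintype.card κ ≤ τ * Q) :
    ∃ Bad : Set (ι → ℝ), MeasurableSet Bad ∧
      W.piNu ι Bad ≤ ENNReal.ofReal ((Q : ℝ) ^ (2 * Fintype.card κ) *
        Real.exp (-(τ ^ 2 * Fintype.card ι / 500))) ∧
      ∀ χ ∉ Bad, Eqd A W.lam τ χ := by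
  classical
  have hl := W.lam_pos
  have hs0 : ∀ (j : κ → Fin Q) l, 0 ≤ eqS A j l := fun j l => Int.fract_nonneg _
  have hs1 : ∀ (j : κ → Fin Q) l, eqS A j l < 1 := fun j l => Int.fract_lt_one _
  set g : (κ → Fin Q) × (κ → Fin Q) → ι → ℝ → ℝ := fun jj l x =>
    eqPsi τ (eqS A jj.1 l) (eqS A jj.2 l) x - ∫ y, eqPsi τ (eqS A jj.1 l) (eqS A jj.2 l) y ∂W.nu
    with hg
  have hgm : ∀ jj l, Measurable (g jj l) := fun jj l => (eq_psi_meas _ _ _).sub_const _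
  refine ⟨⋃ jj, {χ | τ * Fintype.card ι ≤ ∑ l, g jj l (χ l)}, MeasurableSet.iUnion fun jj =>
    measurableSet_le measurable_const (Finset.measurable_sum _ fun l _ =>
      (hgm jj l).comp (measurable_pi_apply l)), ?_, ?_⟩
  · refine (measure_iUnion_fintype_le _ _).trans ?_
    have h1 : ∀ jj ∈ (univ : Finset ((κ → Fin Q) × (κ → Fin Q))),
        W.piNu ι {χ | τ * Fintype.card ι ≤ ∑ l, g jj l (χ l)} ≤
          ENNReal.ofReal (Real.exp (-(τ ^ 2 * Fintype.card ι / 500))) := fun jj _ => by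
      have h2 := eqa_hoeff W (g jj) (hgm jj) (fun _ => (‖(21 : ℝ) - -1‖₊ / 2) ^ 2)
        (fun l => ProbabilityTheory.hasSubgaussianMGF_of_mem_Icc (eq_psi_meas _ _ _).aemeasurable
          (ae_of_all _ (eq_psi_mem τ (hs0 _ l) (hs1 _ l).le (hs0 _ l) (hs1 _ l).le)))
        (c' := 121 * Fintype.card ι) (ε := τ * Fintype.card ι) (le_of_eq (by
          rw [sum_const, card_univ, nsmul_eq_mul, mul_comm]
          change (‖(21 : ℝ) - -1‖ / 2) ^ 2 * _ = _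
          norm_num)) (mul_nonneg (by linarith) (Nat.cast_nonneg _))
      refine h2.trans (ENNReal.ofReal_le_ofReal (Real.exp_le_exp.2 ?_))
      rcases (Nat.cast_nonneg (α := ℝ) (Fintype.card ι)).eq_or_lt with h0 | h0
      · rw [← h0]; simp
      · rw [div_le_iff₀ (by positivity)]
        have : 0 ≤ τ ^ 2 * (Fintype.card ι : ℝ) ^ 2 := by positivity
        nlinarith
    refine (sum_le_card_nsmul _ _ _ h1).trans (le_of_eq ?_)
    rw [ENNReal.ofReal_mul (by positivity), card_univ, nsmul_eq_mul, ← ENNReal.ofReal_natCast]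
    congr 2
    simp [two_mul, pow_add]
  · intro χ hχ p p' e e' ⟨hp, hp', hx, hxp, hxp'⟩
    obtain ⟨j, hj⟩ := eq_grid A hA hQ0 hQ hp
    obtain ⟨j', hj'⟩ := eq_grid A hA hQ0 hQ hp'
    have h1 : ∑ l, g (j, j') l (χ l) < τ * Fintype.card ι := by
      by_contra hc
      exact hχ (Set.mem_iUnion.2 ⟨(j, j'), not_lt.1 hc⟩)
    have h2 : ∀ l, -(p l * p' l) ≤ g (j, j') l (χ l) + 140 * τ +
        16 / τ ^ 2 * (e l ^ 2 + e' l ^ 2) := fun l => by
      obtain ⟨n, ζ, hζ, hn⟩ := hj l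
      obtain ⟨n', ζ', hζ', hn'⟩ := hj' l
      rw [Pi.sub_apply, sub_eq_iff_eq_add] at hn hn'
      have h3 := eq_point hl W.lam_le hτ (hs0 j l) (hs1 j l) (hs0 j' l) (hs1 j' l) hn hn' hζ hζ'
        (hx l) (hxp l) (hxp' l)
      have h4 := eq_psi_int W hτ (hs0 j l) (hs1 j l).le (hs0 j' l) (hs1 j' l).le
      simp only [hg]
      linarith
    have h3 := sum_le_sum fun l (_ : l ∈ univ) => h2 l
    rw [sum_neg_distrib, sum_add_distrib, sum_add_distrib, sum_const, ← mul_sum, sum_add_distrib,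
      card_univ, nsmul_eq_mul] at h3
    have h4 : 0 ≤ τ * Fintype.card ι := mul_nonneg (by linarith) (Nat.cast_nonneg _)
    unfold ip nsq
    linarith

end Vale.Agent.P318
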