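import Vale.Agent.P318.Basic

open Finset MeasureTheory

noncomputable section

namespace Vale.Agent.P318

variable {β X : Type} [Fintype β] [DecidableEq β] {p : β → X → ℝ}

theorem EP_eq_sum {T : Finset X} (hT : ∀ b, ∀ x ∉ T, p b x = 0) (F : (β → X) → ℝ) :
    EP p F = ∑ a ∈ Fintype.piFinset (fun _ => T), (∏ b, p b (a b)) * F a := by
  unfold EP
  refine tsum_eq_sum fun a ha => ?_
  rw [Fintype.mem_piFinset] at ha
  push Not at ha
  obtain ⟨b, hb⟩ := ha
  rw [prod_eq_zero (mem_univ b) (hT b _ hb), zero_mul]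
theorem EP_const (hp : FinProb p) (c : ℝ) : EP p (fun _ => c) = c := by
  obtain ⟨-, T, hT, h1⟩ := hp
  rw [EP_eq_sum hT, ← sum_mul, ← Finset.prod_univ_sum (fun _ => T) p]
  simp [h1]
theorem EP_add (hp : FinProb p) (F G : (β → X) → ℝ) :
    EP p (fun a => F a + G a) = EP p F + EP p G := by
  obtain ⟨-, T, hT, -⟩ := hp
  simp only [EP_eq_sum hT, mul_add, sum_add_distrib]
theorem EP_sub (hp : FinProb p) (F G : (β → X) → ℝ) :
    EP p (fun a => F a - G a) = EP p F - EP p G := by
  obtain ⟨-, T, hT, -⟩ := hp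
  simp only [EP_eq_sum hT, mul_sub, sum_sub_distrib]
theorem EP_mul_left (c : ℝ) (F : (β → X) → ℝ) : EP p (fun a => c * F a) = c * EP p F := by
  unfold EP
  rw [← tsum_mul_left]
  exact tsum_congr fun a => by ring
theorem EP_sum (hp : FinProb p) {I : Type} (s : Finset I) (F : I → (β → X) → ℝ) :
    EP p (fun a => ∑ i ∈ s, F i a) = ∑ i ∈ s, EP p (F i) := by
  obtain ⟨-, T, hT, -⟩ := hp
  simp only [EP_eq_sum hT, mul_sum]
  exact sum_comm
theorem EP_mono (hp : FinProb p) {F G : (β → X) → ℝ} (h : ∀ a, F a ≤ G a) : EP p F ≤ EP p G := by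
  obtain ⟨h0, T, hT, -⟩ := hp
  simp only [EP_eq_sum hT]
  exact sum_le_sum fun a _ => mul_le_mul_of_nonneg_left (h a) (prod_nonneg fun b _ => h0 _ _)
theorem EP_nonneg (hp : FinProb p) {F : (β → X) → ℝ} (h : ∀ a, 0 ≤ F a) : 0 ≤ EP p F := by
  have := EP_mono hp (F := fun _ => 0) (G := F) h
  rwa [EP_const hp] at this

theorem ES_mul_right (c : ℝ) (F : (β → X) → ℝ) : EP p (fun a => F a * c) = EP p F * c := by
  rw [mul_comm, ← EP_mul_left]
  exact congrArg _ (funext fun a => mul_comm _ _)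

omit [Fintype β] in
theorem ES_pw_pw (N : Finset β) (a a' : β → X) :
    N.piecewise (N.piecewise a a') (N.piecewise a' a) = a := by
  funext b
  by_cases h : b ∈ N <;> simp [h]

theorem ES_swap (hp : FinProb p) (N : Finset β) (G : (β → X) → (β → X) → ℝ) :
    EP p (fun a => EP p fun a' => G (N.piecewise a a') (N.piecewise a' a)) =
      EP p fun a => EP p fun a' => G a a' := by
  obtain ⟨-, T, hT, -⟩ := hp
  simp only [EP_eq_sum hT, mul_sum]
  rw [← sum_product', ← sum_product']
  refine sum_nbij' (fun z => (N.piecewise z.1 z.2, N.piecewise z.2 z.1))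
    (fun z => (N.piecewise z.1 z.2, N.piecewise z.2 z.1)) ?_ ?_ ?_ ?_ ?_
  · rintro ⟨a, a'⟩ h
    simp only [mem_product, Fintype.mem_piFinset] at h ⊢
    refine ⟨fun b => ?_, fun b => ?_⟩ <;> by_cases hb : b ∈ N <;> simp [hb, h.1 b, h.2 b]
  · rintro ⟨a, a'⟩ h
    simp only [mem_product, Fintype.mem_piFinset] at h ⊢
    refine ⟨fun b => ?_, fun b => ?_⟩ <;> by_cases hb : b ∈ N <;> simp [hb, h.1 b, h.2 b]
  · rintro ⟨a, a'⟩ -
    simp only [ES_pw_pw]
  · rintro ⟨a, a'⟩ -
    simp only [ES_pw_pw]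
  · rintro ⟨a, a'⟩ -
    have : (∏ b, p b (a b)) * ∏ b, p b (a' b) =
        (∏ b, p b (N.piecewise a a' b)) * ∏ b, p b (N.piecewise a' a b) := by
      rw [← prod_mul_distrib, ← prod_mul_distrib]
      refine prod_congr rfl fun b _ => ?_
      by_cases hb : b ∈ N <;> simp [hb, mul_comm]
    simp only
    rw [← mul_assoc, ← mul_assoc, this]

theorem ES_CE_CE (hp : FinProb p) (N N' : Finset β) (F : (β → X) → ℝ) (a : β → X) :
    CE p N (CE p N' F) a = CE p (N ∩ N') F a := by
  have h := ES_swap hp N' (fun u _ => F ((N ∩ N').piecewise a u))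
  simp only [EP_const hp] at h
  unfold CE
  rw [← h]
  refine congrArg _ (funext fun a' => congrArg _ (funext fun a'' => congrArg _ ?_))
  funext b
  by_cases hb : b ∈ N <;> by_cases hb' : b ∈ N' <;> simp [hb, hb']

theorem ES_EP_CE (hp : FinProb p) (N : Finset β) (F : (β → X) → ℝ) :
    EP p (CE p N F) = EP p F := by
  have h := ES_swap hp N (fun u _ => F u)
  simp only [EP_const hp] at h
  exact h

theorem ES_adj (hp : FinProb p) (N : Finset β) (F G : (β → X) → ℝ) :
    EP p (fun a => CE p N F a * G a) = EP p fun a => F a * CE p N G a := by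
  have h := ES_swap hp N (fun u v => F u * G (N.piecewise u v))
  simp only [ES_pw_pw, ES_mul_right, EP_mul_left] at h
  exact h

theorem ES_CE_univ (hp : FinProb p) (F : (β → X) → ℝ) (a : β → X) : CE p univ F a = F a := by
  simp [CE, EP_const hp]

/-- alternating sum over subsets -/
def ES_mob (f : Finset β → ℝ) (J : Finset β) : ℝ :=
  ∑ N ∈ J.powerset, (-1 : ℝ) ^ (J.card - N.card) * f N

omit [Fintype β] in
theorem ES_mob_insert (f : Finset β → ℝ) {J : Finset β} {b : β} (hb : b ∉ J) :
    ES_mob f (insert b J) = ES_mob (fun N => f (insert b N)) J - ES_mob f J := by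
  unfold ES_mob
  rw [sum_powerset_insert hb, card_insert_of_notMem hb, sub_eq_neg_add, ← sum_neg_distrib]
  congr 1
  · refine sum_congr rfl fun N hN => ?_
    have := card_le_card (mem_powerset.1 hN)
    rw [show J.card + 1 - N.card = (J.card - N.card) + 1 by omega, pow_succ]
    ring
  · refine sum_congr rfl fun N hN => ?_
    have hN' : b ∉ N := fun h => hb (mem_powerset.1 hN h)
    rw [card_insert_of_notMem hN', Nat.add_sub_add_right]

omit [Fintype β] in
theorem ES_mob_congr {f g : Finset β → ℝ} {J : Finset β} (h : ∀ N ⊆ J, f N = g N) :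
    ES_mob f J = ES_mob g J :=
  sum_congr rfl fun N hN => by rw [h N (mem_powerset.1 hN)]

omit [Fintype β] in
theorem ES_sum_mob (N : Finset β) : ∀ f : Finset β → ℝ, ∑ J ∈ N.powerset, ES_mob f J = f N := by
  induction N using Finset.induction_on with
  | empty => intro f; simp [ES_mob]
  | insert b N hb ih =>
    intro f
    rw [sum_powerset_insert hb, ← ih (fun M => f (insert b M)), ← sum_add_distrib]
    refine sum_congr rfl fun J hJ => ?_
    rw [ES_mob_insert f fun h => hb (mem_powerset.1 hJ h)]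
    ring

theorem ES_cp_eq (J : Finset β) (F : (β → X) → ℝ) (a : β → X) :
    cp p J F a = ES_mob (fun N => CE p N F a) J := rfl

theorem ES_sum_cp (N : Finset β) (F : (β → X) → ℝ) (a : β → X) :
    ∑ J ∈ N.powerset, cp p J F a = CE p N F a :=
  ES_sum_mob N fun M => CE p M F a

theorem ES_CE_cp (hp : FinProb p) (N J : Finset β) (F : (β → X) → ℝ) (a : β → X) :
    CE p N (cp p J F) a = ES_mob (fun M => CE p (N ∩ M) F a) J := by
  unfold ES_mob
  simp only [← ES_CE_CE hp]
  show EP p (fun a' => ∑ M ∈ J.powerset, (-1 : ℝ) ^ (J.card - M.card) *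
    CE p M F (N.piecewise a a')) = _
  rw [EP_sum hp]
  refine sum_congr rfl fun M _ => ?_
  rw [EP_mul_left]
  rfl

theorem ES_CE_cp_of_subset (hp : FinProb p) {N J : Finset β} (h : J ⊆ N) (F : (β → X) → ℝ)
    (a : β → X) : CE p N (cp p J F) a = cp p J F a := by
  rw [ES_CE_cp hp, ES_cp_eq]
  exact ES_mob_congr fun M hM => by rw [inter_eq_right.2 (hM.trans h)]

theorem ES_CE_cp_of_not (hp : FinProb p) {N J : Finset β} (h : ¬J ⊆ N) (F : (β → X) → ℝ)
    (a : β → X) : CE p N (cp p J F) a = 0 := by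
  obtain ⟨b, hbJ, hbN⟩ := not_subset.1 h
  rw [ES_CE_cp hp, ← insert_erase hbJ, ES_mob_insert _ (notMem_erase b J), sub_eq_zero]
  exact ES_mob_congr fun M _ => by rw [inter_insert_of_notMem hbN]

theorem ES_orth_aux (hp : FinProb p) {J J' : Finset β} (h : ¬J ⊆ J') (F G : (β → X) → ℝ) :
    EP p (fun a => cp p J F a * cp p J' G a) = 0 := by
  have h1 := ES_adj hp J' (cp p J F) (cp p J' G)
  simp only [ES_CE_cp_of_not hp h, ES_CE_cp_of_subset hp (Subset.refl J'), zero_mul,
    EP_const hp] at h1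
  exact h1.symm

theorem ES_orth (hp : FinProb p) {J J' : Finset β} (h : J ≠ J') (F : (β → X) → ℝ) :
    EP p (fun a => cp p J F a * cp p J' F a) = 0 := by
  by_cases h1 : J ⊆ J'
  · have h2 : ¬J' ⊆ J := fun h2 => h (Subset.antisymm h1 h2)
    rw [← ES_orth_aux hp h2 F F]
    exact congrArg _ (funext fun a => mul_comm _ _)
  · exact ES_orth_aux hp h1 F F

theorem ES_sq_sum (hp : FinProb p) (s : Finset (Finset β)) (F : (β → X) → ℝ) :
    EP p (fun a => (∑ J ∈ s, cp p J F a) ^ 2) = ∑ J ∈ s, EP p fun a => cp p J F a ^ 2 := by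
  simp only [sq, sum_mul_sum]
  rw [EP_sum hp]
  refine sum_congr rfl fun J hJ => ?_
  rw [EP_sum hp, sum_eq_single_of_mem J hJ fun J' _ h => ES_orth hp h.symm F]

theorem ES_CE_sq (hp : FinProb p) (N : Finset β) (F : (β → X) → ℝ) :
    EP p (fun a => CE p N F a ^ 2) = ∑ J ∈ N.powerset, EP p fun a => cp p J F a ^ 2 := by
  simp only [← ES_sum_cp]
  exact ES_sq_sum hp _ F

theorem ES_update (hp : FinProb p) (b : β) (q : X → ℝ) (T : Finset X) (hq : ∀ x ∉ T, q x = 0)
    (g : (β → X) → ℝ) :
    EP p (fun a => ∑' x, q x * g (Function.update a b x)) =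
      ∑' a : β → X, (q (a b) * ∏ b' ∈ univ.erase b, p b' (a b')) * g a := by
  classical
  obtain ⟨-, T0, hT0, h1⟩ := hp
  have hT : ∀ b, ∀ x ∉ T ∪ T0, p b x = 0 := fun b x hx =>
    hT0 b x fun h => hx (mem_union_right _ h)
  have hq' : ∀ x ∉ T ∪ T0, q x = 0 := fun x hx => hq x fun h => hx (mem_union_left _ h)
  have h1' : ∑ x ∈ T ∪ T0, p b x = 1 := by
    rw [← h1 b]
    exact (sum_subset subset_union_right fun x _ hx => hT0 b x hx).symm
  generalize T ∪ T0 = U at hT hq' h1'
  have e1 : ∀ a : β → X, ∑' x, q x * g (Function.update a b x) =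
      ∑ x ∈ U, q x * g (Function.update a b x) := fun a =>
    tsum_eq_sum fun x hx => by rw [hq' x hx, zero_mul]
  have e2 : ∑' a : β → X, (q (a b) * ∏ b' ∈ univ.erase b, p b' (a b')) * g a =
      ∑ a ∈ Fintype.piFinset (fun _ => U),
        (q (a b) * ∏ b' ∈ univ.erase b, p b' (a b')) * g a := by
    refine tsum_eq_sum fun a ha => ?_
    rw [Fintype.mem_piFinset] at ha
    push Not at ha
    obtain ⟨b', hb'⟩ := ha
    by_cases h : b' = b
    · subst h
      rw [hq' _ hb', zero_mul, zero_mul]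
    · rw [prod_eq_zero (mem_erase.2 ⟨h, mem_univ _⟩) (hT b' _ hb'), mul_zero, zero_mul]
  have e3 : ∀ a : β → X, (q (a b) * ∏ b' ∈ univ.erase b, p b' (a b')) * g a =
      ∑ x ∈ U, p b x * ((q (a b) * ∏ b' ∈ univ.erase b, p b' (a b')) * g a) := fun a => by
    rw [← sum_mul, h1', one_mul]
  rw [EP_eq_sum hT, e2]
  simp only [e1, mul_sum]
  rw [sum_congr rfl fun a _ => e3 a, ← sum_product', ← sum_product']
  refine sum_nbij' (fun z => (Function.update z.1 b z.2, z.1 b))
    (fun z => (Function.update z.1 b z.2, z.1 b)) ?_ ?_ ?_ ?_ ?_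
  · rintro ⟨a, x⟩ h
    simp only [mem_product, Fintype.mem_piFinset] at h ⊢
    refine ⟨fun b' => ?_, h.1 b⟩
    by_cases hb : b' = b
    · subst hb; simpa using h.2
    · simpa [hb] using h.1 b'
  · rintro ⟨a, x⟩ h
    simp only [mem_product, Fintype.mem_piFinset] at h ⊢
    refine ⟨fun b' => ?_, h.1 b⟩
    by_cases hb : b' = b
    · subst hb; simpa using h.2
    · simpa [hb] using h.1 b'
  · rintro ⟨a, x⟩ -
    simp
  · rintro ⟨a, x⟩ -
    simp
  · rintro ⟨a, x⟩ -
    have : ∏ b' ∈ univ.erase b, p b' (Function.update a b x b') =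
        ∏ b' ∈ univ.erase b, p b' (a b') :=
      prod_congr rfl fun b' hb' => by rw [Function.update_of_ne (mem_erase.1 hb').1]
    simp only [Function.update_self, this]
    rw [← mul_prod_erase univ (fun b => p b (a b)) (mem_univ b)]
    ring

theorem ES_resample (hp : FinProb p) (b : β) (g : (β → X) → ℝ) :
    EP p (fun a => ∑' x, p b x * g (Function.update a b x)) = EP p g := by
  obtain ⟨T, hT, -⟩ := hp.2
  rw [ES_update hp b (p b) T (hT b) g]
  refine tsum_congr fun a => ?_
  rw [mul_prod_erase univ (fun b => p b (a b)) (mem_univ b)]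

theorem ES_CE_erase (hp : FinProb p) (b : β) (F : (β → X) → ℝ) (a : β → X) :
    CE p (univ.erase b) F a = ∑' x, p b x * F (Function.update a b x) := by
  have h := ES_resample hp b fun a' => F (Function.update a b (a' b))
  simp only [Function.update_self, EP_const hp] at h
  rw [h]
  unfold CE
  refine congrArg _ (funext fun a' => congrArg _ ?_)
  funext b'
  by_cases hb : b' = b
  · subst hb; simp
  · simp [hb]

theorem es_parseval (hp : FinProb p) (F : (β → X) → ℝ) :
    EP p (fun a => F a ^ 2) = ∑ J : Finset β, EP p fun a => cp p J F a ^ 2 := by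
  have h := ES_CE_sq hp univ F
  simp only [ES_CE_univ hp, powerset_univ] at h
  exact h
theorem es_energy (hp : FinProb p) (F : (β → X) → ℝ) :
    ∑ J : Finset β, (J.card : ℝ) * EP p (fun a => cp p J F a ^ 2) =
      ∑ b, EP p fun a => (∑' x, p b x * F (Function.update a b x) ^ 2) -
        (∑' x, p b x * F (Function.update a b x)) ^ 2 := by
  have h : ∀ b, EP p (fun a => (∑' x, p b x * F (Function.update a b x) ^ 2) -
        (∑' x, p b x * F (Function.update a b x)) ^ 2) =
      ∑ J : Finset β, if b ∈ J then EP p (fun a => cp p J F a ^ 2) else 0 := fun b => by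
    rw [EP_sub hp, ES_resample hp b fun a => F a ^ 2]
    simp only [← ES_CE_erase hp]
    rw [ES_CE_sq hp, es_parseval hp, sub_eq_iff_eq_add, ← sum_filter]
    have : (univ.erase b).powerset = univ.filter fun J : Finset β => ¬b ∈ J := by
      ext J
      simp [subset_erase]
    rw [this, sum_filter_add_sum_filter_not]
  simp only [h]
  rw [sum_comm]
  refine sum_congr rfl fun J _ => ?_
  rw [← sum_filter]
  simp
theorem cp_empty (F : (β → X) → ℝ) (a : β → X) : cp p ∅ F a = EP p F := by
  simp [cp, CE]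
theorem EP_cp (hp : FinProb p) {J : Finset β} (hJ : J.Nonempty) (F : (β → X) → ℝ) :
    EP p (cp p J F) = 0 := by
  rw [← ES_EP_CE hp ∅]
  have : CE p ∅ (cp p J F) = fun _ => 0 :=
    funext fun a => ES_CE_cp_of_not hp (fun h => hJ.ne_empty (subset_empty.1 h)) F a
  rw [this, EP_const hp]
theorem CE_congr {N : Finset β} (F : (β → X) → ℝ) {a a' : β → X} (h : ∀ b ∈ N, a b = a' b) :
    CE p N F a = CE p N F a' := by
  unfold CE
  refine congrArg _ (funext fun c => congrArg _ ?_)
  funext b
  by_cases hb : b ∈ N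
  · simp [hb, h b hb]
  · simp [hb]
theorem cp_congr {J : Finset β} (F : (β → X) → ℝ) {a a' : β → X} (h : ∀ b ∈ J, a b = a' b) :
    cp p J F a = cp p J F a' := by
  exact sum_congr rfl fun N hN => by
    rw [CE_congr F fun b hb => h b (mem_powerset.1 hN hb)]
theorem es_erase (hp : FinProb p) (b : β) (G : (β → X) → ℝ) :
    ∑ J : Finset β, EP p (fun a => cp p (J.erase b) G a ^ 2) ≤ 2 * EP p fun a => G a ^ 2 := by
  have hb : b ∉ univ.erase b := notMem_erase b univ
  have e : (univ : Finset (Finset β)) = (insert b (univ.erase b)).powerset := by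
    rw [insert_erase (mem_univ b), powerset_univ]
  have h1 : ∑ J ∈ (univ.erase b).powerset, EP p (fun a => cp p J G a ^ 2) ≤
      EP p fun a => G a ^ 2 := by
    rw [es_parseval hp]
    exact sum_le_sum_of_subset_of_nonneg (subset_univ _) fun J _ _ =>
      EP_nonneg hp fun a => sq_nonneg _
  rw [e, sum_powerset_insert hb, two_mul]
  refine add_le_add (le_of_eq_of_le (sum_congr rfl fun J hJ => ?_) h1)
    (le_of_eq_of_le (sum_congr rfl fun J hJ => ?_) h1)
  · rw [erase_eq_of_notMem fun h => hb (mem_powerset.1 hJ h)]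
  · rw [erase_insert fun h => hb (mem_powerset.1 hJ h)]
theorem cp_erase_sum (J : Finset β) (b : β) (G : (β → X) → ℝ) (a : β → X) :
    ∑ N ∈ J.powerset, (-1 : ℝ) ^ (J.card - N.card) * (if b ∈ N then 0 else CE p N G a) =
      (if b ∈ J then -1 else 1) * cp p (J.erase b) G a := by
  show ES_mob (fun N => if b ∈ N then 0 else CE p N G a) J = _
  rw [ES_cp_eq]
  by_cases hb : b ∈ J
  · have hb' := notMem_erase b J
    rw [if_pos hb]
    conv_lhs => rw [← insert_erase hb]
    rw [ES_mob_insert _ hb']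
    have e1 : ES_mob (fun N => if b ∈ insert b N then 0 else CE p (insert b N) G a) (J.erase b)
        = 0 := by simp [ES_mob]
    have e2 : ES_mob (fun N => if b ∈ N then 0 else CE p N G a) (J.erase b) =
        ES_mob (fun N => CE p N G a) (J.erase b) :=
      ES_mob_congr fun N hN => if_neg fun h => hb' (hN h)
    rw [e1, e2]
    ring
  · rw [if_neg hb, one_mul, erase_eq_of_notMem hb]
    exact ES_mob_congr fun N hN => if_neg fun h => hb (hN h)
/-- resampling one coordinate with another weight -/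
theorem EP_update (hp : FinProb p) (b : β) (q : X → ℝ) (T : Finset X) (hq : ∀ x ∉ T, q x = 0)
    (g : (β → X) → ℝ) :
    EP p (fun a => ∑' x, q x * g (Function.update a b x)) =
      ∑' a : β → X, (q (a b) * ∏ b' ∈ univ.erase b, p b' (a b')) * g a := by
  exact ES_update hp b q T hq g
theorem finProb_restrict (hp : FinProb p) (J : Finset β) : FinProb fun b : J => p b := by
  obtain ⟨h0, T, hT, h1⟩ := hp
  exact ⟨fun b x => h0 b x, T, fun b => hT b, fun b => h1 b⟩
theorem EP_restrict (hp : FinProb p) (J : Finset β) (x0 : X) (g : (β → X) → ℝ)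
    (hg : ∀ a a' : β → X, (∀ b ∈ J, a b = a' b) → g a = g a') :
    EP p g = EP (fun b : J => p b) fun a => g (extJ J x0 a) := by
  obtain ⟨-, T, hT, h1⟩ := hp
  have hc : ∑ d ∈ Fintype.piFinset (fun _ : ↥(Jᶜ) => T), ∏ b : ↥(Jᶜ), p b (d b) = 1 := by
    rw [← Finset.prod_univ_sum (fun _ : ↥(Jᶜ) => T) fun b x => p b x]
    simp [h1]
  have e3 : ∀ c : J → X, (∏ b : J, p b (c b)) * g (extJ J x0 c) =
      ∑ d ∈ Fintype.piFinset (fun _ : ↥(Jᶜ) => T),
        (∏ b : ↥(Jᶜ), p b (d b)) * ((∏ b : J, p b (c b)) * g (extJ J x0 c)) := fun c => by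
    rw [← sum_mul, hc, one_mul]
  rw [EP_eq_sum hT, EP_eq_sum (p := fun b : J => p b) (T := T) fun b => hT b,
    sum_congr rfl fun c _ => e3 c, ← sum_product']
  refine sum_nbij' (fun a => (fun b : J => a b, fun b : ↥(Jᶜ) => a b))
    (fun z b => if h : b ∈ J then z.1 ⟨b, h⟩ else z.2 ⟨b, mem_compl.2 h⟩) ?_ ?_ ?_ ?_ ?_
  · intro a h
    simp only [mem_product, Fintype.mem_piFinset] at h ⊢
    exact ⟨fun b => h b, fun b => h b⟩
  · rintro ⟨c, d⟩ h
    simp only [mem_product, Fintype.mem_piFinset] at h ⊢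
    intro b
    split_ifs
    · exact h.1 _
    · exact h.2 _
  · intro a _
    funext b
    simp
  · rintro ⟨c, d⟩ -
    refine Prod.ext (funext fun b => ?_) (funext fun b => ?_)
    · simp
    · have := mem_compl.1 b.2
      simp [this]
  · intro a _
    have : g a = g (extJ J x0 fun b : J => a b) := hg _ _ fun b hb => by simp [extJ, hb]
    simp only
    rw [← this, prod_coe_sort J fun b => p b (a b), prod_coe_sort Jᶜ fun b => p b (a b),
      ← prod_mul_prod_compl J]
    ring

end Vale.Agent.P318
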