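import Mathlib

open Finset

noncomputable section

namespace Vale.Agent.P318

/-- Symmetric nonnegative capacities with zero diagonal. -/
def IsCap {n : ℕ} (c : Fin n → Fin n → ℝ) : Prop :=
  (∀ i j, 0 ≤ c i j) ∧ (∀ i j, c i j = c j i) ∧ ∀ i, c i i = 0

/-- The value of uniform sparsest cut. -/
def sparsity {n : ℕ} (c : Fin n → Fin n → ℝ) : ℝ :=
  sInf {r | ∃ S : Finset (Fin n), S.Nonempty ∧ S ≠ univ ∧
    r = (∑ i ∈ S, ∑ j ∈ Sᶜ, c i j) / ((S.card : ℝ) * ((n : ℝ) - S.card))}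

/-- Negative-type semimetrics on `[n]`. -/
def IsNegType {n : ℕ} (d : Fin n → Fin n → ℝ) : Prop :=
  (∃ x : Fin n → EuclideanSpace ℝ (Fin n), ∀ i j, d i j = ‖x i - x j‖ ^ 2) ∧
    ∀ i j k, d i k ≤ d i j + d j k

/-- Sum over unordered pairs. -/
def pairSum {n : ℕ} (f : Fin n → Fin n → ℝ) : ℝ :=
  ∑ i, ∑ j ∈ univ.filter (fun j => i < j), f i j

/-- The Goemans-Linial relaxation. -/
def glValue {n : ℕ} (c : Fin n → Fin n → ℝ) : ℝ :=
  sInf {r | ∃ d : Fin n → Fin n → ℝ, IsNegType d ∧ pairSum d = 1 ∧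
    r = pairSum (fun i j => c i j * d i j)}

end Vale.Agent.P318
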