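import Vale.Agent.P318.Neg
import Vale.Agent.P318.Stmt

open Finset MeasureTheory

noncomputable section

namespace Vale.Agent.P318

/-- replication of weighted points -/
theorem exists_copies {X : Type} [Fintype X] [DecidableEq X] (μ : X → ℝ) (hs : ∑ x, μ x = 1)
    (n : ℕ) (hn : ∀ x, 1 ≤ n * μ x) : ∃ π : Fin n → X, ∀ x,
      n * μ x / 2 ≤ (univ.filter fun i => π i = x).card ∧
        ((univ.filter fun i => π i = x).card : ℝ) ≤ 2 * n * μ x := by
  have hfl : ∀ x, ((⌊n * μ x⌋₊ : ℕ) : ℝ) ≤ n * μ x := fun x =>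
    Nat.floor_le (by linarith [hn x])
  have hlt : ∀ x, n * μ x < (⌊n * μ x⌋₊ : ℕ) + 1 := fun x => Nat.lt_floor_add_one _
  have hsum : ∑ x, (n : ℝ) * μ x = n := by rw [← mul_sum, hs, mul_one]
  have h1 : ∑ x, ⌊n * μ x⌋₊ ≤ n := by
    have : ((∑ x, ⌊n * μ x⌋₊ : ℕ) : ℝ) ≤ n := by
      rw [Nat.cast_sum]
      exact (sum_le_sum fun x _ => hfl x).trans hsum.le
    exact_mod_cast this
  have h2 : n - ∑ x, ⌊n * μ x⌋₊ ≤ (univ : Finset X).card := by
    have : (n : ℝ) ≤ ((∑ x, ⌊n * μ x⌋₊ + (univ : Finset X).card : ℕ) : ℝ) := by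
      rw [Nat.cast_add, Nat.cast_sum, card_eq_sum_ones, Nat.cast_sum, ← sum_add_distrib]
      refine hsum.symm.le.trans (sum_le_sum fun x _ => ?_)
      simpa using (hlt x).le
    have h3 : n ≤ ∑ x, ⌊n * μ x⌋₊ + (univ : Finset X).card := by exact_mod_cast this
    omega
  obtain ⟨T, -, hT⟩ := exists_subset_card_eq h2
  let N : X → ℕ := fun x => ⌊n * μ x⌋₊ + if x ∈ T then 1 else 0
  have hN : ∑ x, N x = n := by
    simp only [N, sum_add_distrib]
    rw [sum_ite_mem, univ_inter, sum_const, smul_eq_mul, mul_one, hT]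
    omega
  have hc : Fintype.card (Σ x, Fin (N x)) = n := by simp [Fintype.card_sigma, hN]
  let e := (Fintype.equivFinOfCardEq hc).symm
  refine ⟨fun i => (e i).1, fun x => ?_⟩
  have hcard : (univ.filter fun i => (e i).1 = x).card = N x := by
    rw [← Fintype.card_subtype]
    have e2 : {i // (e i).1 = x} ≃ Fin (N x) :=
      (e.subtypeEquiv (q := fun s => s.1 = x) fun _ => Iff.rfl).trans (Equiv.sigmaSubtype x)
    rw [Fintype.card_congr e2, Fintype.card_fin]
  rw [hcard]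
  have h4 : (1 : ℝ) ≤ (⌊n * μ x⌋₊ : ℕ) := by
    have : 1 ≤ ⌊n * μ x⌋₊ := Nat.le_floor (by simpa using hn x)
    exact_mod_cast this
  have h5 := hfl x
  have h6 := hlt x
  have h7 := hn x
  simp only [N]
  split_ifs <;> push_cast <;> constructor <;> linarith

theorem fin_pairSum {n : ℕ} (f : Fin n → Fin n → ℝ) (hs : ∀ i j, f i j = f j i)
    (h0 : ∀ i, f i i = 0) : 2 * pairSum f = ∑ i, ∑ j, f i j := by
  have h1 : ∀ i j, f i j = (if i < j then f i j else 0) + if j < i then f j i else 0 := by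
    intro i j
    rcases lt_trichotomy i j with h | h | h
    · simp [h, not_lt.2 h.le]
    · simp [h, h0]
    · simp [h, not_lt.2 h.le, hs i j]
  have h2 : pairSum f = ∑ i, ∑ j, if i < j then f i j else 0 := by
    simp only [pairSum, sum_filter]
  have h3 : ∑ i, ∑ j, f i j = (∑ i, ∑ j, if i < j then f i j else 0) +
      ∑ i, ∑ j, if j < i then f j i else 0 := by
    rw [← sum_add_distrib]
    refine sum_congr rfl fun i _ => ?_
    rw [← sum_add_distrib]
    exact sum_congr rfl fun j _ => h1 i j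
  rw [h3, sum_comm (f := fun i j => if j < i then f j i else 0), h2]
  ring

theorem fin_fibre {I X : Type} [Fintype I] [DecidableEq X] (π : I → X) (S : Finset I)
    (T : Finset X) (h : ∀ i, i ∈ S ↔ π i ∈ T) (f : X → ℝ) :
    ∑ i ∈ S, f (π i) = ∑ x ∈ T, ((univ.filter fun i => π i = x).card : ℝ) * f x := by
  rw [← sum_fiberwise_of_maps_to (g := π) (t := T) fun i hi => (h i).1 hi]
  refine sum_congr rfl fun x hx => ?_
  have : S.filter (fun i => π i = x) = univ.filter fun i => π i = x := by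
    ext i
    simp only [mem_filter, mem_univ, true_and, and_iff_right_iff_imp]
    intro hi
    exact (h i).2 (hi ▸ hx)
  rw [this, sum_congr rfl (g := fun _ => f x) fun i hi => by rw [(mem_filter.1 hi).2]]
  simp

theorem fin_fibre2 {I X : Type} [Fintype I] [DecidableEq X] (π : I → X) (S S' : Finset I)
    (T T' : Finset X) (h : ∀ i, i ∈ S ↔ π i ∈ T) (h' : ∀ i, i ∈ S' ↔ π i ∈ T')
    (f : X → X → ℝ) :
    ∑ i ∈ S, ∑ j ∈ S', f (π i) (π j) = ∑ x ∈ T, ∑ y ∈ T',
      ((univ.filter fun i => π i = x).card : ℝ) * ((univ.filter fun i => π i = y).card : ℝ) *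
        f x y := by
  rw [fin_fibre π S T h fun x => ∑ j ∈ S', f x (π j)]
  refine sum_congr rfl fun x _ => ?_
  rw [fin_fibre π S' T' h' fun y => f x y, mul_sum]
  exact sum_congr rfl fun y _ => by ring

theorem fin_negType_nonneg {n : ℕ} {d : Fin n → Fin n → ℝ} (h : IsNegType d) (i j : Fin n) :
    0 ≤ d i j := by
  obtain ⟨⟨x, hx⟩, -⟩ := h
  rw [hx]; positivity

theorem fin_negType_div {n : ℕ} {d : Fin n → Fin n → ℝ} (h : IsNegType d) {Z : ℝ} (hZ : 0 < Z) :
    IsNegType fun i j => d i j / Z := by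
  obtain ⟨⟨x, hx⟩, ht⟩ := h
  refine ⟨⟨fun i => (√Z)⁻¹ • x i, fun i j => ?_⟩, fun i j k => ?_⟩
  · rw [← smul_sub, norm_smul, mul_pow, ← hx, Real.norm_eq_abs, sq_abs, inv_pow,
      Real.sq_sqrt hZ.le]
    ring
  · have := ht i j k
    show d i k / Z ≤ d i j / Z + d j k / Z
    rw [← add_div]
    exact div_le_div_of_nonneg_right this hZ.le

theorem fin_gl_low {n : ℕ} {c : Fin n → Fin n → ℝ} {e0 : ℝ} (hc : ∀ i j, i ≠ j → e0 ≤ c i j) :
    ∀ r ∈ {r | ∃ d : Fin n → Fin n → ℝ, IsNegType d ∧ pairSum d = 1 ∧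
      r = pairSum (fun i j => c i j * d i j)}, e0 ≤ r := by
  rintro r ⟨d, hd, h1, rfl⟩
  have : e0 = e0 * pairSum d := by rw [h1, mul_one]
  rw [this]
  simp only [pairSum, mul_sum]
  refine sum_le_sum fun i _ => sum_le_sum fun j hj => ?_
  exact mul_le_mul_of_nonneg_right (hc i j (mem_filter.1 hj).2.ne) (fin_negType_nonneg hd i j)

theorem fin_sparsity_low {n : ℕ} (hn2 : 2 ≤ n) {c : Fin n → Fin n → ℝ} {g : ℝ}
    (h : ∀ S : Finset (Fin n), g * ((S.card : ℝ) * ((n : ℝ) - S.card)) ≤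
      ∑ i ∈ S, ∑ j ∈ Sᶜ, c i j) : g ≤ sparsity c := by
  refine le_csInf ⟨_, {⟨0, by omega⟩}, singleton_nonempty _, ?_, rfl⟩ ?_
  · intro h1
    have := congrArg Finset.card h1
    simp at this
    omega
  · rintro r ⟨S, hS, hS', rfl⟩
    have h1 : (0 : ℝ) < S.card := by exact_mod_cast hS.card_pos
    have h2 : S.card < n := by
      have := card_lt_card (ssubset_univ_iff.2 hS')
      simpa using this
    have h3 : (0 : ℝ) < n - S.card := by
      have : (S.card : ℝ) < n := by exact_mod_cast h2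
      linarith
    rw [le_div_iff₀ (mul_pos h1 h3)]
    exact h S

/-- from a weighted instance to an instance with uniform demands -/
theorem gap_of_weighted {X : Type} [Fintype X] [DecidableEq X] (μ : X → ℝ) (hs : ∑ x, μ x = 1)
    (n : ℕ) (hn2 : 2 ≤ n) (hn : ∀ x, 1 ≤ n * μ x) (w : X → X → ℝ) (hw : ∀ x y, 0 ≤ w x y)
    (d : X → X → ℝ) (hd : ∀ π : Fin n → X, IsNegType fun i j => d (π i) (π j))
    {G E D : ℝ} (hG : 0 ≤ G) (hE : 0 < E) (hD : 0 < D)
    (hcut : ∀ S : Finset X, G * ((∑ x ∈ S, μ x) * (1 - ∑ x ∈ S, μ x)) ≤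
      ∑ x ∈ S, ∑ y ∈ Sᶜ, (w x y + w y x))
    (hen : ∑ x, ∑ y, w x y * d x y ≤ E) (hav : D ≤ ∑ x, ∑ y, μ x * μ y * d x y) :
    ∃ c : Fin n → Fin n → ℝ, IsCap c ∧ 0 < glValue c ∧
      G * D * glValue c ≤ 64 * E * sparsity c := by
  obtain ⟨π, hπ⟩ := exists_copies μ hs n hn
  obtain ⟨N, hN⟩ : ∃ N : X → ℝ, ∀ x, N x = ((univ.filter fun i => π i = x).card : ℝ) :=
    ⟨_, fun _ => rfl⟩
  simp only [← hN] at hπ
  have hnpos : (0 : ℝ) < n := by exact_mod_cast (by omega : 0 < n)
  have hNpos : ∀ x, 0 < N x := fun x => by linarith [(hπ x).1, hn x]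
  have hμ : ∀ x, 0 ≤ μ x := fun x => by
    by_contra h
    have := mul_nonpos_of_nonneg_of_nonpos hnpos.le (not_le.1 h).le
    linarith [hn x]
  have hsurj : ∀ x, ∃ i, π i = x := fun x => by
    have h1 : 0 < (univ.filter fun i => π i = x).card := by
      have := hNpos x
      rw [hN] at this
      exact_mod_cast this
    obtain ⟨i, hi⟩ := card_pos.1 h1
    exact ⟨i, (mem_filter.1 hi).2⟩
  have hdπ := hd π
  obtain ⟨⟨v, hv⟩, -⟩ := hd π
  have d0 : ∀ x, d x x = 0 := fun x => by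
    obtain ⟨i, rfl⟩ := hsurj x
    simpa using hv i i
  have dsym : ∀ x y, d x y = d y x := fun x y => by
    obtain ⟨i, rfl⟩ := hsurj x
    obtain ⟨j, rfl⟩ := hsurj y
    have h1 := hv i j
    have h2 := hv j i
    simp only at h1 h2
    rw [h1, h2, norm_sub_rev]
  have dnn : ∀ x y, 0 ≤ d x y := fun x y => by
    obtain ⟨i, rfl⟩ := hsurj x
    obtain ⟨j, rfl⟩ := hsurj y
    exact fin_negType_nonneg hdπ i j
  obtain ⟨e0, he0⟩ : ∃ e0 : ℝ, e0 = 8 * E / (n ^ 2 * D) := ⟨_, rfl⟩
  have he0pos : 0 < e0 := by rw [he0]; positivity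
  obtain ⟨u, hu⟩ : ∃ u : X → X → ℝ, ∀ x y, u x y = (w x y + w y x) / (N x * N y) :=
    ⟨_, fun _ _ => rfl⟩
  have unn : ∀ x y, 0 ≤ u x y := fun x y => by
    rw [hu]
    exact div_nonneg (add_nonneg (hw _ _) (hw _ _)) (mul_pos (hNpos _) (hNpos _)).le
  have usym : ∀ x y, u x y = u y x := fun x y => by rw [hu, hu, add_comm, mul_comm]
  have uN : ∀ x y, N x * N y * u x y = w x y + w y x := fun x y => by
    rw [hu]
    have := (hNpos x).ne'
    have := (hNpos y).ne'
    field_simp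
  obtain ⟨c, hc⟩ : ∃ c : Fin n → Fin n → ℝ, ∀ i j, c i j =
      if i = j then 0 else e0 + if π i = π j then G else u (π i) (π j) := ⟨_, fun _ _ => rfl⟩
  have cge : ∀ i j, i ≠ j → e0 ≤ c i j := fun i j hij => by
    rw [hc, if_neg hij]
    split_ifs
    · linarith
    · linarith [unn (π i) (π j)]
  have cnn : ∀ i j, 0 ≤ c i j := fun i j => by
    by_cases hij : i = j
    · rw [hc, if_pos hij]
    · linarith [cge i j hij]
  have csym : ∀ i j, c i j = c j i := fun i j => by
    rw [hc, hc, usym (π i)]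
    simp only [eq_comm (a := i), eq_comm (a := π i)]
  have hcap : IsCap c := ⟨cnn, csym, fun i => by rw [hc, if_pos rfl]⟩
  obtain ⟨Z, hZ⟩ : ∃ Z, Z = pairSum fun i j => d (π i) (π j) := ⟨_, rfl⟩
  have hall : ∀ i : Fin n, i ∈ (univ : Finset (Fin n)) ↔ π i ∈ (univ : Finset X) := by simp
  have hZ2 : 2 * Z = ∑ x, ∑ y, N x * N y * d x y := by
    rw [hZ, fin_pairSum _ (fun i j => dsym _ _) (fun i => d0 _),
      fin_fibre2 π univ univ univ univ hall hall]
    simp only [hN]
  have hZge : n ^ 2 * D / 8 ≤ Z := by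
    have h1 : (n : ℝ) ^ 2 / 4 * ∑ x, ∑ y, μ x * μ y * d x y ≤ ∑ x, ∑ y, N x * N y * d x y := by
      simp only [mul_sum]
      refine sum_le_sum fun x _ => sum_le_sum fun y _ => ?_
      have h2 : n * μ x / 2 * (n * μ y / 2) ≤ N x * N y :=
        mul_le_mul (hπ x).1 (hπ y).1 (by have := hμ y; positivity) (hNpos x).le
      have h3 := mul_le_mul_of_nonneg_right h2 (dnn x y)
      calc _ = n * μ x / 2 * (n * μ y / 2) * d x y := by ring
        _ ≤ _ := h3
    have h4 := mul_le_mul_of_nonneg_left hav (by positivity : (0 : ℝ) ≤ (n : ℝ) ^ 2 / 4)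
    linarith
  have hZpos : 0 < Z := lt_of_lt_of_le (by positivity) hZge
  have hmem : (pairSum fun i j => c i j * (d (π i) (π j) / Z)) ∈
      {r | ∃ d : Fin n → Fin n → ℝ, IsNegType d ∧ pairSum d = 1 ∧
        r = pairSum (fun i j => c i j * d i j)} := by
    refine ⟨fun i j => d (π i) (π j) / Z, fin_negType_div hdπ hZpos, ?_, rfl⟩
    have : (pairSum fun i j => d (π i) (π j) / Z) = (pairSum fun i j => d (π i) (π j)) / Z := by
      simp only [pairSum, sum_div]
    rw [this, ← hZ, div_self hZpos.ne']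
  have hval : (pairSum fun i j => c i j * (d (π i) (π j) / Z)) ≤ 2 * e0 := by
    have h1 : ∀ i j, c i j * (d (π i) (π j) / Z) =
        (e0 * d (π i) (π j) + u (π i) (π j) * d (π i) (π j)) / Z := by
      intro i j
      rw [hc]
      split_ifs with h1 h2
      · rw [h1, d0]; simp
      · rw [h2, d0]; simp
      · ring
    have h2 := fin_pairSum (fun i j => c i j * (d (π i) (π j) / Z))
      (fun i j => by rw [csym, dsym]) (fun i => by rw [d0]; simp)
    have h3 : ∑ i, ∑ j, c i j * (d (π i) (π j) / Z) =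
        (e0 * (2 * Z) + 2 * ∑ x, ∑ y, w x y * d x y) / Z := by
      simp only [h1, ← sum_div]
      congr 1
      rw [fin_fibre2 π univ univ univ univ hall hall fun x y => e0 * d x y + u x y * d x y, hZ2]
      simp only [← hN]
      have h4 : ∑ x, ∑ y, w y x * d x y = ∑ x, ∑ y, w x y * d x y := by
        rw [sum_comm]
        exact sum_congr rfl fun x _ => sum_congr rfl fun y _ => by rw [dsym]
      rw [two_mul (∑ x, ∑ y, w x y * d x y)]
      nth_rewrite 2 [← h4]
      simp only [mul_sum, ← sum_add_distrib]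
      refine sum_congr rfl fun x _ => sum_congr rfl fun y _ => ?_
      have h5 := uN x y
      calc _ = e0 * (N x * N y * d x y) + N x * N y * u x y * d x y := by ring
        _ = _ := by rw [h5]; ring
    have h6 : E ≤ e0 * Z := by
      have h7 := mul_le_mul_of_nonneg_left hZge he0pos.le
      have h8 : e0 * (n ^ 2 * D / 8) = E := by rw [he0]; field_simp
      linarith
    have h9 : (e0 * (2 * Z) + 2 * ∑ x, ∑ y, w x y * d x y) / Z ≤ 4 * e0 := by
      rw [div_le_iff₀ hZpos]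
      linarith
    linarith
  have hlow := fin_gl_low cge
  have hgl1 : e0 ≤ glValue c := le_csInf ⟨_, hmem⟩ hlow
  have hgl2 : glValue c ≤ 2 * e0 := (csInf_le ⟨e0, hlow⟩ hmem).trans hval
  have hsp : G / (4 * n ^ 2) ≤ sparsity c := by
    refine fin_sparsity_low hn2 fun S => ?_
    have hS0 : (0 : ℝ) ≤ S.card := Nat.cast_nonneg _
    have hSn : (S.card : ℝ) ≤ n := by
      have := card_le_univ S
      rw [Fintype.card_fin] at this
      exact_mod_cast this
    by_cases hsplit : ∃ i ∈ S, ∃ j ∈ Sᶜ, π i = π j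
    · obtain ⟨i, hi, j, hj, hij⟩ := hsplit
      have hne : i ≠ j := fun h => (mem_compl.1 hj) (h ▸ hi)
      have h1 : G ≤ c i j := by rw [hc, if_neg hne, if_pos hij]; linarith
      have h2 : c i j ≤ ∑ j ∈ Sᶜ, c i j :=
        single_le_sum (f := fun j => c i j) (fun j _ => cnn i j) hj
      have h3 : ∑ j ∈ Sᶜ, c i j ≤ ∑ i ∈ S, ∑ j ∈ Sᶜ, c i j :=
        single_le_sum (f := fun i => ∑ j ∈ Sᶜ, c i j)
          (fun i _ => sum_nonneg fun j _ => cnn i j) hi
      have h4 : (S.card : ℝ) * (n - S.card) ≤ 4 * n ^ 2 := by nlinarith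
      have h5 : G / (4 * n ^ 2) * ((S.card : ℝ) * (n - S.card)) ≤
          G / (4 * n ^ 2) * (4 * n ^ 2) := mul_le_mul_of_nonneg_left h4 (by positivity)
      have h6 : G / (4 * n ^ 2) * (4 * n ^ 2) = G := by field_simp
      linarith
    · push Not at hsplit
      have hT : ∀ i, i ∈ S ↔ π i ∈ S.image π := fun i => by
        refine ⟨fun h => mem_image_of_mem _ h, fun h => ?_⟩
        obtain ⟨j, hj, hji⟩ := mem_image.1 h
        by_contra hi
        exact hsplit j hj i (mem_compl.2 hi) hji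
      have hT' : ∀ i, i ∈ Sᶜ ↔ π i ∈ (S.image π)ᶜ := fun i => by
        rw [mem_compl, mem_compl, hT]
      have h1 : ∑ x ∈ S.image π, ∑ y ∈ (S.image π)ᶜ, (w x y + w y x) ≤
          ∑ i ∈ S, ∑ j ∈ Sᶜ, c i j := by
        have h2 := fin_fibre2 π S Sᶜ _ _ hT hT' u
        simp only [← hN, uN] at h2
        rw [← h2]
        refine sum_le_sum fun i hi => sum_le_sum fun j hj => ?_
        have hne : i ≠ j := fun h => (mem_compl.1 hj) (h ▸ hi)
        rw [hc, if_neg hne, if_neg (hsplit i hi j hj)]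
        linarith
      have h3 : (S.card : ℝ) ≤ 2 * n * ∑ x ∈ S.image π, μ x := by
        have h4 := fin_fibre π S _ hT fun _ => 1
        simp only [← hN, sum_const, nsmul_eq_mul, mul_one] at h4
        rw [h4, mul_sum]
        exact sum_le_sum fun x _ => (hπ x).2
      have h5 : (n : ℝ) - S.card ≤ 2 * n * (1 - ∑ x ∈ S.image π, μ x) := by
        have h4 := fin_fibre π Sᶜ _ hT' fun _ => 1
        simp only [← hN, sum_const, nsmul_eq_mul, mul_one] at h4
        have h6 : ((Sᶜ).card : ℝ) = n - S.card := by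
          have := card_add_card_compl S
          rw [Fintype.card_fin] at this
          have h7 : (S.card : ℝ) + (Sᶜ).card = n := by exact_mod_cast this
          linarith
        have h8 : 1 - ∑ x ∈ S.image π, μ x = ∑ x ∈ (S.image π)ᶜ, μ x := by
          rw [← hs, ← sum_add_sum_compl (S.image π)]; ring
        rw [← h6, h4, h8, mul_sum]
        exact sum_le_sum fun x _ => (hπ x).2
      have h9 := mul_le_mul h3 h5 (by linarith) (hS0.trans h3)
      have h10 := mul_le_mul_of_nonneg_left h9 (by positivity : 0 ≤ G / (4 * n ^ 2))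
      have h11 : G / (4 * n ^ 2) * ((2 * n * ∑ x ∈ S.image π, μ x) *
          (2 * n * (1 - ∑ x ∈ S.image π, μ x))) =
          G * ((∑ x ∈ S.image π, μ x) * (1 - ∑ x ∈ S.image π, μ x)) := by
        field_simp
        ring
      linarith [hcut (S.image π)]
  refine ⟨c, hcap, lt_of_lt_of_le he0pos hgl1, ?_⟩
  have h1 := mul_le_mul_of_nonneg_left hgl2 (by positivity : 0 ≤ G * D)
  have h2 := mul_le_mul_of_nonneg_left hsp (by positivity : 0 ≤ 64 * E)
  have h3 : G * D * (2 * e0) = 64 * E * (G / (4 * n ^ 2)) := by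
    rw [he0]; field_simp; ring
  linarith

theorem fin_push {V X : Type} [Fintype V] [Fintype X] [DecidableEq X] (p : V → X) (μ : V → ℝ)
    (F : X → ℝ) :
    ∑ y, (∑ v ∈ univ.filter fun v => p v = y, μ v) * F y = ∑ v, μ v * F (p v) := by
  rw [← sum_fiberwise (s := univ) (g := p) (f := fun v => μ v * F (p v))]
  refine sum_congr rfl fun y _ => ?_
  rw [sum_mul]
  exact sum_congr rfl fun v hv => by rw [(mem_filter.1 hv).2]

theorem fin_push2 {V X : Type} [Fintype V] [Fintype X] [DecidableEq X] (p : V → X)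
    (w : V → V → ℝ) (F : X → X → ℝ) :
    ∑ y, ∑ y', (∑ v ∈ univ.filter fun v => p v = y,
      ∑ v' ∈ univ.filter fun v' => p v' = y', w v v') * F y y' =
      ∑ v, ∑ v', w v v' * F (p v) (p v') := by
  rw [← sum_fiberwise (s := univ) (g := p) (f := fun v => ∑ v', w v v' * F (p v) (p v'))]
  refine sum_congr rfl fun y _ => ?_
  simp only [sum_mul (s := univ.filter fun v => p v = y)]
  rw [sum_comm]
  refine sum_congr rfl fun v hv => ?_
  rw [(mem_filter.1 hv).2]
  exact fin_push p (w v) (F y)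

theorem fin_cut_eq {X : Type} [Fintype X] [DecidableEq X] (w : X → X → ℝ) (S : Finset X) :
    ∑ y, ∑ y', w y y' * |(if y ∈ S then (1 : ℝ) else 0) - if y' ∈ S then 1 else 0| =
      ∑ y ∈ S, ∑ y' ∈ Sᶜ, (w y y' + w y' y) := by
  rw [← sum_add_sum_compl S]
  have h1 : ∀ y ∈ S, ∑ y', w y y' * |(if y ∈ S then (1 : ℝ) else 0) - if y' ∈ S then 1 else 0| =
      ∑ y' ∈ Sᶜ, w y y' := fun y hy => by
    rw [← sum_add_sum_compl S, sum_eq_zero fun y' hy' => by simp [hy, hy'], zero_add]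
    exact sum_congr rfl fun y' hy' => by simp [hy, mem_compl.1 hy']
  have h2 : ∀ y ∈ Sᶜ, ∑ y', w y y' * |(if y ∈ S then (1 : ℝ) else 0) - if y' ∈ S then 1 else 0| =
      ∑ y' ∈ S, w y y' := fun y hy => by
    rw [← sum_add_sum_compl S, sum_eq_zero (s := Sᶜ) fun y' hy' => by
      simp [mem_compl.1 hy, mem_compl.1 hy'], add_zero]
    exact sum_congr rfl fun y' hy' => by simp [mem_compl.1 hy, hy']
  rw [sum_congr rfl h1, sum_congr rfl h2, sum_comm (s := Sᶜ), ← sum_add_distrib]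
  exact sum_congr rfl fun y _ => by rw [sum_add_distrib]

theorem fin_rpow_ge {s R α : ℝ} (hs : 0 ≤ s) (hsR : s ≤ R) (h1 : α < 1) :
    s * R ^ (α - 1) ≤ s ^ α := by
  rcases hs.eq_or_lt with h | h
  · rw [← h, zero_mul]; positivity
  · have h2 : R ^ (α - 1) ≤ s ^ (α - 1) := Real.rpow_le_rpow_of_nonpos h hsR (by linarith)
    have h3 : s ^ α = s * s ^ (α - 1) := by
      rw [Real.rpow_sub_one h.ne']; field_simp
    rw [h3]
    exact mul_le_mul_of_nonneg_left h2 hs

theorem fin_gap {V ι : Type} [Fintype V] [DecidableEq V] [Fintype ι] {μ : V → ℝ} {w : V → V → ℝ}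
    {x : V → ι → ℝ} {Gd : Finset V} {G Wt δ ε C0 : ℝ} (h : Core μ w x Gd G Wt δ ε C0)
    {α Kk : ℝ} (h0 : 0 < α) (h1 : α < 1) (hK : 1 ≤ Kk) (hε : 0 ≤ ε) (hC0 : 0 ≤ C0)
    (hα : α * (1 + 2 * ε * (Kk + 1)) ≤ 1) (hKC : 1 + 2 * C0 ≤ Kk ^ (1 - α)) (hG : 0 ≤ G)
    (hW : 0 < Wt) (hM : 1 ≤ Fintype.card ι) (hδ0 : 0 < δ)
    (hδ : δ * (6400 * (Fintype.card ι : ℝ) ^ 2) ≤ 1) (n : ℕ) (hn2 : 2 ≤ n)
    (hn : (Fintype.card V : ℝ) ≤ n * δ) :
    ∃ c : Fin n → Fin n → ℝ, IsCap c ∧ 0 < glValue c ∧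
      G * (Fintype.card ι : ℝ) ^ α * glValue c ≤ 1000000 * Wt * sparsity c := by
  classical
  obtain ⟨M, hMdef⟩ : ∃ M : ℝ, M = Fintype.card ι := ⟨_, rfl⟩
  have hM1 : 1 ≤ M := by rw [hMdef]; exact_mod_cast hM
  have hrad := h.rad
  have hfar := h.far
  rw [← hMdef] at hδ hrad hfar ⊢
  have hVpos : (0 : ℝ) < Fintype.card V := by
    have : Nonempty V := by
      by_contra hV
      have := h.mu_sum
      rw [not_nonempty_iff] at hV
      simp at this
    exact_mod_cast Fintype.card_pos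
  have hM2 : 1 ≤ M ^ 2 := one_le_pow₀ hM1
  have hδ1 : δ * 6400 ≤ 1 := by nlinarith
  obtain ⟨mass, hmass⟩ : ∃ mass : (ι → ℝ) → ℝ,
      ∀ y, mass y = ∑ v ∈ univ.filter fun v => x v = y, μ v := ⟨_, fun _ => rfl⟩
  obtain ⟨X0, hX0⟩ : ∃ X0 : Finset (ι → ℝ),
      X0 = (Gd.filter fun v => δ / Fintype.card V ≤ mass (x v)).image x := ⟨_, rfl⟩
  have hX0m : ∀ y ∈ X0, (∃ v ∈ Gd, x v = y) ∧ δ / Fintype.card V ≤ mass y := by
    intro y hy
    rw [hX0] at hy
    obtain ⟨v, hv, rfl⟩ := mem_image.1 hy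
    exact ⟨⟨v, (mem_filter.1 hv).1, rfl⟩, (mem_filter.1 hv).2⟩
  obtain ⟨Bd, hBd⟩ : ∃ Bd : Finset V, ∀ v, v ∈ Bd ↔ x v ∉ X0 :=
    ⟨univ.filter fun v => x v ∉ X0, fun v => by simp⟩
  have hBdμ : ∑ v ∈ Bd, μ v ≤ 2 * δ := by
    have h2 : ∀ v, (if v ∈ Bd then μ v else 0) ≤
        (if v ∈ Gdᶜ then μ v else 0) + δ / Fintype.card V := by
      intro v
      have hp : 0 ≤ δ / Fintype.card V := by positivity
      have hμv := h.mu_nonneg v
      by_cases hv : v ∈ Bd
      · rw [if_pos hv]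
        by_cases hg : v ∈ Gdᶜ
        · rw [if_pos hg]; linarith
        · rw [if_neg hg, zero_add]
          have hg' : v ∈ Gd := by simpa using hg
          have h3 : mass (x v) < δ / Fintype.card V := by
            by_contra h4
            refine (hBd v).1 hv ?_
            rw [hX0]
            exact mem_image_of_mem _ (mem_filter.2 ⟨hg', not_lt.1 h4⟩)
          have h5 : μ v ≤ mass (x v) := by
            rw [hmass]
            exact single_le_sum (f := μ) (fun v _ => h.mu_nonneg v) (by simp)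
          linarith
      · rw [if_neg hv]
        split_ifs <;> linarith
    have h6 := sum_le_sum fun v (_ : v ∈ univ) => h2 v
    rw [sum_add_distrib, sum_ite_mem, sum_ite_mem, univ_inter, univ_inter, sum_const, card_univ,
      nsmul_eq_mul, mul_div_cancel₀ _ hVpos.ne'] at h6
    linarith [h.good]
  obtain ⟨v0, hv0⟩ : ∃ v0, x v0 ∈ X0 := by
    by_contra hno
    push Not at hno
    have : Bd = univ := eq_univ_of_forall fun v => (hBd v).2 (hno v)
    rw [this, h.mu_sum] at hBdμ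
    linarith
  obtain ⟨ph, hph⟩ : ∃ ph : (ι → ℝ) → X0, ∀ y, ∀ hy : y ∈ X0, ph y = ⟨y, hy⟩ :=
    ⟨fun y => if hy : y ∈ X0 then ⟨y, hy⟩ else ⟨x v0, hv0⟩, fun y hy => by simp [hy]⟩
  have hphx : ∀ v, v ∉ Bd → (ph (x v) : ι → ℝ) = x v := fun v hv => by
    have : x v ∈ X0 := by
      by_contra h2
      exact hv ((hBd v).2 h2)
    rw [hph _ this]
  have hXr : ∀ y : X0, nsq (y : ι → ℝ) ≤ M := fun y => by
    obtain ⟨⟨v, hv, hvy⟩, -⟩ := hX0m y y.2
    rw [← hvy]
    exact hrad v (Or.inr hv)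
  have hXd : ∀ y y' : X0, nsq (y.1 - y'.1) ≤ 4 * M := fun y y' => by
    linarith [nsq_sub_le y.1 y'.1, hXr y, hXr y']
  have hMα : 0 < M ^ α := by positivity
  refine Exists.imp (fun c hcc => ?_) (gap_of_weighted
    (fun y : X0 => ∑ v ∈ univ.filter fun v => ph (x v) = y, μ v) ?_ n hn2 ?_
    (fun y y' : X0 => ∑ v ∈ univ.filter fun v => ph (x v) = y,
      ∑ v' ∈ univ.filter fun v' => ph (x v') = y', w v v') ?_
    (fun y y' : X0 => nsq (y.1 - y'.1) ^ α) ?_ (G := G) (E := 3 * Wt) (D := M ^ α / 3200) hG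
    (by positivity) (by positivity) ?_ ?_ ?_)
  · obtain ⟨hc, hpos, hle⟩ := hcc
    refine ⟨hc, hpos, ?_⟩
    have h2 : 0 ≤ G * (M ^ α / 3200) * glValue c := by positivity
    have h3 : 0 ≤ Wt * sparsity c := by linarith
    linarith
  · have := fin_push (fun v => ph (x v)) μ fun _ => 1
    simpa [h.mu_sum] using this
  · intro y
    obtain ⟨-, h2⟩ := hX0m y y.2
    have h3 : mass y ≤ ∑ v ∈ univ.filter fun v => ph (x v) = y, μ v := by
      rw [hmass]
      refine sum_le_sum_of_subset_of_nonneg (fun v hv => ?_) fun v _ _ => h.mu_nonneg v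
      have h4 := (mem_filter.1 hv).2
      refine mem_filter.2 ⟨mem_univ _, ?_⟩
      rw [h4, hph _ y.2]
    have h5 := mul_le_mul_of_nonneg_left (h2.trans h3) (Nat.cast_nonneg n : (0 : ℝ) ≤ n)
    have h6 : 1 ≤ n * (δ / Fintype.card V) := by
      rw [← mul_div_assoc, le_div_iff₀ hVpos, one_mul]
      exact hn
    exact h6.trans h5
  · exact fun y y' => sum_nonneg fun v _ => sum_nonneg fun v' _ => h.w_nonneg v v'
  · intro π
    refine ⟨neg_rpow (fun i => (π i : ι → ℝ)) h0 h1, fun i j k => ?_⟩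
    obtain ⟨⟨a, ha, hax⟩, -⟩ := hX0m _ (π i).2
    obtain ⟨⟨b, hb, hbx⟩, -⟩ := hX0m _ (π j).2
    obtain ⟨⟨e, he, hex⟩, -⟩ := hX0m _ (π k).2
    simp only [← hax, ← hbx, ← hex]
    refine tri_rpow _ _ _ h0 h1 hK hε hC0 hα hKC (h.tri1 a ha e he b hb)
      (h.tri2 a ha e he b hb) ?_
    rw [ip_comm]
    exact h.tri2 e he a ha b hb
  · intro S
    have h2 := h.cut (fun z => if ph z ∈ S then 1 else 0) fun z => by
      by_cases hz : ph z ∈ S <;> simp [hz]
    have h3 := fin_push (fun v => ph (x v)) μ fun y => if y ∈ S then 1 else 0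
    have h4 := fin_push2 (fun v => ph (x v)) w
      fun y y' => |(if y ∈ S then (1 : ℝ) else 0) - if y' ∈ S then 1 else 0|
    rw [fin_cut_eq] at h4
    simp only [mul_ite, mul_one, mul_zero, sum_ite_mem, univ_inter] at h3
    simp only [mul_ite, mul_one, mul_zero] at h2
    rw [h4, h3]
    exact h2
  · rw [fin_push2 (fun v => ph (x v)) w fun y y' => nsq (y.1 - y'.1) ^ α]
    have h2 : ∀ v v', w v v' * nsq ((ph (x v)).1 - (ph (x v')).1) ^ α ≤
        w v v' + 4 * M * ((if v ∈ Bd then w v v' else 0) + if v' ∈ Bd then w v v' else 0) := by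
      intro v v'
      have hw := h.w_nonneg v v'
      have h3 : nsq ((ph (x v)).1 - (ph (x v')).1) ^ α ≤ 4 * M := by
        refine (Real.rpow_le_rpow (nsq_nonneg _) (hXd _ _) h0.le).trans ?_
        have := Real.rpow_le_rpow_of_exponent_le (by linarith : 1 ≤ 4 * M) h1.le
        rwa [Real.rpow_one] at this
      have h4 := mul_le_mul_of_nonneg_left h3 hw
      have h5 : 0 ≤ M * w v v' := by positivity
      by_cases hv : v ∈ Bd
      · rw [if_pos hv]
        split_ifs <;> linarith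
      · by_cases hv' : v' ∈ Bd
        · rw [if_neg hv, if_pos hv']
          linarith
        · rw [if_neg hv, if_neg hv', hphx v hv, hphx v' hv']
          by_cases hw0 : w v v' = 0
          · simp [hw0]
          · have h6 := Real.rpow_le_one (nsq_nonneg _) (h.len v v' hw0) h0.le
            have h7 := mul_le_mul_of_nonneg_left h6 hw
            linarith
    refine (sum_le_sum fun v _ => sum_le_sum fun v' _ => h2 v v').trans ?_
    have h3 : ∑ v, ∑ v', ((if v ∈ Bd then w v v' else 0) + if v' ∈ Bd then w v v' else 0) =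
        ∑ v ∈ Bd, ∑ v', (w v v' + w v' v) := by
      simp only [sum_add_distrib]
      congr 1
      · rw [← univ_inter Bd, ← sum_ite_mem]
        refine sum_congr rfl fun v _ => ?_
        by_cases hv : v ∈ Bd <;> simp [hv]
      · rw [sum_comm, ← univ_inter Bd, ← sum_ite_mem]
        refine sum_congr rfl fun v _ => ?_
        by_cases hv : v ∈ Bd <;> simp [hv]
    simp only [sum_add_distrib (f := fun v' => w _ v'), ← mul_sum]
    rw [sum_add_distrib, ← mul_sum, h3]
    have h4 := h.bad Bd (4 * M) (by linarith)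
    have h5 : 4 * M * (Wt * (4 * M * ∑ v ∈ Bd, μ v + 1 / (4 * M))) =
        Wt * (16 * M ^ 2 * ∑ v ∈ Bd, μ v + 1) := by
      field_simp
      ring
    have h6 := mul_le_mul_of_nonneg_left h4 (by linarith : 0 ≤ 4 * M)
    have h7 := mul_le_mul_of_nonneg_left hBdμ (by positivity : 0 ≤ 16 * M ^ 2)
    have h8 : 0 ≤ δ * M ^ 2 := by positivity
    have h9 : Wt * (16 * M ^ 2 * ∑ v ∈ Bd, μ v + 1) ≤ Wt * 2 :=
      mul_le_mul_of_nonneg_left (by linarith) hW.le
    linarith [h.tot]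
  · have hs1 := fin_push (fun v => ph (x v)) μ fun _ => 1
    simp only [mul_one, h.mu_sum] at hs1
    have key : ∀ r : X0, M ^ α / 3200 ≤
        ∑ y : X0, (∑ v ∈ univ.filter fun v => ph (x v) = y, μ v) *
          nsq (y.1 - r.1) ^ α := by
      intro r
      rw [fin_push (fun v => ph (x v)) μ fun y => nsq (y.1 - r.1) ^ α]
      have h2 : ∀ v, μ v * nsq (x v - r.1) - 4 * M * (if v ∈ Bd then μ v else 0) ≤
          μ v * nsq ((ph (x v)).1 - r.1) := by
        intro v
        have hμv := h.mu_nonneg v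
        by_cases hv : v ∈ Bd
        · rw [if_pos hv]
          by_cases hμ0 : μ v = 0
          · simp [hμ0]
          · have h3 : nsq (x v - r.1) ≤ 4 * M := by
              linarith [nsq_sub_le (x v) r.1, hXr r, hrad v (Or.inl hμ0)]
            have h4 := mul_le_mul_of_nonneg_left h3 hμv
            have h5 := mul_nonneg hμv (nsq_nonneg ((ph (x v)).1 - r.1))
            linarith
        · rw [if_neg hv, hphx v hv]; simp
      have h3 := sum_le_sum fun v (_ : v ∈ univ) => h2 v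
      rw [sum_sub_distrib, ← mul_sum, sum_ite_mem, univ_inter] at h3
      have h4 := mul_le_mul_of_nonneg_left hBdμ (by linarith : 0 ≤ 4 * M)
      have h5 : M * δ * 6400 ≤ M := by nlinarith
      have h6 : M / 800 ≤ ∑ v, μ v * nsq ((ph (x v)).1 - r.1) := by
        linarith [hfar r.1]
      have h7 : (∑ v, μ v * nsq ((ph (x v)).1 - r.1)) * (4 * M) ^ (α - 1) ≤
          ∑ v, μ v * nsq ((ph (x v)).1 - r.1) ^ α := by
        rw [sum_mul]
        refine sum_le_sum fun v _ => ?_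
        rw [mul_assoc]
        exact mul_le_mul_of_nonneg_left (fin_rpow_ge (nsq_nonneg _) (hXd _ _) h1)
          (h.mu_nonneg v)
      have h8 := mul_le_mul_of_nonneg_right h6 (by positivity : 0 ≤ (4 * M) ^ (α - 1))
      have h9 : M / 800 * (4 * M) ^ (α - 1) = (4 * M) ^ α / 3200 := by
        rw [Real.rpow_sub_one (by positivity)]
        field_simp
        ring
      have h10 : M ^ α ≤ (4 * M) ^ α := Real.rpow_le_rpow (by linarith) (by linarith) h0.le
      linarith
    rw [sum_comm]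
    have h2 : M ^ α / 3200 = ∑ r : X0, (∑ v ∈ univ.filter fun v => ph (x v) = r, μ v) *
        (M ^ α / 3200) := by rw [← sum_mul, hs1, one_mul]
    rw [h2]
    refine sum_le_sum fun r _ => ?_
    refine (mul_le_mul_of_nonneg_left (key r)
      (sum_nonneg fun v _ => h.mu_nonneg v)).trans (le_of_eq ?_)
    rw [mul_sum]
    exact sum_congr rfl fun y _ => by ring

end Vale.Agent.P318
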