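import Vale.Agent.P318.RMB
import Vale.Agent.P318.ES

open Finset MeasureTheory
open scoped Classical

noncomputable section

namespace Vale.Agent.P318

variable {h k q m : ℕ} [Fact q.Prime] {σ : Type} [Fintype σ] [DecidableEq σ]

theorem RMD_row {τ : Type} [Fintype τ] (b : τ → Fin k → ZMod q)
    (hb : LinearIndependent (ZMod q) b) :
    (univ.filter fun x : Fin k → ZMod q => ∀ j, ∑ i, x i * b j i = 0).card *
      q ^ Fintype.card τ = q ^ k := by
  have h1 : (Matrix.of b).rank = Fintype.card τ := LinearIndependent.rank_matrix hb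
  have h2 := LinearMap.finrank_range_add_finrank_ker (Matrix.of b).mulVecLin
  have h3 : Module.finrank (ZMod q) (LinearMap.range (Matrix.of b).mulVecLin) = Fintype.card τ :=
    h1
  rw [h3, Module.finrank_fin_fun] at h2
  have h4 : Fintype.card (LinearMap.ker (Matrix.of b).mulVecLin) =
      q ^ Module.finrank (ZMod q) (LinearMap.ker (Matrix.of b).mulVecLin) := by
    rw [Module.card_eq_pow_finrank (K := ZMod q), ZMod.card]
  have h5 : Fintype.card (LinearMap.ker (Matrix.of b).mulVecLin) =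
      (univ.filter fun x : Fin k → ZMod q => ∀ j, ∑ i, x i * b j i = 0).card := by
    refine Fintype.card_of_subtype _ fun x => ?_
    simp only [mem_filter, mem_univ, true_and, LinearMap.mem_ker, Matrix.mulVecLin_apply,
      funext_iff, Matrix.mulVec, dotProduct, Matrix.of_apply, Pi.zero_apply, mul_comm]
  rw [← h5, h4, ← pow_add, add_comm, h2]

theorem card_ann {τ : Type} [Fintype τ] (b : τ → Fin k → ZMod q)
    (hb : LinearIndependent (ZMod q) b) :
    (univ.filter fun H : Fin h → Fin k → ZMod q => ∀ j r, ∑ i, H r i * b j i = 0).card *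
      q ^ (h * Fintype.card τ) = q ^ (h * k) := by
  have e : (univ.filter fun H : Fin h → Fin k → ZMod q => ∀ j r, ∑ i, H r i * b j i = 0) =
      Fintype.piFinset fun _ : Fin h =>
        univ.filter fun x : Fin k → ZMod q => ∀ j, ∑ i, x i * b j i = 0 := by
    ext H
    simp only [mem_filter, mem_univ, true_and, Fintype.mem_piFinset]
    exact forall_comm
  rw [e, Fintype.card_piFinset, prod_const, card_univ, Fintype.card_fin, mul_comm h, mul_comm h,
    pow_mul, pow_mul, ← mul_pow, RMD_row b hb]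

theorem RMD_prod_le (H : Fin h → Fin k → ZMod q) (β : σ → Row k m) :
    ∏ l, wH H (β l) ≤ (q : ℝ) ^ (h * Fintype.card σ) *
      if ∀ l, InK H (rv (β l)) then ∏ l, w0 (β l) else 0 := by
  refine (prod_le_prod (fun l _ => wH_nonneg H _) fun l _ => wH_le H (β l)).trans (le_of_eq ?_)
  rw [prod_mul_distrib, prod_const, card_univ, ← pow_mul]
  congr 1
  split_ifs with hl
  · exact prod_congr rfl fun l _ => if_pos (hl l)
  · push Not at hl
    obtain ⟨l, hl⟩ := hl
    exact prod_eq_zero (mem_univ l) (if_neg hl)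

theorem RMD_sum_ann {τ : Type} [Fintype τ] (b : τ → Fin k → ZMod q)
    (hb : LinearIndependent (ZMod q) b) (P : (Fin h → Fin k → ZMod q) → Prop) [DecidablePred P]
    (hP : ∀ H, P H ↔ ∀ j r, ∑ i, H r i * b j i = 0) (c : ℝ) :
    (q : ℝ) ^ (h * Fintype.card τ) * ∑ H : Fin h → Fin k → ZMod q, (if P H then c else 0) =
      (q : ℝ) ^ (h * k) * c := by
  have h1 := card_ann (h := h) b hb
  have h2 : (univ.filter P) =
      univ.filter fun H : Fin h → Fin k → ZMod q => ∀ j r, ∑ i, H r i * b j i = 0 :=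
    filter_congr fun H _ => hP H
  rw [← sum_filter, sum_const, nsmul_eq_mul, h2, ← mul_assoc, mul_comm ((q : ℝ) ^ _)]
  congr 1
  exact_mod_cast h1

theorem dom1 (E : (σ → Row k m) → Prop) :
    ∑ H : Fin h → Fin k → ZMod q,
      Pr (wH H) (fun β : σ → Row k m => LinearIndependent (ZMod q) (red q β) ∧ E β) ≤
      (q : ℝ) ^ (h * k) * Pr w0 E := by
  unfold Pr
  rw [sum_comm, mul_sum]
  refine sum_le_sum fun β _ => ?_
  have hw : 0 ≤ ∏ l, w0 (β l) := prod_nonneg fun l _ => w0_nonneg _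
  by_cases hc : LinearIndependent (ZMod q) (red q β) ∧ E β
  · simp only [if_pos hc, if_pos hc.2]
    refine (sum_le_sum fun H _ => RMD_prod_le H β).trans (le_of_eq ?_)
    rw [← mul_sum]
    exact RMD_sum_ann (red q β) hc.1 (fun H => ∀ l, InK H (rv (β l))) (fun H => Iff.rfl) _
  · simp only [if_neg hc, sum_const_zero]
    split_ifs <;> positivity

theorem dom2 (𝒱 : (σ → Row k m) → Finset (Fin k → ℤ)) {V0 : ℝ} (hV : ∀ β, ((𝒱 β).card : ℝ) ≤ V0) :
    ∑ H : Fin h → Fin k → ZMod q,
      Pr (wH H) (fun β : σ → Row k m => LinearIndependent (ZMod q) (red q β) ∧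
        ∃ v ∈ 𝒱 β, InK H v ∧
          (fun i => (v i : ZMod q)) ∉ Submodule.span (ZMod q) (Set.range (red q β))) ≤
      (q : ℝ) ^ (h * k) * (V0 / (q : ℝ) ^ h) := by
  have hq : (0 : ℝ) < q := by exact_mod_cast (Fact.out : q.Prime).pos
  have h1 : ∑ β : σ → Row k m, ∏ l, w0 (β l) = 1 := by
    have := Pr_true (ι := σ) (sum_w0 k m)
    simpa [Pr] using this
  rw [← mul_one ((q : ℝ) ^ (h * k) * _), ← h1, mul_sum]
  unfold Pr
  rw [sum_comm]
  refine sum_le_sum fun β _ => ?_
  have hw : 0 ≤ ∏ l, w0 (β l) := prod_nonneg fun l _ => w0_nonneg _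
  have hV0 : 0 ≤ V0 := (Nat.cast_nonneg _).trans (hV β)
  by_cases hli : LinearIndependent (ZMod q) (red q β)
  swap
  · simp only [hli, false_and, if_false, sum_const_zero]
    positivity
  set V' := (𝒱 β).filter fun v =>
    (fun i => (v i : ZMod q)) ∉ Submodule.span (ZMod q) (Set.range (red q β)) with hV'
  have key : ∀ H : Fin h → Fin k → ZMod q,
      (if LinearIndependent (ZMod q) (red q β) ∧ ∃ v ∈ 𝒱 β, InK H v ∧
          (fun i => (v i : ZMod q)) ∉ Submodule.span (ZMod q) (Set.range (red q β))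
        then ∏ l, wH H (β l) else 0) ≤
      ∑ v ∈ V', (q : ℝ) ^ (h * Fintype.card σ) *
        if InK H v ∧ ∀ l, InK H (rv (β l)) then ∏ l, w0 (β l) else 0 := fun H => by
    have hnn : ∀ v ∈ V', 0 ≤ (q : ℝ) ^ (h * Fintype.card σ) *
        if InK H v ∧ ∀ l, InK H (rv (β l)) then ∏ l, w0 (β l) else 0 := fun v _ => by
      split_ifs <;> positivity
    split_ifs with hc
    · obtain ⟨-, v, hv, hK, hs⟩ := hc
      refine le_trans ?_ (single_le_sum hnn (mem_filter.2 ⟨hv, hs⟩))
      simpa only [hK, true_and] using RMD_prod_le H β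
    · exact sum_nonneg hnn
  have each : ∀ v ∈ V', ∑ H : Fin h → Fin k → ZMod q, ((q : ℝ) ^ (h * Fintype.card σ) *
        if InK H v ∧ ∀ l, InK H (rv (β l)) then ∏ l, w0 (β l) else 0) =
      (q : ℝ) ^ (h * k) * (∏ l, w0 (β l)) / (q : ℝ) ^ h := fun v hv => by
    have hl := hli.option (mem_filter.1 hv).2
    have := RMD_sum_ann _ hl (fun H : Fin h → Fin k → ZMod q => InK H v ∧ ∀ l, InK H (rv (β l)))
      (fun H => by rw [Option.forall]; exact Iff.rfl) (∏ l, w0 (β l))
    rw [← this, ← mul_sum, Fintype.card_option, mul_add, mul_one, pow_add]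
    field_simp
  refine (sum_le_sum fun H _ => le_of_eq_of_le (by congr) (key H)).trans ?_
  rw [sum_comm, sum_congr rfl each, sum_const, nsmul_eq_mul]
  have hc : (V'.card : ℝ) ≤ V0 :=
    le_trans (by exact_mod_cast card_filter_le _ _) (hV β)
  calc (V'.card : ℝ) * ((q : ℝ) ^ (h * k) * (∏ l, w0 (β l)) / (q : ℝ) ^ h)
      ≤ V0 * ((q : ℝ) ^ (h * k) * (∏ l, w0 (β l)) / (q : ℝ) ^ h) :=
        mul_le_mul_of_nonneg_right hc (by positivity)
    _ = _ := by ring

theorem RMD_inj (hq : 2 * m < q) {x y : Row k m}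
    (hxy : (fun i => (rv x i : ZMod q)) = fun i => (rv y i : ZMod q)) : x = y := by
  funext i
  have h1 : (q : ℤ) ∣ rv y i - rv x i :=
    (ZMod.intCast_eq_intCast_iff_dvd_sub _ _ _).1 (congrFun hxy i)
  have hx := (x i).2
  have hy := (y i).2
  have h2 : rv y i - rv x i = 0 := by
    refine Int.eq_zero_of_abs_lt_dvd h1 ?_
    unfold rv
    rw [abs_lt]
    constructor <;> omega
  unfold rv at h2
  exact Fin.ext (by omega)

omit [DecidableEq σ] in
theorem RMD_card_span (hq : 2 * m < q) (b : σ → Fin k → ZMod q) :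
    (univ.filter fun x : Row k m =>
      (fun i => (rv x i : ZMod q)) ∈ Submodule.span (ZMod q) (Set.range b)).card ≤
      q ^ Fintype.card σ := by
  have h1 : (univ.image fun c : σ → ZMod q => ∑ l, c l • b l).card ≤ q ^ Fintype.card σ := by
    refine card_image_le.trans (le_of_eq ?_)
    rw [card_univ, Fintype.card_fun, ZMod.card]
  refine le_trans ?_ h1
  refine card_le_card_of_injOn (fun x i => (rv x i : ZMod q)) (fun x hx => ?_)
    fun x _ y _ hxy => RMD_inj hq hxy
  obtain ⟨c, hc⟩ := (Submodule.mem_span_range_iff_exists_fun _).1 (mem_filter.1 hx).2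
  exact mem_coe.2 (mem_image.2 ⟨c, mem_univ _, hc⟩)

theorem RMD_one (p : Row k m → ℝ) (hp : ∀ x, 0 ≤ p x) (h1 : ∑ x, p x = 1) {a0 : ℝ}
    (ha : ∀ x, p x ≤ a0) (hq : 2 * m < q) (l : σ) :
    Pr p (fun β : σ → Row k m =>
      red q β l ∈ Submodule.span (ZMod q) (red q β '' (Set.univ \ {l}))) ≤
      (q : ℝ) ^ Fintype.card σ * a0 := by
  have hfp : FinProb fun _ : σ => p :=
    ⟨fun _ x => hp x, univ, fun _ x hx => (hx (mem_univ x)).elim, fun _ => h1⟩
  have ha0 : 0 ≤ a0 := (hp fun _ => 0).trans (ha _)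
  have e : Pr p (fun β : σ → Row k m =>
      red q β l ∈ Submodule.span (ZMod q) (red q β '' (Set.univ \ {l}))) =
      EP (fun _ : σ => p) fun β : σ → Row k m =>
        if red q β l ∈ Submodule.span (ZMod q) (red q β '' (Set.univ \ {l})) then 1 else 0 := by
    unfold Pr EP
    rw [tsum_fintype]
    refine sum_congr rfl fun β _ => ?_
    rw [mul_ite, mul_one, mul_zero]
  rw [e, ← ES_resample hfp l, ← EP_const hfp ((q : ℝ) ^ Fintype.card σ * a0)]
  refine EP_mono hfp fun β => ?_
  rw [tsum_fintype]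
  have hc : ((univ.filter fun x : Row k m =>
      (fun i => (rv x i : ZMod q)) ∈ Submodule.span (ZMod q) (Set.range (red q β))).card : ℝ) ≤
      (q : ℝ) ^ Fintype.card σ := by exact_mod_cast RMD_card_span hq (red q β)
  refine le_trans ?_ (mul_le_mul_of_nonneg_right hc ha0)
  rw [← nsmul_eq_mul, ← sum_const, sum_filter]
  refine sum_le_sum fun x _ => ?_
  split_ifs with hx hy hy
  · rw [mul_one]; exact ha x
  · refine (hy ?_).elim
    have e1 : red q (Function.update β l x) l = fun i => (rv x i : ZMod q) := by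
      unfold red
      rw [Function.update_self]
    rw [e1] at hx
    refine Submodule.span_mono ?_ hx
    rintro _ ⟨l', hl', rfl⟩
    refine ⟨l', ?_⟩
    unfold red
    rw [Function.update_of_ne hl'.2]
  · rw [mul_zero]; exact ha0
  · rw [mul_zero]

theorem dep_prob (p : Row k m → ℝ) (hp : ∀ x, 0 ≤ p x) (h1 : ∑ x, p x = 1) {a0 : ℝ}
    (ha : ∀ x, p x ≤ a0) (hq : 2 * m < q) :
    Pr p (fun β : σ → Row k m => ¬LinearIndependent (ZMod q) (red q β)) ≤
      Fintype.card σ * (q : ℝ) ^ Fintype.card σ * a0 := by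
  have h2 : Pr p (fun β : σ → Row k m => ¬LinearIndependent (ZMod q) (red q β)) ≤
      Pr p (fun β : σ → Row k m => ∃ l ∈ (univ : Finset σ),
        red q β l ∈ Submodule.span (ZMod q) (red q β '' (Set.univ \ {l}))) := by
    refine Pr_mono hp fun β _ hβ => ?_
    rw [linearIndependent_iff_notMem_span] at hβ
    push Not at hβ
    obtain ⟨l, hl⟩ := hβ
    exact ⟨l, mem_univ _, hl⟩
  refine h2.trans ((Pr_exists hp univ _).trans ?_)
  refine (sum_le_sum fun l _ => RMD_one p hp h1 ha hq l).trans (le_of_eq ?_)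
  rw [sum_const, card_univ, nsmul_eq_mul, mul_assoc]

theorem lift_span (β : σ → Row k m) (v : Fin k → ℤ)
    (hv : (fun i => (v i : ZMod q)) ∈ Submodule.span (ZMod q) (Set.range (red q β))) :
    ∃ (z : σ → ℤ) (w : Fin k → ℤ),
      zc v = mtv (fun l => rv (β l)) (zc z) + (q : ℝ) • zc w := by
  obtain ⟨c, hc⟩ := (Submodule.mem_span_range_iff_exists_fun _).1 hv
  have h1 : ∀ i, ∃ w : ℤ, v i - ∑ l, rv (β l) i * ((c l).val : ℤ) = q * w := fun i => by
    have h2 : ((v i - ∑ l, rv (β l) i * ((c l).val : ℤ) : ℤ) : ZMod q) = 0 := by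
      have := congrFun hc i
      simp only [Finset.sum_apply, Pi.smul_apply, smul_eq_mul, red] at this
      push_cast
      rw [← this, sub_eq_zero]
      exact sum_congr rfl fun l _ => by simp [mul_comm]
    exact (ZMod.intCast_zmod_eq_zero_iff_dvd _ _).1 h2
  choose w hw using h1
  refine ⟨fun l => ((c l).val : ℤ), w, funext fun i => ?_⟩
  have h3 : v i = ∑ l, rv (β l) i * ((c l).val : ℤ) + q * w i := by rw [← hw i]; ring
  simp only [zc, mtv, Pi.add_apply, Pi.smul_apply, smul_eq_mul, h3]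
  push_cast
  rfl

end Vale.Agent.P318
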