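import Vale.Agent.P318.RMA

open Finset MeasureTheory
open scoped Classical

noncomputable section

namespace Vale.Agent.P318

theorem RMR_round {I : Type} {Q : ℕ} (hQ : 0 < Q) (θ : I → ℝ) :
    ∃ (j : I → Fin Q) (n : I → ℤ), ∀ i, |θ i - n i - ((j i : ℕ) : ℝ) / Q| ≤ 1 / Q := by
  have hQ' : (0 : ℝ) < Q := by exact_mod_cast hQ
  have key : ∀ y : ℝ, ∃ (j : Fin Q) (n : ℤ), |y - n - ((j : ℕ) : ℝ) / Q| ≤ 1 / Q := by
    intro y
    have h0 : 0 ≤ (Q : ℝ) * Int.fract y := mul_nonneg hQ'.le (Int.fract_nonneg y)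
    have h1 : (Q : ℝ) * Int.fract y < Q := by
      have := mul_lt_mul_of_pos_left (Int.fract_lt_one y) hQ'
      linarith
    refine ⟨⟨⌊(Q : ℝ) * Int.fract y⌋₊, (Nat.floor_lt h0).2 h1⟩, ⌊y⌋, ?_⟩
    have h2 := Nat.floor_le h0
    have h3 := Nat.lt_floor_add_one ((Q : ℝ) * Int.fract y)
    have e : y - (⌊y⌋ : ℝ) - (⌊(Q : ℝ) * Int.fract y⌋₊ : ℝ) / Q =
        ((Q : ℝ) * Int.fract y - ⌊(Q : ℝ) * Int.fract y⌋₊) / Q := by
      rw [Int.self_sub_floor]
      field_simp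
    simp only
    rw [e, abs_div, abs_of_pos hQ', abs_of_nonneg (by linarith)]
    exact div_le_div_of_nonneg_right (by linarith) hQ'.le
  choose j n h using fun i => key (θ i)
  exact ⟨j, n, h⟩

/-- union bound over a grid -/
theorem RMR_grid {ι X I : Type} [Fintype ι] [DecidableEq ι] [Fintype X] [Fintype I] {N : ℕ}
    (p : X → ℝ) (hp : ∀ x, 0 ≤ p x) (h1 : ∑ x, p x = 1) (val : ι → X → I → ℤ)
    (hv : ∀ l x i, |val l x i| ≤ N) (hM0 : 0 < Fintype.card ι) (hM : Fintype.card ι ≤ 2 ^ N)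
    (hs : 200 * N * Fintype.card I ≤ Fintype.card ι) (Far Far' : (I → ℝ) → Prop)
    (hF : ∀ (θ θ' : I → ℝ) (n : I → ℤ), Far θ →
      (∀ i, |θ i - n i - θ' i| ≤ 1 / (Fintype.card ι : ℝ)) → Far' θ')
    (hchar : ∀ θ', Far' θ' → ∀ l,
      ∑ x, p x * Real.cos (2 * Real.pi * ip (zc (val l x)) θ') ≤ 1 / 2) :
    Pr p (fun A : ι → X => ∃ θ, Far θ ∧
      ∑ l, (1 - Real.cos (2 * Real.pi * ip (zc (val l (A l))) θ)) < Fintype.card ι / 20) ≤
      Real.exp (-(Fintype.card ι / 20 : ℝ)) := by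
  set M := Fintype.card ι with hMd
  have hMr : (0 : ℝ) < M := by exact_mod_cast hM0
  have hsr : 200 * (N : ℝ) * Fintype.card I ≤ M := by exact_mod_cast hs
  let gp : (I → Fin M) → I → ℝ := fun j i => ((j i : ℕ) : ℝ) / M
  let T : Finset (I → Fin M) := univ.filter fun j => Far' (gp j)
  have step1 : Pr p (fun A : ι → X => ∃ θ, Far θ ∧
      ∑ l, (1 - Real.cos (2 * Real.pi * ip (zc (val l (A l))) θ)) < (M : ℝ) / 20) ≤
      Pr p (fun A : ι → X => ∃ j ∈ T,
        ∑ l, (1 - Real.cos (2 * Real.pi * ip (zc (val l (A l))) (gp j))) ≤ (M : ℝ) / 10) := by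
    refine Pr_mono hp fun A _ => ?_
    rintro ⟨θ, hθ, hlt⟩
    obtain ⟨j, n, hj⟩ := RMR_round hM0 θ
    refine ⟨j, mem_filter.2 ⟨mem_univ _, hF θ _ n hθ hj⟩, ?_⟩
    have key : ∀ l, 1 - Real.cos (2 * Real.pi * ip (zc (val l (A l))) (gp j)) ≤
        (1 - Real.cos (2 * Real.pi * ip (zc (val l (A l))) θ)) + 7 / 200 := by
      intro l
      have e1 : Real.cos (2 * Real.pi * ip (zc (val l (A l))) θ) =
          Real.cos (2 * Real.pi * ip (zc (val l (A l))) (θ - zc n)) := by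
        rw [ip_sub_right, mul_sub]
        have : ip (zc (val l (A l))) (zc n) = ((∑ i, val l (A l) i * n i : ℤ) : ℝ) := by
          simp [ip, zc]
        rw [this, mul_comm (2 * Real.pi) (((∑ i, val l (A l) i * n i : ℤ) : ℝ)),
          Real.cos_sub_int_mul_two_pi]
      have e2 := abs_cos_sub_le (ip (zc (val l (A l))) (θ - zc n)) (ip (zc (val l (A l))) (gp j))
      have e3 : |ip (zc (val l (A l))) (θ - zc n) - ip (zc (val l (A l))) (gp j)| ≤ 1 / 200 := by
        rw [← ip_sub_right]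
        have := abs_mv_le (fun l => val l (A l)) (C := N) (R := 1 / M)
          (fun l i => by exact_mod_cast hv l (A l) i) (t := θ - zc n - gp j) hj l
        refine le_trans this ?_
        rw [mul_one_div, ← mul_div_assoc, div_le_iff₀ hMr]
        linarith
      rw [e1]
      have := (abs_le.1 e2).2
      linarith
    refine (sum_le_sum fun l _ => key l).trans ?_
    rw [sum_add_distrib, sum_const, card_univ, ← hMd, nsmul_eq_mul]
    linarith
  refine step1.trans ((Pr_exists hp T _).trans ?_)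
  have step2 : ∀ j ∈ T, Pr p (fun A : ι → X =>
      ∑ l, (1 - Real.cos (2 * Real.pi * ip (zc (val l (A l))) (gp j))) ≤ (M : ℝ) / 10) ≤
      Real.exp (-(M / 10 : ℝ)) := by
    intro j hj
    refine Pr_lower hp h1 (fun l x => 1 - Real.cos (2 * Real.pi * ip (zc (val l x)) (gp j)))
      (fun l x => by linarith [Real.cos_le_one (2 * Real.pi * ip (zc (val l x)) (gp j))])
      (fun l x => by linarith [Real.neg_one_le_cos (2 * Real.pi * ip (zc (val l x)) (gp j))])
      fun l => ?_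
    have := hchar _ (mem_filter.1 hj).2 l
    simp only [mul_sub, mul_one, sum_sub_distrib, h1]
    linarith
  refine (sum_le_card_nsmul T _ _ step2).trans ?_
  have hT : (T.card : ℝ) ≤ Real.exp (M / 20) := by
    have k1 : T.card ≤ (2 ^ N) ^ Fintype.card I := by
      refine (card_le_univ T).trans ?_
      rw [Fintype.card_fun, Fintype.card_fin]
      exact Nat.pow_le_pow_left hM _
    have k2 : (T.card : ℝ) ≤ 2 ^ (N * Fintype.card I) := by
      rw [pow_mul]
      exact_mod_cast k1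
    have k3 : (2 : ℝ) ^ (N * Fintype.card I) ≤ Real.exp 1 ^ (N * Fintype.card I) :=
      pow_le_pow_left₀ (by norm_num) (by linarith [Real.add_one_le_exp (1 : ℝ)]) _
    rw [← Real.exp_nat_mul] at k3
    refine k2.trans (k3.trans (Real.exp_le_exp.2 ?_))
    push_cast
    linarith
  rw [nsmul_eq_mul]
  refine (mul_le_mul_of_nonneg_right hT (Real.exp_pos _).le).trans (le_of_eq ?_)
  rw [← Real.exp_add]
  congr 1
  ring

theorem RMR_nsq_le {I : Type} [Fintype I] {v : I → ℝ} {r : ℝ} (h : ∀ i, |v i| ≤ r) :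
    nsq v ≤ Fintype.card I * r ^ 2 := by
  have : ∀ i ∈ (univ : Finset I), v i ^ 2 ≤ r ^ 2 := fun i _ => by
    rw [← sq_abs]
    exact pow_le_pow_left₀ (abs_nonneg _) (h i) 2
  simpa [nsq] using sum_le_card_nsmul _ _ _ this

theorem RMR_far {k : ℕ} {L : Set (Fin k → ℝ)} (hmin : ∀ t ∈ L, t ≠ 0 → 1 ≤ nsq t)
    {Δ : Fin k → ℝ} (h1 : 1 / 64 ≤ nsq Δ) (h2 : nsq Δ ≤ 1 / 16) :
    ∀ t ∈ L, 1 / 64 ≤ nsq (Δ - t) := by
  intro t ht
  by_cases h0 : t = 0
  · simpa [h0] using h1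
  · have k1 := hmin t ht h0
    have k2 := nsq_sub_le Δ (Δ - t)
    rw [sub_sub_cancel] at k2
    linarith

/-- rigidity at a fixed scale holds with high probability -/
theorem r0_prob {ι κ X : Type} [Fintype ι] [DecidableEq ι] [Fintype κ] [Fintype X] {k m N : ℕ}
    (p : X → ℝ) (hp : ∀ x, 0 ≤ p x) (h1 : ∑ x, p x = 1) (val : X → Fin k → ℤ)
    (hv : ∀ x i, |val x i| ≤ m) (L : Set (Fin k → ℝ))
    (hL : ∀ t ∈ L, ∀ n : Fin k → ℤ, t + zc n ∈ L)
    (hchar : ∀ Δ : Fin k → ℝ, (∀ t ∈ L, 1 / 256 ≤ nsq (Δ - t)) → ∀ s : ℝ,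
      ∑ x, p x * Real.cos (2 * Real.pi * (ip (zc (val x)) Δ + s)) ≤ 1 / 2)
    (B : ι → κ → ℤ) (hB : ∀ l i, |B l i| ≤ N) (hk : 0 < k) (hm : m ≤ N) (hN : 1 ≤ N)
    (hM : Fintype.card ι ≤ 2 ^ N) (hs : 200 * N * (k + Fintype.card κ) ≤ Fintype.card ι) :
    Pr p (fun A : ι → X => ¬R0 (fun l => val (A l)) B L) ≤ 1 / 8 := by
  have hM1 : 200 ≤ Fintype.card ι := by
    refine le_trans ?_ hs
    have : 1 * 1 ≤ N * (k + Fintype.card κ) := Nat.mul_le_mul hN (by omega)
    rw [mul_assoc]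
    omega
  have hMr : (200 : ℝ) ≤ Fintype.card ι := by exact_mod_cast hM1
  have hkM : (k : ℝ) ≤ Fintype.card ι := by
    have : 1 * k ≤ 200 * N * (k + Fintype.card κ) := Nat.mul_le_mul (by omega) (by omega)
    exact_mod_cast (by omega : k ≤ Fintype.card ι)
  have hip : ∀ (l : ι) (x : X) (θ : Fin k ⊕ κ → ℝ), ip (zc (Sum.elim (val x) (B l))) θ =
      ip (zc (val x)) (fun i => θ (Sum.inl i)) + mv B (fun i => θ (Sum.inr i)) l := by
    intro l x θ
    simp [ip, zc, mv, Fintype.sum_sum_type]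
  have key := RMR_grid (I := Fin k ⊕ κ) (N := N) p hp h1 (fun l x => Sum.elim (val x) (B l))
    (fun l x i => by
      rcases i with i | i
      · exact (hv x i).trans (by exact_mod_cast hm)
      · exact hB l i)
    (by omega) hM (by simpa using hs)
    (fun θ => ∀ t ∈ L, 1 / 64 ≤ nsq ((fun i => θ (Sum.inl i)) - t))
    (fun θ => ∀ t ∈ L, 1 / 256 ≤ nsq ((fun i => θ (Sum.inl i)) - t))
    (fun θ θ' n hθ hn t ht => by
      have k1 := hθ _ (hL t ht fun i => n (Sum.inl i))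
      have k2 := RMR_nsq_le (v := fun i => θ (Sum.inl i) - n (Sum.inl i) - θ' (Sum.inl i))
        fun i => hn (Sum.inl i)
      have k3 := nsq_add_le (fun i => θ (Sum.inl i) - n (Sum.inl i) - θ' (Sum.inl i))
        ((fun i => θ' (Sum.inl i)) - t)
      have e : (fun i => θ (Sum.inl i) - n (Sum.inl i) - θ' (Sum.inl i)) +
          ((fun i => θ' (Sum.inl i)) - t) =
          (fun i => θ (Sum.inl i)) - (t + zc fun i => n (Sum.inl i)) := by
        funext i
        simp only [Pi.add_apply, Pi.sub_apply, zc]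
        ring
      rw [e] at k3
      have k4 : (Fintype.card (Fin k) : ℝ) * (1 / (Fintype.card ι : ℝ)) ^ 2 ≤ 1 / 400 := by
        rw [Fintype.card_fin, one_div, inv_pow, ← div_eq_mul_inv, div_le_iff₀ (by positivity)]
        have : 200 * (k : ℝ) ≤ Fintype.card ι := by
          have : 200 * 1 * k ≤ 200 * N * (k + Fintype.card κ) :=
            Nat.mul_le_mul (by omega) (by omega)
          exact_mod_cast (by omega : 200 * k ≤ Fintype.card ι)
        nlinarith
      linarith)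
    (fun θ hθ l => by
      simp only [hip]
      exact hchar _ hθ _)
  refine le_trans (Pr_mono hp fun A _ hA => ?_) (key.trans ?_)
  · unfold R0 at hA
    push Not at hA
    obtain ⟨Δ, σ, b, hfar, hlt⟩ := hA
    refine ⟨Sum.elim Δ σ, hfar, ?_⟩
    have k1 : ∀ l, 1 - Real.cos (2 * Real.pi * ip (zc (Sum.elim (val (A l)) (B l)))
        (Sum.elim Δ σ)) ≤ 20 * (mv (fun l => val (A l)) Δ + mv B σ + zc b) l ^ 2 := by
      intro l
      refine le_trans (le_of_eq ?_) (one_sub_cos_le _)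
      rw [hip, Pi.add_apply, mul_add (2 * Real.pi) _ (zc b l), mul_comm _ (zc b l)]
      simp only [zc]
      rw [Real.cos_add_int_mul_two_pi]
      rfl
    refine (sum_le_sum fun l _ => k1 l).trans_lt ?_
    rw [← mul_sum]
    unfold nsq at hlt
    linarith
  · have k1 : Real.exp (-(Fintype.card ι / 20 : ℝ)) ≤ Real.exp (-10) :=
      Real.exp_le_exp.2 (by linarith)
    have k2 := Real.add_one_le_exp (10 : ℝ)
    refine k1.trans ?_
    rw [Real.exp_neg, one_div]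
    exact inv_anti₀ (by norm_num) (by linarith)

theorem R0.rig {ι κ : Type} [Fintype ι] [Fintype κ] {k : ℕ} {A : ι → Fin k → ℤ} {B : ι → κ → ℤ}
    {L : Set (Fin k → ℝ)} (h : R0 A B L) (hmin : ∀ t ∈ L, t ≠ 0 → 1 ≤ nsq t)
    (hL : L ⊆ LatOf A) (hM : 0 < Fintype.card ι) {Bc : ℝ} (hB : 2000 ≤ Bc) (Δ : Fin k → ℝ)
    (σ : κ → ℝ) (b : ι → ℤ) (hs : Bc * nsq (mv A Δ + mv B σ + zc b) ≤ Fintype.card ι) :
    ∃ t ∈ LatOf A, Fintype.card ι * nsq (Δ - t) ≤ Bc * nsq (mv A Δ + mv B σ + zc b) := by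
  have hMr : (0 : ℝ) < Fintype.card ι := by exact_mod_cast hM
  have hr := nsq_nonneg (mv A Δ + mv B σ + zc b)
  have hex : ∃ t ∈ L, nsq (Δ - t) < 1 / 64 := by
    by_contra hh
    push Not at hh
    have := h Δ σ b hh
    nlinarith
  obtain ⟨t, ht, hd⟩ := hex
  refine ⟨t, hL ht, ?_⟩
  obtain ⟨z, hz⟩ := hL ht
  rcases (nsq_nonneg (Δ - t)).eq_or_lt with h0 | h0
  · rw [← h0, mul_zero]
    exact mul_nonneg (by linarith) hr
  obtain ⟨d, hd0, hdd⟩ : ∃ d : ℝ, 0 < d ∧ d ^ 2 = nsq (Δ - t) :=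
    ⟨√(nsq (Δ - t)), Real.sqrt_pos.2 h0, Real.sq_sqrt h0.le⟩
  have hd8 : 8 * d < 1 := by nlinarith
  obtain ⟨j, hj1, hj2⟩ : ∃ j : ℤ, 1 ≤ 8 * d * j ∧ 4 * d * j ≤ 1 := by
    refine ⟨⌈1 / (8 * d)⌉, ?_, ?_⟩
    · have := Int.le_ceil (1 / (8 * d))
      rw [div_le_iff₀ (by positivity)] at this
      linarith
    · have := mul_lt_mul_of_pos_left (Int.ceil_lt_add_one (1 / (8 * d))) (show 0 < 8 * d by
        positivity)
      rw [mul_add, mul_one_div_cancel (by positivity)] at this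
      linarith
  have e1 : nsq ((j : ℝ) • (Δ - t)) = (d * j) ^ 2 := by rw [nsq_smul, ← hdd]; ring
  have k1 := h ((j : ℝ) • (Δ - t)) ((j : ℝ) • σ) (fun l => j * (b l + z l))
    (RMR_far hmin (by rw [e1]; nlinarith) (by rw [e1]; nlinarith))
  have e2 : mv A ((j : ℝ) • (Δ - t)) + mv B ((j : ℝ) • σ) + zc (fun l => j * (b l + z l)) =
      (j : ℝ) • (mv A Δ + mv B σ + zc b) := by
    rw [mv_smul, mv_smul, mv_sub, hz]
    funext l
    simp only [Pi.add_apply, Pi.sub_apply, Pi.smul_apply, smul_eq_mul, zc]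
    push_cast
    ring
  rw [e2, nsq_smul] at k1
  rw [← hdd]
  have k2 := mul_le_mul_of_nonneg_right k1 (sq_nonneg d)
  have k3 : (d * j) ^ 2 ≤ 1 / 16 := by nlinarith
  have k4 := mul_le_mul_of_nonneg_right k3 hr
  have k5 := mul_le_mul_of_nonneg_right hB hr
  nlinarith

theorem R0.rig0 {ι κ : Type} [Fintype ι] [Fintype κ] {k : ℕ} {A : ι → Fin k → ℤ} {B : ι → κ → ℤ}
    {L : Set (Fin k → ℝ)} (h : R0 A B L) (hmin : ∀ t ∈ L, t ≠ 0 → 1 ≤ nsq t) {Bc : ℝ}
    (hB : 2000 ≤ Bc) (Δ : Fin k → ℝ) (σ : κ → ℝ) :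
    Fintype.card ι * nsq Δ ≤ Bc * nsq (mv A Δ + mv B σ) := by
  have hr := nsq_nonneg (mv A Δ + mv B σ)
  rcases (nsq_nonneg Δ).eq_or_lt with h0 | h0
  · rw [← h0, mul_zero]
    exact mul_nonneg (by linarith) hr
  obtain ⟨d, hd0, hdd⟩ : ∃ d : ℝ, 0 < d ∧ d ^ 2 = nsq Δ :=
    ⟨√(nsq Δ), Real.sqrt_pos.2 h0, Real.sq_sqrt h0.le⟩
  have e0 : (1 / (8 * d)) ^ 2 * d ^ 2 = 1 / 64 := by field_simp; norm_num
  have e1 : nsq ((1 / (8 * d)) • Δ) = 1 / 64 := by rw [nsq_smul, ← hdd, e0]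
  have k1 := h ((1 / (8 * d)) • Δ) ((1 / (8 * d)) • σ) 0
    (RMR_far hmin (by rw [e1]) (by rw [e1]; norm_num))
  rw [zc_zero, add_zero, mv_smul, mv_smul, ← smul_add, nsq_smul] at k1
  rw [← hdd]
  have k2 := mul_le_mul_of_nonneg_right k1 (sq_nonneg d)
  rw [mul_right_comm, e0] at k2
  have k5 := mul_le_mul_of_nonneg_right hB hr
  linarith

/-- the unconditioned rows have the anticoncentration property -/
theorem p0_prob {σ : Type} [Fintype σ] [DecidableEq σ] {k m N : ℕ} (hm1 : 100 ≤ m) (hm : m ≤ N)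
    (hk : 0 < k) (hkN : k ≤ 2 ^ N) (hs : 200 * N * Fintype.card σ ≤ k) :
    Pr (w0 : Row k m → ℝ) (fun β : σ → Row k m => ¬P0 fun l => rv (β l)) ≤
      Real.exp (-(k / 20 : ℝ)) := by
  have hkr : (0 : ℝ) < k := by exact_mod_cast hk
  have hsum : ∑ c : σ → Fin (2 * m + 1), ∏ l, bw m (c l) = 1 := by
    have := prod_univ_sum (fun _ : σ => (univ : Finset (Fin (2 * m + 1)))) (fun _ j => bw m j)
    rw [Fintype.piFinset_univ] at this
    rw [← this]
    simp [sum_bw]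
  have key := RMR_grid (ι := Fin k) (X := σ → Fin (2 * m + 1)) (I := σ) (N := N)
    (fun c => ∏ l, bw m (c l)) (fun c => prod_nonneg fun l _ => bw_nonneg m _) hsum
    (fun _ c l => ((c l : ℕ) : ℤ) - m)
    (fun _ c l => by
      have := (c l).isLt
      rw [abs_le]
      constructor <;> omega)
    (by simpa using hk) (by simpa using hkN) (by simpa using hs)
    (fun θ => 1 / 100 ≤ ∑ l, fr (θ l) ^ 2) (fun θ => 1 / 400 ≤ ∑ l, fr (θ l) ^ 2)
    (fun θ θ' n hθ hn => by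
      rw [Fintype.card_fin] at hn
      have k1 : ∀ l, fr (θ l) ^ 2 ≤ 2 * fr (θ' l) ^ 2 + 2 * (1 / (k : ℝ)) ^ 2 := by
        intro l
        have a1 := fr_add_le (θ' l + n l) (θ l - n l - θ' l)
        rw [fr_add_int, show θ' l + n l + (θ l - n l - θ' l) = θ l by ring] at a1
        have a2 := (fr_le_abs _).trans (hn l)
        have a3 := pow_le_pow_left₀ (fr_nonneg _) (a1.trans (add_le_add_right a2 _)) 2
        nlinarith [sq_nonneg (fr (θ' l) - 1 / (k : ℝ))]
      have k2 := hθ.trans (sum_le_sum fun l _ => k1 l)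
      rw [sum_add_distrib, ← mul_sum, sum_const, card_univ, nsmul_eq_mul] at k2
      have k3 : (Fintype.card σ : ℝ) * (1 / (k : ℝ)) ^ 2 ≤ 1 / 400 := by
        rw [one_div, inv_pow, ← div_eq_mul_inv, div_le_iff₀ (by positivity)]
        have b1 : 400 * (Fintype.card σ : ℝ) ≤ k := by
          have : 400 * Fintype.card σ ≤ 200 * N * Fintype.card σ :=
            Nat.mul_le_mul_right _ (by omega)
          exact_mod_cast this.trans hs
        have b2 : (1 : ℝ) ≤ k := by exact_mod_cast hk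
        nlinarith
      linarith)
    (fun θ hθ _ => by
      have k1 := prod_univ_sum (fun _ : σ => (univ : Finset (Fin (2 * m + 1))))
        (fun l j => (bw m j : ℂ) * Complex.exp ((((2 * Real.pi * θ l : ℝ) : ℂ) * Complex.I) *
          ((((j : ℕ) : ℤ) - m : ℤ) : ℂ)))
      rw [Fintype.piFinset_univ] at k1
      simp only [sum_bw_exp, cosh_pi_I] at k1
      have k2 : ∀ c : σ → Fin (2 * m + 1), ∏ l, ((bw m (c l) : ℂ) *
          Complex.exp ((((2 * Real.pi * θ l : ℝ) : ℂ) * Complex.I) *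
            ((((c l : ℕ) : ℤ) - m : ℤ) : ℂ))) = ((∏ l, bw m (c l) : ℝ) : ℂ) *
          Complex.exp (((2 * Real.pi * ip (zc fun l => ((c l : ℕ) : ℤ) - m) θ : ℝ) : ℂ) *
            Complex.I) := by
        intro c
        rw [prod_mul_distrib, ← Complex.exp_sum]
        congr 2
        · push_cast
          rfl
        · simp only [ip, zc]
          push_cast
          rw [mul_sum, sum_mul]
          exact sum_congr rfl fun l _ => by ring
      simp only [k2] at k1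
      have k3 := congrArg Complex.re k1
      rw [Complex.re_sum] at k3
      simp only [Complex.re_ofReal_mul, Complex.exp_ofReal_mul_I_re] at k3
      rw [← k3]
      have k4 : (∏ l, ((Real.cos (Real.pi * θ l) : ℝ) : ℂ) ^ (2 * m)) =
          ((∏ l, (Real.cos (Real.pi * θ l) ^ 2) ^ m : ℝ) : ℂ) := by
        simp only [← pow_mul]
        rw [Complex.ofReal_prod]
        simp only [Complex.ofReal_pow]
      rw [k4, Complex.ofReal_re]
      have k5 : ∏ l, (Real.cos (Real.pi * θ l) ^ 2) ^ m ≤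
          ∏ l, Real.exp (-(4 * fr (θ l) ^ 2)) ^ m :=
        prod_le_prod (fun l _ => by positivity)
          fun l _ => pow_le_pow_left₀ (sq_nonneg _) (cos_sq_le _) _
      refine k5.trans ?_
      rw [prod_pow, ← Real.exp_sum, ← Real.exp_nat_mul, sum_neg_distrib, ← mul_sum]
      have k6 : (100 : ℝ) ≤ m := by exact_mod_cast hm1
      have k7 : Real.exp (m * -(4 * ∑ l, fr (θ l) ^ 2)) ≤ Real.exp (-1) :=
        Real.exp_le_exp.2 (by nlinarith)
      refine k7.trans ?_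
      rw [Real.exp_neg, one_div]
      exact inv_anti₀ (by norm_num) (by linarith [Real.add_one_le_exp (1 : ℝ)]))
  rw [Fintype.card_fin] at key
  refine le_trans (le_of_eq ?_) key
  unfold Pr
  refine Fintype.sum_equiv (Equiv.piComm _) _ _ fun β => ?_
  have e1 : ∏ l, w0 (β l) = ∏ i : Fin k, ∏ l, bw m (β l i) := by
    unfold w0
    exact prod_comm
  have e2 : ∀ (θ : σ → ℝ) (i : Fin k), mtv (fun l => rv (β l)) θ i =
      ip (zc fun l => ((β l i : ℕ) : ℤ) - m) θ := fun θ i => rfl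
  rw [e1]
  have e3 : (¬P0 fun l => rv (β l)) ↔ ∃ θ : σ → ℝ, 1 / 100 ≤ ∑ l, fr (θ l) ^ 2 ∧
      ∑ i : Fin k, (1 - Real.cos (2 * Real.pi * ip (zc fun l => ((β l i : ℕ) : ℤ) - m) θ)) <
        (k : ℝ) / 20 := by
    unfold P0
    push Not
    simp only [e2]
  by_cases hb : ¬P0 fun l => rv (β l)
  · rw [if_pos hb]
    exact (if_pos (e3.1 hb)).symm
  · rw [if_neg hb]
    exact (if_neg fun h => hb (e3.2 h)).symm

end Vale.Agent.P318
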