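import Vale.Agent.P318.RMA

open Finset MeasureTheory
open scoped Classical

noncomputable section

namespace Vale.Agent.P318

section aux

lemma rmu_round {Q : ℕ} (hQ : 0 < Q) {x : ℝ} (hx : |x| ≤ 1) :
    |round (Q * x)| ≤ Q ∧ |x - (round (Q * x) : ℝ) / Q| ≤ 1 / (2 * Q) := by
  have hQ' : (0 : ℝ) < Q := by exact_mod_cast hQ
  have h1 := abs_sub_round ((Q : ℝ) * x)
  have h2 : |(Q : ℝ) * x| ≤ Q := by
    rw [abs_mul, abs_of_pos hQ']
    exact mul_le_of_le_one_right hQ'.le hx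
  constructor
  · have h3 : |(round ((Q : ℝ) * x) : ℝ)| < Q + 1 := by
      have := abs_sub_abs_le_abs_sub (round ((Q : ℝ) * x) : ℝ) (Q * x)
      rw [abs_sub_comm] at this
      linarith
    have h4 : |round ((Q : ℝ) * x)| < (Q : ℤ) + 1 := by exact_mod_cast h3
    omega
  · have e : x - (round ((Q : ℝ) * x) : ℝ) / Q = (Q * x - round ((Q : ℝ) * x)) / Q := by
      field_simp
    rw [e, abs_div, abs_of_pos hQ', div_le_div_iff₀ hQ' (by positivity)]
    nlinarith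

/-- grid rounding of a vector -/
def rmuG {ι : Type} (Q : ℕ) (a : ι → ℤ) : ι → ℝ := fun l => (a l : ℝ) / Q

lemma rmu_abs_le {ι : Type} [Fintype ι] {v : ι → ℝ} (h : nsq v ≤ 1) (l : ι) : |v l| ≤ 1 := by
  have := (sq_le_nsq v l).trans h
  exact abs_le_one_iff_mul_self_le_one.2 (by nlinarith)

lemma rmu_nsq_grid {ι : Type} [Fintype ι] {v w : ι → ℝ} (h : nsq v ≤ 1) {δ : ℝ}
    (hw : ∀ l, |v l - w l| ≤ δ) (hδ : Fintype.card ι * δ ^ 2 ≤ 1) : nsq w ≤ 4 := by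
  have h1 := nsq_sub_le v (v - w)
  rw [sub_sub_cancel] at h1
  have h2 : nsq (v - w) ≤ Fintype.card ι * δ ^ 2 := by
    have : ∀ l ∈ (univ : Finset ι), (v - w) l ^ 2 ≤ δ ^ 2 := fun l _ => by
      rw [← sq_abs]
      exact pow_le_pow_left₀ (abs_nonneg _) (hw l) 2
    simpa [nsq] using sum_le_card_nsmul _ _ _ this
  linarith

lemma rmu_ip_le {ι : Type} [Fintype ι] {v w : ι → ℝ} {a b : ℝ} (hv : ∀ l, |v l| ≤ a)
    (hw : ∀ l, |w l| ≤ b) : ip v w ≤ Fintype.card ι * (a * b) := by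
  have : ∀ l ∈ (univ : Finset ι), v l * w l ≤ a * b := fun l _ => by
    refine (le_abs_self _).trans ?_
    rw [abs_mul]
    exact mul_le_mul (hv l) (hw l) (abs_nonneg _) ((abs_nonneg _).trans (hv l))
  simpa [ip] using sum_le_card_nsmul _ _ _ this

/-- normalisation of a violating pair -/
lemma rmu_normal {ι : Type} [Fintype ι] [DecidableEq ι] {k : ℕ} (A : ι → Fin k → ℤ)
    (S : Finset ι) (Δ : Fin k → ℝ) {K : ℝ} (hK : 0 ≤ K)
    (h : ¬nsqOn S (mv A Δ) ≤ K ^ 2 * nsq Δ) :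
    ∃ (z : ι → ℝ) (θ : Fin k → ℝ), (∀ l ∉ S, z l = 0) ∧ nsq z ≤ 1 ∧ nsq θ ≤ 1 ∧
      K ≤ ip z (mv A θ) := by
  push Not at h
  have hΔ : 0 < nsq Δ := by
    rcases (nsq_nonneg Δ).eq_or_lt with h0 | h0
    · exfalso
      have := nsq_eq_zero h0.symm
      subst this
      simp [mv_zero, nsqOn, nsq] at h
    · exact h0
  set y : ι → ℝ := fun l => if l ∈ S then mv A Δ l else 0 with hy
  have hy1 : nsq y = nsqOn S (mv A Δ) := by
    simp only [nsq, nsqOn, hy, ite_pow]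
    simp [sum_ite_mem]
  have hy2 : ip y (mv A Δ) = nsqOn S (mv A Δ) := by
    simp only [ip, nsqOn, hy, ite_mul, zero_mul, sq]
    simp [sum_ite_mem]
  have hn : 0 < nsqOn S (mv A Δ) := lt_of_le_of_lt (by positivity) h
  set a := √(nsqOn S (mv A Δ)) with ha
  set b := √(nsq Δ) with hb
  have ha0 : 0 < a := Real.sqrt_pos.2 hn
  have hb0 : 0 < b := Real.sqrt_pos.2 hΔ
  have ha2 : a ^ 2 = nsqOn S (mv A Δ) := Real.sq_sqrt hn.le
  have hb2 : b ^ 2 = nsq Δ := Real.sq_sqrt hΔ.le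
  refine ⟨a⁻¹ • y, b⁻¹ • Δ, fun l hl => by simp [hy, hl], ?_, ?_, ?_⟩
  · rw [nsq_smul, hy1, ← ha2, inv_pow, inv_mul_cancel₀ (by positivity)]
  · rw [nsq_smul, ← hb2, inv_pow, inv_mul_cancel₀ (by positivity)]
  · rw [mv_smul, ip_smul_left, ip_smul_right, hy2, ← ha2]
    have e : a⁻¹ * (b⁻¹ * a ^ 2) = a / b := by field_simp
    rw [e, le_div_iff₀ hb0]
    rw [← ha2, ← hb2, ← mul_pow] at h
    exact (pow_le_pow_iff_left₀ (by positivity) ha0.le two_ne_zero).1 h.le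

/-- passage to the grid -/
lemma rmu_grid {ι : Type} [Fintype ι] [DecidableEq ι] {k m Q : ℕ} (A : ι → Fin k → ℤ)
    (hA : ∀ l i, |A l i| ≤ m) (hk : 0 < k) (hkM : k ≤ Fintype.card ι)
    (hQ : Q = 2 * (m + 1) * Fintype.card ι ^ 2) (S : Finset ι) {z : ι → ℝ} {θ : Fin k → ℝ}
    (hS : ∀ l ∉ S, z l = 0) (hz : nsq z ≤ 1) (hθ : nsq θ ≤ 1) :
    ∃ a ∈ Fintype.piFinset (fun l => if l ∈ S then Finset.Icc (-(Q : ℤ)) Q else {0}),
      ∃ b ∈ Fintype.piFinset (fun _ : Fin k => Finset.Icc (-(Q : ℤ)) Q),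
        nsq (rmuG Q a) ≤ 4 ∧ nsq (rmuG Q b) ≤ 4 ∧
          ip z (mv A θ) - 1 ≤ ip (rmuG Q a) (mv A (rmuG Q b)) := by
  have hM : 1 ≤ Fintype.card ι := le_trans hk hkM
  have hQ0 : 0 < Q := by rw [hQ]; positivity
  have hQ' : (0 : ℝ) < Q := by exact_mod_cast hQ0
  have hMr : (1 : ℝ) ≤ Fintype.card ι := by exact_mod_cast hM
  have hkr : (k : ℝ) ≤ Fintype.card ι := by exact_mod_cast hkM
  have hm0 : (0 : ℝ) ≤ m := Nat.cast_nonneg m
  have hQr : (Q : ℝ) = 2 * (m + 1) * (Fintype.card ι : ℝ) ^ 2 := by rw [hQ]; push_cast; ring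
  have hz1 := fun l => rmu_round hQ0 (rmu_abs_le hz l)
  have hθ1 := fun i => rmu_round hQ0 (rmu_abs_le hθ i)
  have hMQ : (Fintype.card ι : ℝ) ≤ Q := by rw [hQr]; nlinarith
  have hδ : (Fintype.card ι : ℝ) * (1 / (2 * Q)) ^ 2 ≤ 1 := by
    rw [div_pow, one_pow, mul_one_div, div_le_one (by positivity)]
    nlinarith
  have hδ' : (Fintype.card (Fin k) : ℝ) * (1 / (2 * Q)) ^ 2 ≤ 1 := by
    rw [Fintype.card_fin]
    exact (mul_le_mul_of_nonneg_right hkr (by positivity)).trans hδ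
  have hA' : ∀ l i, |(A l i : ℝ)| ≤ m := fun l i => by exact_mod_cast hA l i
  refine ⟨fun l => round (Q * z l), ?_, fun i => round (Q * θ i), ?_,
    rmu_nsq_grid hz (fun l => (hz1 l).2) hδ, rmu_nsq_grid hθ (fun i => (hθ1 i).2) hδ', ?_⟩
  · rw [Fintype.mem_piFinset]
    intro l
    split_ifs with hl
    · exact Finset.mem_Icc.2 (abs_le.1 (hz1 l).1)
    · simp [hS l hl]
  · rw [Fintype.mem_piFinset]
    exact fun i => Finset.mem_Icc.2 (abs_le.1 (hθ1 i).1)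
  · set zg := rmuG Q fun l => round (Q * z l) with hzg
    set θg := rmuG Q fun i => round (Q * θ i) with hθg
    have e : ip z (mv A θ) - ip zg (mv A θg) = ip (z - zg) (mv A θ) + ip zg (mv A (θ - θg)) := by
      rw [ip_sub_left, mv_sub, ip_sub_right]; ring
    have h1 : ip (z - zg) (mv A θ) ≤
        Fintype.card ι * (1 / (2 * Q) * (Fintype.card (Fin k) * (m * 1))) :=
      rmu_ip_le (fun l => (hz1 l).2) (abs_mv_le A hA' (rmu_abs_le hθ))
    have hzg1 : ∀ l, |zg l| ≤ 1 := fun l => by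
      have : |((round ((Q : ℝ) * z l) : ℤ) : ℝ)| ≤ Q := by exact_mod_cast (hz1 l).1
      simp only [hzg, rmuG]
      rw [abs_div, abs_of_pos hQ', div_le_one hQ']
      exact this
    have h2 : ip zg (mv A (θ - θg)) ≤
        Fintype.card ι * (1 * (Fintype.card (Fin k) * (m * (1 / (2 * Q))))) :=
      rmu_ip_le hzg1 (abs_mv_le A hA' fun i => (hθ1 i).2)
    rw [Fintype.card_fin] at h1 h2
    have h3 : (Fintype.card ι : ℝ) * (k * m) * (1 / Q) ≤ 1 := by
      rw [mul_one_div, div_le_one hQ', hQr]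
      have : (k : ℝ) * m ≤ Fintype.card ι * m := mul_le_mul_of_nonneg_right hkr hm0
      nlinarith
    have e1 : (Fintype.card ι : ℝ) * (1 / (2 * Q) * (k * (m * 1))) =
        (Fintype.card ι : ℝ) * (k * m) * (1 / Q) / 2 := by field_simp
    have e2 : (Fintype.card ι : ℝ) * (1 * (k * (m * (1 / (2 * Q))))) =
        (Fintype.card ι : ℝ) * (k * m) * (1 / Q) / 2 := by field_simp
    linarith

/-- Chernoff bound for a fixed pair -/
lemma rmu_chern {ι X : Type} [Fintype ι] [DecidableEq ι] [Fintype X] {k : ℕ} (p : X → ℝ)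
    (hp : ∀ x, 0 ≤ p x) (h1 : ∑ x, p x = 1) (val : X → Fin k → ℤ) {C : ℝ} (hC : 1 ≤ C)
    (hmgf : ∀ θ, ∑ x, p x * Real.exp (ip (zc (val x)) θ) ≤ 2 * Real.exp (C * nsq θ))
    (S : Finset ι) {z : ι → ℝ} {θ : Fin k → ℝ} (hS : ∀ l ∉ S, z l = 0) {n : ℝ} (hn : 0 ≤ n) :
    Pr p (fun A : ι → X => nsq z ≤ 4 ∧ nsq θ ≤ 4 ∧
      40 * √(C * n) ≤ ip z (mv (fun l => val (A l)) θ)) ≤ 2 ^ S.card * Real.exp (-(25 * n)) := by
  by_cases hz : nsq z ≤ 4 ∧ nsq θ ≤ 4
  swap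
  · refine le_trans (le_of_eq ?_) (by positivity : (0 : ℝ) ≤ _)
    unfold Pr
    exact sum_eq_zero fun A _ => if_neg fun h => hz ⟨h.1, h.2.1⟩
  have hC0 : 0 < C := by linarith
  set r := √(C * n) with hr
  have hr0 : 0 ≤ r := Real.sqrt_nonneg _
  have hr2 : r ^ 2 = C * n := Real.sq_sqrt (by positivity)
  set s := 5 * r / (4 * C) with hs
  have hs0 : 0 ≤ s := by positivity
  have h2 := Pr_chernoff hp (fun (l : ι) x => ip (zc (val x)) ((s * z l) • θ)) (50 * n)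
  refine le_trans (Pr_mono hp fun A _ h => ?_) (h2.trans ?_)
  · have e : ∑ l, ip (zc (val (A l))) ((s * z l) • θ) = s * ip z (mv (fun l => val (A l)) θ) := by
      simp only [ip_smul_right]
      simp only [ip, mv, zc, mul_sum]
      exact sum_congr rfl fun l _ => sum_congr rfl fun i _ => by ring
    rw [e]
    have h3 := mul_le_mul_of_nonneg_left h.2.2 hs0
    have e2 : s * (40 * r) = 50 * n := by
      rw [hs]; field_simp; nlinarith
    linarith
  · have h3 : ∏ l, ∑ x, p x * Real.exp (ip (zc (val x)) ((s * z l) • θ)) ≤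
        ∏ l, ((if l ∈ S then 2 else 1) * Real.exp (4 * C * s ^ 2 * z l ^ 2)) := by
      refine prod_le_prod (fun l _ => sum_nonneg fun x _ => mul_nonneg (hp x) (Real.exp_pos _).le)
        fun l _ => ?_
      split_ifs with hl
      · refine (hmgf _).trans (mul_le_mul_of_nonneg_left (Real.exp_le_exp.2 ?_) (by norm_num))
        rw [nsq_smul]
        have := mul_le_mul_of_nonneg_left hz.2 (by positivity : 0 ≤ C * (s * z l) ^ 2)
        nlinarith
      · simp [hS l hl, ip_zero_right, h1]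
    rw [prod_mul_distrib, ← Real.exp_sum, prod_ite, prod_const_one, mul_one, prod_const,
      filter_mem_eq_inter, univ_inter, ← mul_sum] at h3
    refine (mul_le_mul_of_nonneg_left h3 (Real.exp_pos _).le).trans ?_
    rw [mul_left_comm, ← Real.exp_add]
    refine mul_le_mul_of_nonneg_left (Real.exp_le_exp.2 ?_) (by positivity)
    have e3 : 16 * C * s ^ 2 = 25 * n := by
      rw [hs]; field_simp; nlinarith
    have h4 := mul_le_mul_of_nonneg_left hz.1 (by positivity : 0 ≤ 4 * C * s ^ 2)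
    unfold nsq at h4
    linarith

lemma rmu_num {M m N Q : ℕ} (hM : M ≤ 2 ^ N) (hm : m ≤ N) (hN : 1 ≤ N)
    (hQ : Q = 2 * (m + 1) * M ^ 2) :
    32 * (M : ℝ) * ((2 * Q + 1 : ℕ) * Real.exp (-(25 * N))) ≤ 1 := by
  have h1 : N + 1 ≤ 2 ^ N := Nat.lt_two_pow_self
  have h2 : 2 ≤ 2 ^ N := by omega
  set P := 2 ^ N with hP
  have h3 : 32 * M * (2 * Q + 1) ≤ P ^ 12 := by
    have h4 : Q ≤ 2 * P * P ^ 2 := by
      rw [hQ]
      exact Nat.mul_le_mul (by omega) (Nat.pow_le_pow_left hM 2)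
    have h5 : 1 ≤ P ^ 3 := Nat.one_le_pow _ _ (by omega)
    have h6 : 2 * Q + 1 ≤ 5 * P ^ 3 := by nlinarith
    have h7 : 2 ^ 8 ≤ P ^ 8 := Nat.pow_le_pow_left h2 8
    calc 32 * M * (2 * Q + 1) ≤ 32 * P * (5 * P ^ 3) := Nat.mul_le_mul (by omega) h6
      _ = 160 * P ^ 4 := by ring
      _ ≤ P ^ 8 * P ^ 4 := Nat.mul_le_mul_right _ (by omega)
      _ = P ^ 12 := by ring
  have h8 : ((P ^ 12 : ℕ) : ℝ) ≤ Real.exp (25 * N) := by
    have h9 : (2 : ℝ) ≤ Real.exp 1 := by linarith [Real.add_one_le_exp 1]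
    have h10 : (2 : ℝ) ^ (N * 12) ≤ Real.exp 1 ^ (N * 12) := pow_le_pow_left₀ (by norm_num) h9 _
    rw [← Real.exp_nat_mul] at h10
    rw [hP, ← pow_mul]
    push_cast at h10 ⊢
    refine h10.trans (Real.exp_le_exp.2 ?_)
    have : (0 : ℝ) ≤ N := Nat.cast_nonneg N
    linarith
  have h11 : ((32 * M * (2 * Q + 1) : ℕ) : ℝ) ≤ Real.exp (25 * N) :=
    le_trans (by exact_mod_cast h3) h8
  rw [Real.exp_neg, ← mul_assoc, ← div_eq_mul_inv, div_le_one (Real.exp_pos _)]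
  push_cast at h11 ⊢
  exact h11

end aux

/-- restricted operator norms of a random matrix with sub-Gaussian rows -/
theorem up_prob {ι X : Type} [Fintype ι] [DecidableEq ι] [Fintype X] {k m N : ℕ} (p : X → ℝ)
    (hp : ∀ x, 0 ≤ p x) (h1 : ∑ x, p x = 1) (val : X → Fin k → ℤ) (hv : ∀ x i, |val x i| ≤ m)
    {C : ℝ} (hC : 1 ≤ C)
    (hmgf : ∀ θ, ∑ x, p x * Real.exp (ip (zc (val x)) θ) ≤ 2 * Real.exp (C * nsq θ))
    (hk : 0 < k) (hkM : k ≤ Fintype.card ι) (hM : Fintype.card ι ≤ 2 ^ N) (hm : m ≤ N)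
    (hN : 1 ≤ N) :
    Pr p (fun A : ι → X => ∃ (S : Finset ι) (Δ : Fin k → ℝ),
      ¬nsqOn S (mv (fun l => val (A l)) Δ) ≤ 2000 * C * N * (k + S.card) * nsq Δ) ≤ 1 / 8 := by
  obtain ⟨Q, hQ⟩ : ∃ Q, Q = 2 * (m + 1) * Fintype.card ι ^ 2 := ⟨_, rfl⟩
  have hnum := rmu_num hM hm hN hQ
  set ρ : ℝ := (2 * Q + 1 : ℕ) * Real.exp (-(25 * N)) with hρ
  have hρ0 : 0 ≤ ρ := by positivity
  have hNr : (1 : ℝ) ≤ N := by exact_mod_cast hN
  have hkr : (1 : ℝ) ≤ k := by exact_mod_cast hk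
  have hMr : (1 : ℝ) ≤ Fintype.card ι := by exact_mod_cast le_trans hk hkM
  have hn1 : ∀ S : Finset ι, (1 : ℝ) ≤ N * (k + S.card) := fun S => by
    have : (0 : ℝ) ≤ S.card := Nat.cast_nonneg _
    nlinarith
  set GA : Finset ι → Finset (ι → ℤ) := fun S =>
    Fintype.piFinset (fun l => if l ∈ S then Finset.Icc (-(Q : ℤ)) Q else {0}) with hGA
  set GB : Finset (Fin k → ℤ) := Fintype.piFinset (fun _ : Fin k => Finset.Icc (-(Q : ℤ)) Q)
    with hGB
  have hIcc : (Finset.Icc (-(Q : ℤ)) Q).card = 2 * Q + 1 := by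
    rw [Int.card_Icc]; omega
  have hcA : ∀ S, (GA S).card = (2 * Q + 1) ^ S.card := fun S => by
    simp only [hGA, Fintype.card_piFinset, apply_ite Finset.card, hIcc, card_singleton]
    rw [prod_ite, prod_const_one, mul_one, prod_const, filter_mem_eq_inter, univ_inter]
  have hcB : GB.card = (2 * Q + 1) ^ k := by
    simp only [hGB, Fintype.card_piFinset, hIcc, prod_const, card_univ, Fintype.card_fin]
  have hsub : Pr p (fun A : ι → X => ∃ (S : Finset ι) (Δ : Fin k → ℝ),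
      ¬nsqOn S (mv (fun l => val (A l)) Δ) ≤ 2000 * C * N * (k + S.card) * nsq Δ) ≤
      Pr p (fun A : ι → X => ∃ S ∈ (univ : Finset (Finset ι)), ∃ a ∈ GA S, ∃ b ∈ GB,
        nsq (rmuG Q a) ≤ 4 ∧ nsq (rmuG Q b) ≤ 4 ∧ 40 * √(C * (N * (k + S.card))) ≤
          ip (rmuG Q a) (mv (fun l => val (A l)) (rmuG Q b))) := by
    refine Pr_mono hp fun A _ ⟨S, Δ, h⟩ => ?_
    have hn := hn1 S
    set r := √(C * (N * (k + S.card))) with hr
    have hCn : 1 ≤ C * (N * (k + S.card)) := by nlinarith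
    have hr1 : 1 ≤ r := Real.one_le_sqrt.2 hCn
    have hr2 : r ^ 2 = C * (N * (k + S.card)) := Real.sq_sqrt (by linarith)
    have h' : ¬nsqOn S (mv (fun l => val (A l)) Δ) ≤ (44 * r) ^ 2 * nsq Δ := fun hc => by
      refine h (hc.trans (mul_le_mul_of_nonneg_right ?_ (nsq_nonneg _)))
      rw [mul_pow, hr2]
      nlinarith
    obtain ⟨z, θ, hS, hz, hθ, hK⟩ := rmu_normal _ S Δ (by positivity) h'
    obtain ⟨a, ha, b, hb, h4, h5, h6⟩ :=
      rmu_grid (fun l => val (A l)) (fun l i => hv _ i) hk hkM hQ S hS hz hθ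
    exact ⟨S, mem_univ _, a, ha, b, hb, h4, h5, by linarith⟩
  refine hsub.trans ((Pr_exists hp _ _).trans ?_)
  have hS : ∀ S : Finset ι, Pr p (fun A : ι → X => ∃ a ∈ GA S, ∃ b ∈ GB,
        nsq (rmuG Q a) ≤ 4 ∧ nsq (rmuG Q b) ≤ 4 ∧ 40 * √(C * (N * (k + S.card))) ≤
          ip (rmuG Q a) (mv (fun l => val (A l)) (rmuG Q b))) ≤ ρ ^ k * (2 * ρ) ^ S.card := by
    intro S
    have h2 : ∀ a ∈ GA S, Pr p (fun A : ι → X => ∃ b ∈ GB,
        nsq (rmuG Q a) ≤ 4 ∧ nsq (rmuG Q b) ≤ 4 ∧ 40 * √(C * (N * (k + S.card))) ≤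
          ip (rmuG Q a) (mv (fun l => val (A l)) (rmuG Q b))) ≤
        GB.card • (2 ^ S.card * Real.exp (-(25 * (N * (k + S.card))))) := fun a ha => by
      refine (Pr_exists hp _ _).trans (sum_le_card_nsmul _ _ _ fun b _ => ?_)
      refine rmu_chern p hp h1 val hC hmgf S (fun l hl => ?_) (by linarith [hn1 S])
      have := Fintype.mem_piFinset.1 ha l
      rw [if_neg hl, mem_singleton] at this
      simp [rmuG, this]
    refine (Pr_exists hp _ _).trans ((sum_le_card_nsmul _ _ _ h2).trans (le_of_eq ?_))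
    have e : Real.exp (-(25 * (N * (k + S.card)))) =
        Real.exp (-(25 * N)) ^ k * Real.exp (-(25 * N)) ^ S.card := by
      rw [← pow_add, ← Real.exp_nat_mul]
      push_cast
      ring_nf
    rw [hcA, hcB, e, hρ]
    simp only [nsmul_eq_mul, mul_pow]
    push_cast
    ring
  refine (sum_le_sum fun S _ => hS S).trans ?_
  rw [← mul_sum]
  have e : ∑ S : Finset ι, (2 * ρ) ^ S.card = (1 + 2 * ρ) ^ Fintype.card ι := by
    have := prod_one_add (s := (univ : Finset ι)) (f := fun _ => 2 * ρ)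
    simp only [prod_const, card_univ, powerset_univ] at this
    exact this.symm
  rw [e]
  have h3 : (1 + 2 * ρ) ^ Fintype.card ι ≤ 3 := by
    have h4 : (1 + 2 * ρ) ^ Fintype.card ι ≤ Real.exp (2 * ρ) ^ Fintype.card ι :=
      pow_le_pow_left₀ (by positivity) (by linarith [Real.add_one_le_exp (2 * ρ)]) _
    rw [← Real.exp_nat_mul] at h4
    have h5 : Real.exp (Fintype.card ι * (2 * ρ)) ≤ Real.exp 1 :=
      Real.exp_le_exp.2 (by nlinarith)
    linarith [Real.exp_one_lt_d9]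
  have hρ1 : ρ ≤ 1 / 32 := by nlinarith
  have h6 : ρ ^ k ≤ ρ := pow_le_of_le_one hρ0 (by linarith) hk.ne'
  have h7 := mul_le_mul (h6.trans hρ1) h3 (by positivity) (by norm_num)
  linarith

end Vale.Agent.P318
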