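import Vale.Agent.P318.RMC
import Vale.Agent.P318.RMD
import Vale.Agent.P318.RMU
import Vale.Agent.P318.RMR

open Finset MeasureTheory
open scoped Classical

noncomputable section

namespace Vale.Agent.P318

section aux
variable {h k q m : ℕ} [Fact q.Prime]

/-- the bad event attached to a set of rows -/
def rmBad {σ : Type} [Fintype σ] (𝒱 : (σ → Row k m) → Finset (Fin k → ℤ))
    (H : Fin h → Fin k → ZMod q) (β : σ → Row k m) : Prop :=
  ¬LinearIndependent (ZMod q) (red q β) ∨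
    (LinearIndependent (ZMod q) (red q β) ∧ ¬P0 fun l => rv (β l)) ∨
    (LinearIndependent (ZMod q) (red q β) ∧ ∃ v ∈ 𝒱 β, InK H v ∧
      (fun i => (v i : ZMod q)) ∉ Submodule.span (ZMod q) (Set.range (red q β)))

theorem rm_mtv_sub {ι κ : Type} [Fintype ι] (A : ι → κ → ℤ) (S : Finset ι) {z : ι → ℝ}
    (hz : ∀ l ∉ S, z l = 0) : mtv A z = mtv (fun l : S => A l) fun l => z l := by
  funext i
  rw [mtv, mtv, sum_coe_sort S fun l => (A l i : ℝ) * z l]
  exact (sum_subset (subset_univ S) fun l _ hl => by rw [hz l hl, mul_zero]).symm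

theorem rm_nsq_sub {ι : Type} [Fintype ι] (S : Finset ι) {z : ι → ℝ} (hz : ∀ l ∉ S, z l = 0) :
    nsq z = nsq fun l : S => z l := by
  rw [nsq, nsq, sum_coe_sort S fun l => z l ^ 2]
  exact (sum_subset (subset_univ S) fun l _ hl => by rw [hz l hl, zero_pow two_ne_zero]).symm

theorem rm_prim {σ : Type} [Fintype σ] {𝒱 : (σ → Row k m) → Finset (Fin k → ℤ)}
    {H : Fin h → Fin k → ZMod q} {β : σ → Row k m} (hb : ¬rmBad 𝒱 H β)
    (hV : ∀ (v : Fin k → ℤ) (cc : σ → ℝ), (∀ l, |cc l| ≤ 1 / 2) →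
      nsq (zc v - mtv (fun l => rv (β l)) cc) < k / 2 → v ∈ 𝒱 β)
    (hβ : ∀ l, InK H (rv (β l))) (hm : 0 < m) (hσ : Fintype.card σ ≤ k) (hq : 5 * m * k < q)
    (hq40 : 40 ≤ q) {v : Fin k → ℤ} (hv : InK H v) (cc : σ → ℝ)
    (hc : nsq (zc v - mtv (fun l => rv (β l)) cc) < k / 2) :
    ∃ z : σ → ℤ, zc v = mtv (fun l => rv (β l)) (zc z) := by
  simp only [rmBad, not_or, not_not, not_and, not_exists] at hb
  obtain ⟨h1, h2, h3⟩ := hb
  obtain ⟨n, hn⟩ : ∃ n : σ → ℤ, n = fun l => round (cc l) := ⟨_, rfl⟩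
  have h4 : zc (v - fun i => ∑ l, rv (β l) i * n l) = zc v - mtv (fun l => rv (β l)) (zc n) := by
    rw [zc_sub, mtv_eq_mv, mv_zc]
  have h5 : nsq (zc (v - fun i => ∑ l, rv (β l) i * n l) -
      mtv (fun l => rv (β l)) (cc - zc n)) < k / 2 := by
    rwa [h4, rmc_mtv_sub, sub_sub_sub_cancel_right]
  have h6 : InK H (v - fun i => ∑ l, rv (β l) i * n l) := fun r => by
    simp only [Pi.sub_apply, Int.cast_sub, Int.cast_sum, Int.cast_mul, mul_sub, sum_sub_distrib,
      hv r, mul_sum, zero_sub, neg_eq_zero]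
    rw [sum_comm]
    refine sum_eq_zero fun l _ => ?_
    simp only [← mul_assoc, ← sum_mul, hβ l r, zero_mul]
  obtain ⟨z, w, h7⟩ := lift_span β _ (h3 h1 _ (hV _ _ (fun l => by
    rw [hn]
    exact abs_sub_round (cc l)) h5) h6)
  obtain ⟨z', h8⟩ := (h2 h1).prim (fun l => abs_rv_le (β l)) hm hσ hq hq40 _ w z h7 _ h5
  exact ⟨z' + n, by rw [zc_add, rmc_mtv_add, ← h8, h4, sub_add_cancel]⟩

theorem rm_two_pow (j : ℕ) : (2 : ℝ) ^ j ≤ Real.exp j := by
  rw [← mul_one (j : ℝ), Real.exp_nat_mul]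
  exact pow_le_pow_left₀ zero_le_two (by linarith [Real.add_one_le_exp 1]) j

theorem rm_half (k : ℕ) : (1 / 2 : ℝ) ^ k ≤ Real.exp (-(k / 20 : ℝ)) := by
  rw [show -(k / 20 : ℝ) = k * (-(1 / 20)) by ring, Real.exp_nat_mul]
  exact pow_le_pow_left₀ (by norm_num) (by linarith [Real.add_one_le_exp (-(1 / 20))]) k

theorem rm_set {σ : Type} [Fintype σ] [DecidableEq σ] {N s : ℕ}
    (𝒱 : (σ → Row k m) → Finset (Fin k → ℤ))
    (hV : ∀ β, (𝒱 β).card ≤ (4 * m * Fintype.card σ + 1) ^ Fintype.card σ * 9 ^ k)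
    (hm : 2 ^ 14 ≤ m) (hN : 5 * m ≤ N) (hk : 0 < k) (hkN : k ≤ 2 ^ N) (hs : Fintype.card σ ≤ s)
    (hsk : 200 * N * s ≤ k) (hq : 2 * m < q) (hq1 : q ≤ 64 ^ N) (hq2 : 32 ^ k ≤ q ^ h)
    (hq3 : q ^ h ≤ 64 ^ k) :
    ∑ H : Fin h → Fin k → ZMod q, Pr (wH H) (rmBad 𝒱 H) ≤
      (q : ℝ) ^ (h * k) * (3 * (2 ^ (7 * (N * s)) * Real.exp (-(k / 20 : ℝ)))) := by
  have hq0 : (0 : ℝ) < q := by exact_mod_cast (by omega : 0 < q)
  have hN1 : 1 ≤ N := by omega
  have e0 := rm_half k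
  have e1 : ∀ (H : Fin h → Fin k → ZMod q) (x : Row k m), wH H x ≤ Real.exp (-(k / 20 : ℝ)) :=
    fun H x => by
      refine (wH_le H x).trans (le_trans ?_ e0)
      have h1 : (if InK H (rv x) then w0 x else 0) ≤ (1 / 128) ^ k := by
        split_ifs
        · exact w0_le hm x
        · positivity
      refine (mul_le_mul (b := ((64 ^ k : ℕ) : ℝ)) (by exact_mod_cast hq3) h1 ?_
        (by positivity)).trans (le_of_eq ?_)
      · split_ifs
        · exact w0_nonneg x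
        · exact le_rfl
      · push_cast
        rw [← mul_pow]
        norm_num
  have e2 : (Fintype.card σ * (q : ℝ) ^ Fintype.card σ) ≤ 2 ^ (7 * (N * s)) := by
    have h1 : Fintype.card σ ≤ 2 ^ (N * s) :=
      (hs.trans (Nat.le_mul_of_pos_left s hN1)).trans Nat.lt_two_pow_self.le
    have h2 : q ^ Fintype.card σ ≤ 2 ^ (6 * (N * s)) := by
      rw [pow_mul, pow_mul]
      exact (Nat.pow_le_pow_left hq1 _).trans (Nat.pow_le_pow_right (by positivity) hs)
    have h3 := Nat.mul_le_mul h1 h2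
    rw [← pow_add, show N * s + 6 * (N * s) = 7 * (N * s) by ring] at h3
    exact_mod_cast h3
  have e3 : (((4 * m * Fintype.card σ + 1) ^ Fintype.card σ * 9 ^ k : ℕ) : ℝ) / (q : ℝ) ^ h ≤
      2 ^ (7 * (N * s)) * Real.exp (-(k / 20 : ℝ)) := by
    have h1 : Fintype.card σ ≤ 2 ^ N := (hs.trans ((Nat.le_mul_of_pos_left s
      (by omega)).trans hsk)).trans hkN
    have h2 : 4 * m * Fintype.card σ + 1 ≤ 2 ^ N * 2 ^ N := by
      have h3 : 4 * m + 1 ≤ 2 ^ N := le_trans (by omega) (Nat.lt_two_pow_self (n := N)).le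
      have h4 := Nat.mul_le_mul h3 (le_refl (2 ^ N))
      have h5 := Nat.mul_le_mul_left (4 * m) h1
      have h6 : 0 < 2 ^ N := by positivity
      rw [add_mul] at h4
      omega
    have h3 : (4 * m * Fintype.card σ + 1) ^ Fintype.card σ ≤ 2 ^ (7 * (N * s)) := by
      refine ((Nat.pow_le_pow_left h2 _).trans (Nat.pow_le_pow_right (by positivity) hs)).trans ?_
      rw [← pow_add, ← pow_mul]
      exact Nat.pow_le_pow_right two_pos (by rw [add_mul]; omega)
    rw [Nat.cast_mul, mul_div_assoc]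
    refine mul_le_mul (by exact_mod_cast h3) (le_trans ?_ e0) (by positivity) (by positivity)
    refine (div_le_div_of_nonneg_left (c := ((32 ^ k : ℕ) : ℝ)) (by positivity) (by positivity)
      (by exact_mod_cast hq2)).trans ?_
    push_cast
    rw [← div_pow]
    exact pow_le_pow_left₀ (by norm_num) (by norm_num) k
  have e4 : (1 : ℝ) ≤ 2 ^ (7 * (N * s)) := one_le_pow₀ one_le_two
  have t1 := sum_le_card_nsmul univ (fun H : Fin h → Fin k → ZMod q => Pr (wH H)
    fun β : σ → Row k m => ¬LinearIndependent (ZMod q) (red q β)) _ fun H _ =>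
      (dep_prob _ (wH_nonneg H) (sum_wH H) (e1 H) hq).trans
        (mul_le_mul_of_nonneg_right e2 (Real.exp_pos _).le)
  have t2 := (dom1 (h := h) (q := q) fun β : σ → Row k m => ¬P0 fun l => rv (β l)).trans
    (mul_le_mul_of_nonneg_left ((p0_prob (by omega) (by omega) hk hkN
      ((Nat.mul_le_mul_left _ hs).trans hsk)).trans
        (le_mul_of_one_le_left (Real.exp_pos _).le e4)) (by positivity))
  have t3 := (dom2 (h := h) (q := q) 𝒱 fun β => Nat.cast_le.2 (hV β)).trans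
    (mul_le_mul_of_nonneg_left e3 (by positivity))
  rw [nsmul_eq_mul, card_univ, Fintype.card_fun, Fintype.card_fun, ZMod.card, Fintype.card_fin,
    Fintype.card_fin, ← pow_mul, mul_comm k, Nat.cast_pow] at t1
  refine (sum_le_sum fun H _ => (Pr_or (wH_nonneg H) _ _).trans
    (add_le_add_right (Pr_or (wH_nonneg H) _ _) _)).trans ?_
  rw [sum_add_distrib, sum_add_distrib]
  linarith

theorem rm_card {ι : Type} [Fintype ι] {N s : ℕ} (hN : 1 ≤ N) (hM : Fintype.card ι ≤ 2 ^ N) :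
    (univ.filter fun S : Finset ι => S.card ≤ s).card ≤ 2 ^ (2 * (N * s)) := by
  have h1 : (univ.filter fun S : Finset ι => S.card ≤ s) ⊆
      (range (s + 1)).biUnion fun j => powersetCard j univ := fun S hS =>
    mem_biUnion.2 ⟨S.card, mem_range.2 (Nat.lt_succ_of_le (mem_filter.1 hS).2),
      mem_powersetCard.2 ⟨subset_univ _, rfl⟩⟩
  refine ((card_le_card h1).trans (card_biUnion_le_card_mul _ _ (2 ^ (N * s)) fun j hj => ?_)).trans
    ?_
  · rw [card_powersetCard, card_univ, pow_mul]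
    exact ((Nat.choose_le_pow _ _).trans (Nat.pow_le_pow_left hM _)).trans
      (Nat.pow_le_pow_right (by positivity) (Nat.le_of_lt_succ (mem_range.1 hj)))
  · rw [card_range, two_mul, pow_add]
    exact Nat.mul_le_mul_right _ (Nat.lt_two_pow_self.trans_le
      (Nat.pow_le_pow_right two_pos (Nat.le_mul_of_pos_left s hN)))

theorem rm_num {j k : ℕ} (hj : 1000 * j ≤ k) (hk : 1000 ≤ k) :
    (2 : ℝ) ^ (2 * j) * (3 * (2 ^ (7 * j) * Real.exp (-(k / 20 : ℝ)))) ≤ 1 / 8 := by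
  have h1 : (1000 * j : ℝ) ≤ k := by exact_mod_cast hj
  have h2 : (1000 : ℝ) ≤ k := by exact_mod_cast hk
  have h3 : (2 : ℝ) ^ (9 * j) * Real.exp (-(k / 20 : ℝ)) ≤ Real.exp (-25) := by
    refine (mul_le_mul_of_nonneg_right (rm_two_pow _) (Real.exp_pos _).le).trans ?_
    rw [← Real.exp_add, Real.exp_le_exp]
    push_cast
    linarith
  have h4 : Real.exp (-25) ≤ 1 / 26 := by
    rw [Real.exp_neg, one_div]
    exact inv_anti₀ (by norm_num) (by linarith [Real.add_one_le_exp 25])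
  rw [show 9 * j = 2 * j + 7 * j by ring, pow_add] at h3
  linarith

theorem rm_main {ι κ : Type} [Fintype ι] [DecidableEq ι] [Fintype κ] (B : ι → κ → ℤ)
    {N s Cm : ℕ} (hm : 10 ^ 14 ≤ m) (hC : 2000 * (m + 20) ≤ Cm) (hN : Cm ≤ N) (hk : N ≤ k)
    (hM : Fintype.card ι ≤ 2 ^ N) (hB : ∀ l i, |B l i| ≤ Cm)
    (h1 : Cm * N * (k + Fintype.card κ) ≤ Fintype.card ι) (h2 : Cm * N * s ≤ k)
    (hq : 32 ^ N < q) (hq1 : q ≤ 64 ^ N) (hq2 : 32 ^ k ≤ q ^ h) (hq3 : q ^ h ≤ 64 ^ k) :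
    ∃ A : ι → Fin k → ℤ, RMP A B Cm (Cm * N) s := by
  have hN1 : 1 ≤ N := by omega
  have hk0 : 0 < k := by omega
  have a0 : ∀ {c x : ℕ}, c ≤ Cm → c * N * x ≤ Cm * N * x := fun hc =>
    Nat.mul_le_mul_right _ (Nat.mul_le_mul_right _ hc)
  have hkM : k ≤ Fintype.card ι := le_trans (le_trans (Nat.le_add_right _ _)
    (Nat.le_mul_of_pos_left _ (Nat.mul_pos (by omega) hN1))) h1
  have hkN := hkM.trans hM
  have hq5 : 5 * m * k < q := by
    have a1 : 5 * m ≤ 16 ^ N := le_trans (by omega)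
      ((Nat.lt_two_pow_self (n := N)).le.trans (Nat.pow_le_pow_left (by norm_num) N))
    exact ((Nat.mul_le_mul a1 hkN).trans_eq (mul_pow 16 2 N).symm).trans_lt hq
  have hq6 : 5 * m < q := (Nat.le_mul_of_pos_right _ hk0).trans_lt hq5
  have hBc : (2000 : ℝ) * (m + 20) ≤ Cm := by exact_mod_cast hC
  have hN' : (1 : ℝ) ≤ N := by exact_mod_cast hN1
  have hBc' : (2000 : ℝ) ≤ Cm * N := le_trans (by linarith [Nat.cast_nonneg (α := ℝ) m])
    (le_mul_of_one_le_right (Nat.cast_nonneg _) hN')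
  choose 𝒱 hV1 hV2 using fun (S : Finset ι) (β : S → Row k m) =>
    exists_near_set (fun l => rv (β l)) fun l => abs_rv_le (β l)
  by_contra hA
  have key : ∀ H : Fin h → Fin k → ZMod q, (1 : ℝ) ≤ (if ¬GoodH H then 1 else 0) + (1 / 4 +
      ∑ S ∈ univ.filter fun S : Finset ι => S.card ≤ s, Pr (wH H) (rmBad (𝒱 S) H)) := fun H => by
    have p0 := wH_nonneg (m := m) H
    have p1 := sum_wH (m := m) H
    by_cases hH : GoodH H
    swap
    · rw [if_pos hH]
      linarith [sum_nonneg fun (S : Finset ι) (_ : S ∈ univ.filter fun S : Finset ι => S.card ≤ s) =>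
        Pr_nonneg p0 (rmBad (𝒱 S) H)]
    have t1 := up_prob (ι := ι) _ p0 p1 rv abs_rv_le (C := m + 20)
      (by linarith [Nat.cast_nonneg (α := ℝ) m]) (wH_mgf hH hq3 hm hk0) hk0 hkM hM (by omega) hN1
    have t2 := r0_prob (ι := ι) _ p0 p1 rv abs_rv_le (LH H) (fun _ => LH_add_zc)
      (wH_char hH hq3 hm hk0) B (fun l i => (hB l i).trans (by exact_mod_cast hN)) hk0 (by omega)
      hN1 hM ((a0 (by omega)).trans h1)
    have t3 := Pr_exists (ι := ι) p0 (univ.filter fun S : Finset ι => S.card ≤ s)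
      fun S A => rmBad (𝒱 S) H fun l => A l
    simp only [Pr_marg p1] at t3
    rw [if_neg (not_not.2 hH), zero_add]
    refine le_trans (((Pr_true p1).ge.trans (Pr_mono p0 fun A hA0 _ => ?_)).trans
      ((Pr_or p0 _ _).trans (add_le_add ((Pr_or p0 _ _).trans (add_le_add t1 t2)) t3)))
      (by norm_num)
    by_contra hE
    simp only [not_or, not_exists, not_not, not_and, mem_filter, mem_univ, true_and] at hE
    obtain ⟨⟨g1, g2⟩, g3⟩ := hE
    have hK : ∀ l, InK H (rv (A l)) := fun l => inK_of_wH_ne (hA0 l)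
    have hL := LH_subset (fun l => rv (A l)) hK
    have hmin : ∀ t ∈ LH H, t ≠ 0 → 1 ≤ nsq t := fun _ => LH_min hH (by omega)
    refine hA ⟨fun l => rv (A l), fun l i => (abs_rv_le _ i).trans (by omega), fun S Δ =>
      (g1 S Δ).trans ?_, fun S z hS hz => ?_, fun S hS v hv cc hc hn => ?_,
      g2.rig hmin hL (by omega) hBc', g2.rig0 hmin hBc'⟩
    · have := nsq_nonneg Δ
      gcongr
    · have g4 := g3 S hS
      simp only [rmBad, not_or, not_not, not_and] at g4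
      rw [rm_mtv_sub _ S hz, rm_nsq_sub S hz]
      exact ((g4.2.1 g4.1).low _).trans (mul_le_mul_of_nonneg_right (by linarith) (nsq_nonneg _))
    · rw [rm_mtv_sub _ S hc] at hn
      obtain ⟨z, hz⟩ := rm_prim (g3 S hS) (hV2 S _) (fun l => hK l) (by omega)
        (by rw [Fintype.card_coe]; exact hS.trans ((Nat.le_mul_of_pos_left s
          (Nat.mul_pos (by omega) hN1)).trans h2)) hq5 (by omega)
        (inK_of_dual fun t ht => hv t (hL ht)) _ hn
      refine ⟨fun l => if hl : l ∈ S then z ⟨l, hl⟩ else 0, fun l hl => dif_neg hl, ?_⟩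
      rw [hz, rm_mtv_sub _ S fun l hl => by simp [zc, hl]]
      congr 1
      funext l
      simp [zc]
  have k1 := sum_le_sum fun H (_ : H ∈ univ) => key H
  have k2 := (Nat.cast_le (α := ℝ)).2 (card_not_goodH hq3 (by omega) (by omega))
  rw [Nat.cast_mul, Nat.cast_pow, Nat.cast_ofNat] at k2
  have k3 := sum_le_card_nsmul (univ.filter fun S : Finset ι => S.card ≤ s)
    (fun S => ∑ H : Fin h → Fin k → ZMod q, Pr (wH H) (rmBad (𝒱 S) H)) _ fun S hS =>
      rm_set (s := s) (𝒱 S) (hV1 S) (by omega) (by omega) hk0 hkN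
        (by rw [Fintype.card_coe]; exact (mem_filter.1 hS).2) ((a0 (by omega)).trans h2) (by omega)
        hq1 hq2 hq3
  have k4 := (Nat.cast_le (α := ℝ)).2 (rm_card (ι := ι) (s := s) hN1 hM)
  rw [Nat.cast_pow, Nat.cast_ofNat] at k4
  have k5 := rm_num (j := N * s) (k := k)
    (by rw [← mul_assoc]; exact (a0 (by omega)).trans h2) (by omega)
  have k6 : (0 : ℝ) < (q : ℝ) ^ (h * k) := pow_pos (by exact_mod_cast (by omega : 0 < q)) _
  have k7 := mul_le_mul_of_nonneg_right k4 (show 0 ≤ (q : ℝ) ^ (h * k) *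
    (3 * (2 ^ (7 * (N * s)) * Real.exp (-(k / 20 : ℝ)))) by positivity)
  have k8 := mul_le_mul_of_nonneg_left k5 k6.le
  rw [sum_add_distrib, sum_add_distrib, sum_boole, sum_comm, sum_const, sum_const, nsmul_eq_mul,
    nsmul_eq_mul, card_univ, Fintype.card_fun, Fintype.card_fun, ZMod.card, Fintype.card_fin,
    Fintype.card_fin, ← pow_mul, mul_comm k, Nat.cast_pow] at k1
  rw [nsmul_eq_mul] at k3
  linarith

end aux

/-- existence of the random matrix -/
theorem exists_rmp : ∃ Cm : ℕ, 1 ≤ Cm ∧ ∀ (N h m : ℕ) (ι κ : Type) [Fintype ι] [DecidableEq ι]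
    [Fintype κ] (B : ι → κ → ℤ), Cm ≤ N → 0 < h → Fintype.card ι ≤ 2 ^ N →
    (∀ l i, |B l i| ≤ Cm) → Cm * N * (h * N + Fintype.card κ) ≤ Fintype.card ι →
    Cm * N * m ≤ h * N → ∃ A : ι → Fin (h * N) → ℤ, RMP A B Cm (Cm * N) m := by
  refine ⟨10 ^ 18, by norm_num, fun N h m ι κ _ _ _ B hN hh hM hB h1 h2 => ?_⟩
  obtain ⟨q, hq, hq1, hq2⟩ := Nat.exists_prime_lt_and_le_two_mul (32 ^ N) (by positivity)
  have : Fact q.Prime := ⟨hq⟩
  have hq3 : q ≤ 64 ^ N := hq2.trans (by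
    rw [show 64 = 2 * 32 by norm_num, mul_pow]
    exact Nat.mul_le_mul_right _ (Nat.le_self_pow (by omega) 2))
  refine rm_main (h := h) (m := 10 ^ 14) B le_rfl (by norm_num) hN (Nat.le_mul_of_pos_left N hh)
    hM hB h1 h2 hq1 hq3 ?_ ?_
  · rw [mul_comm, pow_mul]
    exact Nat.pow_le_pow_left hq1.le h
  · rw [mul_comm, pow_mul]
    exact Nat.pow_le_pow_left hq3 h

end Vale.Agent.P318
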