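import Vale.Agent.P318.Level
import Vale.Agent.P318.Dec
import Vale.Agent.P318.EQ
import Vale.Agent.P318.CoreB
import Vale.Agent.P318.RM

open Finset MeasureTheory

noncomputable section

namespace Vale.Agent.P318

theorem ind_num_dec {x B c d η e : ℝ} (hc : 0 < c) (hcd : c ≤ d) (hd : d ≤ 1 / 300)
    (hx : 1 ≤ x) (hxd : x ^ 3 * d ≤ 1) (hB1 : 1 ≤ B) (hB : 19 * B ^ 2 ≤ x ^ 3)
    (hη : η ≤ c ^ 7) (he : 300 * d ≤ e) :
    2 * B * c ^ 7 ≤ 1 ∧ 18 * B ^ 2 * (1 / c) ≤ 1 / c ^ 7 ∧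
      17 / (d * c ^ 7) ^ 2 ≤ 1 / (c ^ 7) ^ 4 ∧ 2 * (1 / c ^ 4) ≤ 1 / (c ^ 7) ^ 4 ∧
      201 * (d * c ^ 7) / c ^ 7 ≤ x ^ 3 * e ∧
      18 * B ^ 2 * e + 8 * (1 / c ^ 4) * B ^ 2 * (η + 18 * B ^ 2 * (1 / c) * c ^ 7) ≤
        x ^ 3 * e := by
  have hd0 : 0 < d := hc.trans_le hcd
  have hc1 : c ≤ 1 / 300 := hcd.trans hd
  have hc1' : c ≤ 1 := by linarith
  have hx3 : 1 ≤ x ^ 3 := one_le_pow₀ hx
  have hpow : ∀ n : ℕ, c ^ (n + 1) ≤ c := fun n => by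
    rw [pow_succ]; exact mul_le_of_le_one_left hc.le (pow_le_one₀ hc.le hc1')
  have hBc : B ^ 2 * c ≤ 1 / 19 := by nlinarith [mul_le_mul_of_nonneg_left hcd (sq_nonneg B)]
  refine ⟨?_, ?_, ?_, ?_, ?_, ?_⟩
  · have h7 : c ^ 7 ≤ c := hpow 6
    have hBB : B ≤ B ^ 2 := by nlinarith
    have h1 : B * c ^ 7 ≤ B ^ 2 * c :=
      mul_le_mul hBB h7 (by positivity) (by positivity)
    linarith
  · rw [mul_one_div, div_le_div_iff₀ hc (by positivity)]
    have h6 : c ^ 6 ≤ c := hpow 5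
    have h1 : B ^ 2 * c ^ 6 ≤ B ^ 2 * c := mul_le_mul_of_nonneg_left h6 (sq_nonneg B)
    have h2 : 18 * B ^ 2 * c ^ 7 = (18 * (B ^ 2 * c ^ 6)) * c := by ring
    rw [h2]
    exact mul_le_mul_of_nonneg_right (by linarith) hc.le
  · rw [div_le_div_iff₀ (by positivity) (by positivity)]
    have h12 : c ^ 12 ≤ c := hpow 11
    have h2 : c ^ 2 ≤ d ^ 2 := pow_le_pow_left₀ hc.le hcd 2
    have h14 : 17 * c ^ 14 ≤ d ^ 2 := by
      have e1 : 17 * c ^ 14 = (17 * c ^ 12) * c ^ 2 := by ring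
      rw [e1]
      exact (mul_le_of_le_one_left (by positivity) (by linarith)).trans h2
    have : (17 : ℝ) * (c ^ 7) ^ 4 = (17 * c ^ 14) * c ^ 14 := by ring
    rw [this]
    have : 1 * (d * c ^ 7) ^ 2 = d ^ 2 * c ^ 14 := by ring
    rw [this]
    exact mul_le_mul_of_nonneg_right h14 (by positivity)
  · rw [mul_one_div, div_le_div_iff₀ (by positivity) (by positivity)]
    have h24 : c ^ 24 ≤ c := hpow 23
    have : (2 : ℝ) * (c ^ 7) ^ 4 = (2 * c ^ 24) * c ^ 4 := by ring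
    rw [this]
    exact mul_le_mul_of_nonneg_right (by linarith) (by positivity)
  · rw [mul_div_assoc, mul_div_assoc, div_self (by positivity)]
    nlinarith
  · have h1 : 1 / c ^ 4 * η ≤ d := by
      rw [one_div, inv_mul_le_iff₀ (by positivity)]
      have h3 : c ^ 3 ≤ c := hpow 2
      have h7 : c ^ 7 = c ^ 4 * c ^ 3 := by ring
      rw [h7] at hη
      exact hη.trans (mul_le_mul_of_nonneg_left (h3.trans hcd) (by positivity))
    have h2 : 1 / c ^ 4 * (18 * B ^ 2 * (1 / c) * c ^ 7) ≤ d := by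
      have : 1 / c ^ 4 * (18 * B ^ 2 * (1 / c) * c ^ 7) = 18 * (B ^ 2 * c) * c := by
        field_simp
      rw [this]; nlinarith
    have h3 : 8 * (1 / c ^ 4) * B ^ 2 * (η + 18 * B ^ 2 * (1 / c) * c ^ 7) =
        8 * B ^ 2 * (1 / c ^ 4 * η + 1 / c ^ 4 * (18 * B ^ 2 * (1 / c) * c ^ 7)) := by ring
    rw [h3]
    have h4 : 8 * B ^ 2 * (1 / c ^ 4 * η + 1 / c ^ 4 * (18 * B ^ 2 * (1 / c) * c ^ 7)) ≤
        8 * B ^ 2 * (d + d) := mul_le_mul_of_nonneg_left (by linarith) (by positivity)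
    have h5 : 0 ≤ e := by linarith
    nlinarith [mul_le_mul_of_nonneg_right hB h5, mul_le_mul_of_nonneg_left he (sq_nonneg B)]

/-- the large-parameter conditions -/
structure Big (Cm r s t D1 E N : ℕ) (κ1 : ℝ) : Prop where
  cm : 19 * Cm ^ 2 ≤ N
  cm1 : 1 ≤ Cm
  rN : 6400 * (r + 2) ≤ N
  kap : κ1 ≤ N
  pw : N ^ (2 * E * r + t + 2) ≤ 2 ^ N
  s5 : 5 ≤ s
  ht : t = s * (7 ^ r + 1)
  hD1 : D1 = 2 * t + 3 * r + 6
  hE : D1 + 3 ≤ E

/-- the statement proved by induction on the level -/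
def LevelOk (W : Win) (Cm s t D1 E N j : ℕ) : Prop :=
  ∃ (ι κ : Type) (_ : Fintype ι) (_ : DecidableEq ι) (_ : Fintype κ) (A : ι → κ → ℤ),
    Fintype.card ι = N ^ (2 * E * j) ∧ Fintype.card κ * N ^ D1 ≤ j * N ^ (2 * E * j) ∧
    (0 < j → ∀ l, A l ≠ 0) ∧
    Invt W A Cm ((N : ℝ) ^ (E * j) / ((N : ℝ) ^ E * (N : ℝ) ^ (3 * D1 + 16 + t)))
      (4 * j * (Cm * N) * (N : ℝ) ^ D1) ((N : ℝ) ^ (D1 + 4) / (N : ℝ) ^ (E * j))
      ((N : ℝ) ^ (3 * j + 2) / (N : ℝ) ^ D1) ((N : ℝ) ^ (3 * j))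
      (1 / (1 / (N : ℝ) ^ s) ^ 7 ^ j) (1 / ((1 / (N : ℝ) ^ s) ^ 7 ^ j) ^ 4)
      ((N : ℝ) ^ (3 * j) * (300 * (1 / (N : ℝ) ^ s)))
      (j * (N : ℝ) ^ (2 * E * j) * Real.exp (-(N : ℝ) ^ 2))

namespace Big
variable {Cm r s t D1 E N : ℕ} {κ1 : ℝ} (hb : Big Cm r s t D1 E N κ1)
include hb

theorem big : (12800 : ℝ) ≤ N := by
  have := hb.rN
  have : 12800 ≤ N := by omega
  exact_mod_cast this

theorem one_le : (1 : ℝ) ≤ N := by linarith [hb.big]

theorem pow_mono {a b : ℕ} (h : a ≤ b) : (N : ℝ) ^ a ≤ (N : ℝ) ^ b :=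
  pow_le_pow_right₀ hb.one_le h

theorem d_le : 1 / (N : ℝ) ^ s ≤ 1 / 300 := by
  have h1 := hb.pow_mono (a := 1) (b := s) (by have := hb.s5; omega)
  have := hb.big
  exact one_div_le_one_div_of_le (by norm_num) (by linarith [pow_one (N : ℝ)])

theorem cmN : Cm ≤ N := by nlinarith [hb.cm, hb.cm1]

theorem B1 : (1 : ℝ) ≤ (Cm : ℝ) * N := by
  have hCm1 : (1 : ℝ) ≤ Cm := by exact_mod_cast hb.cm1
  nlinarith [hb.one_le]

theorem B3 : 19 * ((Cm : ℝ) * N) ^ 2 ≤ (N : ℝ) ^ 3 := by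
  have : 19 * (Cm : ℝ) ^ 2 ≤ N := by exact_mod_cast hb.cm
  nlinarith [sq_nonneg (N : ℝ)]

theorem rR : 6400 * (r : ℝ) ≤ N := by
  have := hb.rN
  have : 6400 * r ≤ N := by omega
  exact_mod_cast this

theorem lam_le {j : ℕ} (hj : j ≤ r) :
    1 / (N : ℝ) ^ t ≤ 1 / (N : ℝ) ^ s * (1 / (N : ℝ) ^ s) ^ 7 ^ j := by
  have h0 : (0 : ℝ) < N := by linarith [hb.big]
  rw [one_div_pow, one_div_mul_one_div, ← pow_mul, ← pow_add]
  refine one_div_le_one_div_of_le (by positivity) (hb.pow_mono ?_)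
  rw [hb.ht]
  have : 7 ^ j ≤ 7 ^ r := Nat.pow_le_pow_right (by norm_num) hj
  nlinarith

end Big

theorem level_zero {Cm r s t D1 E N : ℕ} {κ1 : ℝ} (hb : Big Cm r s t D1 E N κ1) (W : Win)
    (hl : W.lam = 1 / (N : ℝ) ^ t) : LevelOk W Cm s t D1 E N 0 := by
  have hN := hb.big
  have h0 : (0 : ℝ) < N := by linarith
  have hd := hb.d_le
  have hd0 : 0 < 1 / (N : ℝ) ^ s := by positivity
  refine ⟨Unit, Empty, inferInstance, inferInstance, inferInstance, base0, by simp, by simp,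
    fun h => absurd h (lt_irrefl _), ⟨fun _ i => i.elim, ?_, ?_, ?_, ?_, ?_, ?_⟩⟩
  · refine (pi_base W).mono (by positivity) ?_
    have h1 := hb.pow_mono (a := 0) (b := E) (Nat.zero_le _)
    have h2 := hb.pow_mono (a := 1) (b := 3 * D1 + 16 + t) (by omega)
    rw [mul_zero, pow_zero]
    refine one_div_le_one_div_of_le (by norm_num) ?_
    rw [pow_zero] at h1; rw [pow_one] at h2
    nlinarith
  · simpa using dualW_base
  · intro v hv
    have h1 := hb.pow_mono (a := 0) (b := D1 + 4) (Nat.zero_le _)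
    rw [pow_zero] at h1
    refine (kashin_base v hv).trans (mul_le_mul_of_nonneg_right ?_ (sq_nonneg _))
    rw [mul_zero, pow_zero, div_one]
    exact pow_le_pow_left₀ zero_le_one h1 2
  · intro σ l
    exact (spread_base σ l).trans
      (mul_le_mul_of_nonneg_right (by positivity) (nsq_nonneg _))
  · simpa using dec0_base
  · refine ⟨∅, MeasurableSet.empty, by simp, fun χ _ => ?_⟩
    have hlam : W.lam ≤ 1 / (N : ℝ) ^ s := by
      rw [hl]
      refine (hb.lam_le (Nat.zero_le r)).trans ?_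
      rw [pow_zero, pow_one]
      exact mul_le_of_le_one_left hd0.le (by linarith)
    set d := 1 / (N : ℝ) ^ s
    refine (dec_base W.lam_pos.le hd0 hlam χ).mono ?_ ?_ ?_
    · rw [pow_zero, pow_one, le_div_iff₀ hd0]; linarith
    · rw [pow_zero, pow_one]
      refine one_div_le_one_div_of_le (by positivity) ?_
      have : d ^ 4 = d * d ^ 3 := by ring
      rw [this]
      exact mul_le_of_le_one_right hd0.le (pow_le_one₀ hd0.le (by linarith))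
    · rw [mul_zero, pow_zero]; linarith

/-- the property delivered by the random matrix lemma -/
def HasRM (Cm : ℕ) : Prop :=
  ∀ (N h m : ℕ) (ι κ : Type) [Fintype ι] [DecidableEq ι] [Fintype κ] (B : ι → κ → ℤ),
    Cm ≤ N → 0 < h → Fintype.card ι ≤ 2 ^ N → (∀ l i, |B l i| ≤ Cm) →
    Cm * N * (h * N + Fintype.card κ) ≤ Fintype.card ι → Cm * N * m ≤ h * N →
    ∃ A : ι → Fin (h * N) → ℤ, RMP A B Cm (Cm * N) m

theorem ind_num_pi {x B Γ kap : ℝ} {D1 t E j u : ℕ} (hx : 12800 ≤ x) (hB0 : 0 ≤ B)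
    (hB : B ≤ x ^ 2) (hΓ0 : 0 ≤ Γ) (hΓ : Γ ≤ x ^ (D1 + 3)) (hk0 : 0 ≤ kap)
    (hk : kap ≤ x ^ (t + 1)) (hu : E + 1 ≤ u) :
    x ^ (E * (j + 1)) / (x ^ E * x ^ (3 * D1 + 16 + t)) *
      (1 / (x ^ u * (x ^ (E * j) / (x ^ E * x ^ (3 * D1 + 16 + t)))) +
        8 * B * (B + 2 + Γ * B) * x ^ D1 * kap * (x ^ (D1 + 4) / x ^ (E * j))) ≤ 1 := by
  have h0 : 0 < x := by linarith
  have h1 : 1 ≤ x := by linarith
  have pm : ∀ {a b : ℕ}, a ≤ b → x ^ a ≤ x ^ b := fun h => pow_le_pow_right₀ h1 h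
  have e1 : x ^ (E * (j + 1)) / (x ^ E * x ^ (3 * D1 + 16 + t)) *
      (1 / (x ^ u * (x ^ (E * j) / (x ^ E * x ^ (3 * D1 + 16 + t))))) = x ^ E / x ^ u := by
    rw [mul_add E, mul_one, pow_add x (E * j)]; field_simp
  have e2 : x ^ (E * (j + 1)) / (x ^ E * x ^ (3 * D1 + 16 + t)) *
      (8 * B * (B + 2 + Γ * B) * x ^ D1 * kap * (x ^ (D1 + 4) / x ^ (E * j))) =
      8 * B * (B + 2 + Γ * B) * x ^ D1 * kap * x ^ (D1 + 4) / x ^ (3 * D1 + 16 + t) := by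
    rw [mul_add E, mul_one, pow_add x (E * j)]; field_simp
  rw [mul_add, e1, e2]
  have f1 : x ^ E / x ^ u ≤ 1 / 2 := by
    rw [div_le_iff₀ (by positivity)]
    have := pm hu
    rw [pow_succ] at this
    nlinarith [pow_pos h0 E]
  have g1 : B + 2 + Γ * B ≤ 3 * x ^ (D1 + 5) := by
    have a1 : B ≤ x ^ (D1 + 5) := hB.trans (pm (by omega))
    have a2 : x ^ 1 ≤ x ^ (D1 + 5) := pm (by omega)
    have a3 : Γ * B ≤ x ^ (D1 + 3) * x ^ 2 := mul_le_mul hΓ hB hB0 (by positivity)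
    rw [← pow_add] at a3
    rw [pow_one] at a2
    linarith
  have f2 : 8 * B * (B + 2 + Γ * B) * x ^ D1 * kap * x ^ (D1 + 4) / x ^ (3 * D1 + 16 + t) ≤
      1 / 2 := by
    rw [div_le_iff₀ (by positivity)]
    calc 8 * B * (B + 2 + Γ * B) * x ^ D1 * kap * x ^ (D1 + 4)
        ≤ 8 * x ^ 2 * (3 * x ^ (D1 + 5)) * x ^ D1 * x ^ (t + 1) * x ^ (D1 + 4) := by gcongr
      _ = 24 * x ^ (3 * D1 + 12 + t) := by ring
      _ ≤ 1 / 2 * (x * x ^ (3 * D1 + 12 + t)) := by nlinarith [pow_pos h0 (3 * D1 + 12 + t)]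
      _ ≤ 1 / 2 * x ^ (3 * D1 + 16 + t) := by
        rw [← pow_succ']; exact mul_le_mul_of_nonneg_left (pm (by omega)) (by norm_num)
  linarith

theorem ind_num_eq {x M K Q τ : ℝ} {D1 t r : ℕ} (K' : ℕ) (hK' : (K' : ℝ) = K) (hx : 12800 ≤ x)
    (hQ0 : 0 ≤ Q) (hQ : Q ≤ Real.exp x) (hτ : 1 / x ^ t ≤ τ) (hK : K * x ^ D1 ≤ r * M)
    (hr : 6400 * (r : ℝ) ≤ x) (hD : 2 * t + 6 ≤ D1) (hM : x ^ (2 * t + 3) ≤ M) :
    Q ^ (2 * K') * Real.exp (-(τ ^ 2 * M / 500)) ≤ Real.exp (-x ^ 2) := by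
  have h0 : 0 < x := by linarith
  have h1 : 1 ≤ x := by linarith
  have hK0 : 0 ≤ K := hK' ▸ Nat.cast_nonneg _
  have hM0 : 0 ≤ M := le_trans (by positivity) hM
  have a1 : Q ^ (2 * K') ≤ Real.exp (2 * K * x) := by
    refine (pow_le_pow_left₀ hQ0 hQ _).trans (le_of_eq ?_)
    rw [← Real.exp_nat_mul]; push_cast; rw [hK']
  have a2 : M / x ^ (2 * t) ≤ τ ^ 2 * M := by
    have : (1 / x ^ t) ^ 2 ≤ τ ^ 2 := pow_le_pow_left₀ (by positivity) hτ 2
    calc M / x ^ (2 * t) = (1 / x ^ t) ^ 2 * M := by rw [mul_comm 2 t, pow_mul]; field_simp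
      _ ≤ _ := mul_le_mul_of_nonneg_right this hM0
  have a3 : x ^ 3 ≤ M / x ^ (2 * t) := by
    rw [le_div_iff₀ (by positivity), ← pow_add, add_comm]; exact hM
  have a4 : 2000 * K * x ≤ M / x ^ (2 * t) := by
    rw [le_div_iff₀ (by positivity)]
    have b1 : x ^ (2 * t + 2) ≤ x ^ D1 := pow_le_pow_right₀ h1 (by omega)
    have b2 : K * x ^ (2 * t + 2) ≤ r * M := (mul_le_mul_of_nonneg_left b1 hK0).trans hK
    have b3 : (2000 * K * x * x ^ (2 * t)) * x ≤ M * x := by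
      calc (2000 * K * x * x ^ (2 * t)) * x = 2000 * (K * x ^ (2 * t + 2)) := by ring
        _ ≤ 2000 * (r * M) := by linarith
        _ = M * (2000 * r) := by ring
        _ ≤ M * x := mul_le_mul_of_nonneg_left (by linarith [Nat.cast_nonneg (α := ℝ) r]) hM0
    exact le_of_mul_le_mul_right b3 h0
  have a5 : 1000 * x ^ 2 ≤ x ^ 3 := by nlinarith [sq_nonneg x]
  calc Q ^ (2 * K') * Real.exp (-(τ ^ 2 * M / 500))
      ≤ Real.exp (2 * K * x) * Real.exp (-(τ ^ 2 * M / 500)) := by gcongr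
    _ = Real.exp (2 * K * x - τ ^ 2 * M / 500) := by rw [← Real.exp_add]; ring_nf
    _ ≤ _ := Real.exp_le_exp.2 (by linarith)

theorem bad_succ {Cm r s t D1 E N : ℕ} {κ1 : ℝ} (hb : Big Cm r s t D1 E N κ1) (W : Win)
    (hl : W.lam = 1 / (N : ℝ) ^ t) {j : ℕ} (hj : j + 1 ≤ r) {ι κ : Type} [Fintype ι]
    [DecidableEq ι] [Fintype κ] {B : ι → κ → ℤ} {k m : ℕ}
    {A : Fin (N ^ (2 * E)) × ι → Fin k → ℤ} (hA : RMP A (blk B) Cm (Cm * N) m)
    (hent : ∀ l i, |B l i| ≤ Cm) (hk0 : 0 < k) (hkM : k * N ^ D1 = N ^ (2 * E * (j + 1)))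
    (hM' : Fintype.card (Fin (N ^ (2 * E)) × ι) = N ^ (2 * E * (j + 1)))
    (hκ' : Fintype.card (Fin (N ^ (2 * E)) × κ) * N ^ D1 ≤ j * N ^ (2 * E * (j + 1)))
    (hMN : N ^ (2 * E * (j + 1)) * N ^ (t + 1) ≤ 2 ^ N)
    (hbad : ∃ Bad : Set (ι → ℝ), MeasurableSet Bad ∧ W.piNu ι Bad ≤
      ENNReal.ofReal (j * (N : ℝ) ^ (2 * E * j) * Real.exp (-(N : ℝ) ^ 2)) ∧
      ∀ χ ∉ Bad, Dec B W.lam (1 / (1 / (N : ℝ) ^ s) ^ 7 ^ j)
        (1 / ((1 / (N : ℝ) ^ s) ^ 7 ^ j) ^ 4) ((N : ℝ) ^ (3 * j) * (300 * (1 / (N : ℝ) ^ s))) χ) :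
    ∃ Bad : Set (Fin (N ^ (2 * E)) × ι → ℝ), MeasurableSet Bad ∧ W.piNu _ Bad ≤
      ENNReal.ofReal ((j + 1 : ℕ) * (N : ℝ) ^ (2 * E * (j + 1)) * Real.exp (-(N : ℝ) ^ 2)) ∧
      ∀ χ ∉ Bad, Dec (stp A B) W.lam (1 / (1 / (N : ℝ) ^ s) ^ 7 ^ (j + 1))
        (1 / ((1 / (N : ℝ) ^ s) ^ 7 ^ (j + 1)) ^ 4)
        ((N : ℝ) ^ (3 * (j + 1)) * (300 * (1 / (N : ℝ) ^ s))) χ := by
  have hN := hb.big
  have h0 : (0 : ℝ) < N := by linarith
  have h1 := hb.one_le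
  have hN0 : 0 < N := by exact_mod_cast h0
  have hD1 := hb.hD1
  have hE := hb.hE
  have hrN : r ≤ N := by have := hb.rN; omega
  have hkle : k ≤ Fintype.card (Fin (N ^ (2 * E)) × ι) := by
    rw [hM', ← hkM]; exact Nat.le_mul_of_pos_right _ (by positivity)
  have hkR : (0 : ℝ) < k := by exact_mod_cast hk0
  have hMk : (Fintype.card (Fin (N ^ (2 * E)) × ι) : ℝ) = k * (N : ℝ) ^ D1 := by
    rw [hM', ← hkM]; push_cast; rfl
  have hCmN : (Cm : ℝ) ≤ N := by exact_mod_cast hb.cmN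
  have hB1 := hb.B1
  have hB3 := hb.B3
  have hrR := hb.rR
  obtain ⟨Bad, hBm, hBμ, hBd⟩ := hbad
  set d := 1 / (N : ℝ) ^ s with hd
  have hd0 : 0 < d := by positivity
  have hd3 := hb.d_le
  set c := d ^ 7 ^ j with hc
  have hc0 : 0 < c := by positivity
  have hc7 : d ^ 7 ^ (j + 1) = c ^ 7 := by rw [hc, ← pow_mul, pow_succ]
  have hcd : c ≤ d := by
    rw [hc]
    exact pow_le_of_le_one hd0.le (by linarith) (by positivity)
  have hlam : W.lam ≤ d * c ^ 7 := by rw [hl, ← hc7]; exact hb.lam_le hj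
  have hc71 : c ^ 7 ≤ 1 := pow_le_one₀ hc0.le (by linarith)
  have hτ1 : d * c ^ 7 ≤ 1 := by nlinarith [pow_pos hc0 7]
  have hcardκ : Fintype.card (Fin k ⊕ Fin (N ^ (2 * E)) × κ) * N ^ D1 ≤
      r * N ^ (2 * E * (j + 1)) := by
    rw [Fintype.card_sum, Fintype.card_fin, add_mul, hkM]
    calc _ ≤ N ^ (2 * E * (j + 1)) + j * N ^ (2 * E * (j + 1)) := Nat.add_le_add_left hκ' _
      _ = (j + 1) * N ^ (2 * E * (j + 1)) := by ring
      _ ≤ _ := Nat.mul_le_mul_right _ hj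
  have hcardκ' : Fintype.card (Fin k ⊕ Fin (N ^ (2 * E)) × κ) ≤ N ^ (2 * E * (j + 1)) := by
    refine Nat.le_of_mul_le_mul_right (c := N ^ D1) (hcardκ.trans ?_) (by positivity)
    rw [mul_comm]
    refine Nat.mul_le_mul_left _ (hrN.trans ?_)
    exact Nat.le_self_pow (by omega) N
  obtain ⟨BE, hEm, hEμ, hEd⟩ := eqd_prob W (stp A B) (ent_step hA hent) hlam hτ1
    (N ^ (2 * E * (j + 1)) * N ^ (t + 1)) (by positivity) (by
      have a1 : (Fintype.card (Fin k ⊕ Fin (N ^ (2 * E)) × κ) : ℝ) ≤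
          (N : ℝ) ^ (2 * E * (j + 1)) := by exact_mod_cast hcardκ'
      calc (Cm : ℝ) * Fintype.card (Fin k ⊕ Fin (N ^ (2 * E)) × κ)
          ≤ N * (N : ℝ) ^ (2 * E * (j + 1)) := by gcongr
        _ = W.lam * ((N ^ (2 * E * (j + 1)) * N ^ (t + 1) : ℕ) : ℝ) := by
          rw [hl]; push_cast; field_simp; ring
        _ ≤ _ := by gcongr)
  obtain ⟨hUm, hUμ⟩ := bad_blocks (β := Fin (N ^ (2 * E))) W Bad hBm (by positivity) hBμ
  refine ⟨BE ∪ {χ | ∃ b, (fun l => χ (b, l)) ∈ Bad}, hEm.union hUm, ?_, fun χ hχ => ?_⟩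
  · refine (measure_union_le _ _).trans ((add_le_add hEμ hUμ).trans ?_)
    rw [← ENNReal.ofReal_add (by positivity) (by positivity)]
    refine ENNReal.ofReal_le_ofReal ?_
    have a1 := ind_num_eq (x := N) (M := (N : ℝ) ^ (2 * E * (j + 1)))
      (Q := ((N ^ (2 * E * (j + 1)) * N ^ (t + 1) : ℕ) : ℝ)) (τ := d * c ^ 7) (D1 := D1)
      (t := t) (r := r) (Fintype.card (Fin k ⊕ Fin (N ^ (2 * E)) × κ)) rfl hN (by positivity)
      (by
        have b1 : ((N ^ (2 * E * (j + 1)) * N ^ (t + 1) : ℕ) : ℝ) ≤ 2 ^ N := by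
          exact_mod_cast hMN
        refine b1.trans ?_
        rw [← Real.exp_one_pow]
        exact pow_le_pow_left₀ (by norm_num) (by linarith [Real.add_one_le_exp 1]) _)
      (hl ▸ hlam) (by exact_mod_cast hcardκ) hrR (by omega)
      (hb.pow_mono (by nlinarith))
    rw [hM', Fintype.card_fin]
    push_cast at a1 ⊢
    have a2 : (1 : ℝ) ≤ (N : ℝ) ^ (2 * E * (j + 1)) := one_le_pow₀ h1
    have a3 : (N : ℝ) ^ (2 * E) * (j * (N : ℝ) ^ (2 * E * j) * Real.exp (-(N : ℝ) ^ 2)) =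
        j * (N : ℝ) ^ (2 * E * (j + 1)) * Real.exp (-(N : ℝ) ^ 2) := by ring
    rw [a3]
    nlinarith [Real.exp_pos (-(N : ℝ) ^ 2)]
  · rw [Set.mem_union, not_or] at hχ
    have hη : (k : ℝ) / Fintype.card (Fin (N ^ (2 * E)) × ι) ≤ c ^ 7 := by
      rw [hMk, div_mul_cancel_left₀ hkR.ne', ← one_div]
      have a1 : 1 / (N : ℝ) ^ D1 ≤ 1 / (N : ℝ) ^ t :=
        one_div_le_one_div_of_le (by positivity) (hb.pow_mono (by omega))
      refine a1.trans ((hl ▸ hlam).trans ?_)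
      exact mul_le_of_le_one_left (by positivity) (by linarith)
    have hxd : (N : ℝ) ^ 3 * d ≤ 1 := by
      rw [hd, mul_one_div, div_le_one (by positivity)]
      exact hb.pow_mono (by have := hb.s5; omega)
    have he : 300 * d ≤ (N : ℝ) ^ (3 * j) * (300 * d) :=
      le_mul_of_one_le_left (by positivity) (one_le_pow₀ h1)
    obtain ⟨n1, n2, n3, n4, n5, n6⟩ := ind_num_dec hc0 hcd hd3 h1 hxd hB1 hB3 hη he
    have e3 : (N : ℝ) ^ (3 * (j + 1)) * (300 * d) =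
        (N : ℝ) ^ 3 * ((N : ℝ) ^ (3 * j) * (300 * d)) := by ring
    rw [hc7, e3]
    exact dec_step hA hB1 hk0 hkle (by positivity) hτ1 (by positivity) n1 (by positivity)
      (by positivity) (by positivity) χ
      (fun b => hBd _ fun hb' => hχ.2 ⟨b, hb'⟩) (hEd χ hχ.1) le_rfl n2 n3 n4 n5 n6

theorem level_succ {Cm r s t D1 E N : ℕ} {κ1 : ℝ} (hb : Big Cm r s t D1 E N κ1) (hRM : HasRM Cm)
    (W : Win) (hl : W.lam = 1 / (N : ℝ) ^ t) (hk : W.kap = κ1 / W.lam) {j : ℕ} (hj : j + 1 ≤ r)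
    (h : LevelOk W Cm s t D1 E N j) : LevelOk W Cm s t D1 E N (j + 1) := by
  obtain ⟨ι, κ, _, _, _, B, hι, hκ, -, hI⟩ := h
  have hN := hb.big
  have h0 : (0 : ℝ) < N := by linarith
  have h1 := hb.one_le
  have hN0 : 0 < N := by exact_mod_cast h0
  have hD1 := hb.hD1
  have hE := hb.hE
  obtain ⟨u, hu⟩ : ∃ u, 2 * E = D1 + 2 + u := ⟨2 * E - (D1 + 2), by omega⟩
  have huE : E + 1 ≤ u := by omega
  have hM' : Fintype.card (Fin (N ^ (2 * E)) × ι) = N ^ (2 * E * (j + 1)) := by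
    rw [Fintype.card_prod, Fintype.card_fin, hι, ← pow_add]; congr 1; ring
  have hkM : N ^ (u + 1) * N ^ (2 * E * j) * N * N ^ D1 = N ^ (2 * E * (j + 1)) := by
    rw [mul_add, mul_one, pow_add N (2 * E * j), hu]; ring
  have hκ' : Fintype.card (Fin (N ^ (2 * E)) × κ) * N ^ D1 ≤ j * N ^ (2 * E * (j + 1)) := by
    rw [Fintype.card_prod, Fintype.card_fin, mul_assoc]
    refine (Nat.mul_le_mul_left _ hκ).trans (le_of_eq ?_)
    rw [mul_add, mul_one, pow_add]; ring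
  have hrN : r ≤ N := by have := hb.rN; omega
  have hMN : N ^ (2 * E * (j + 1)) * N ^ (t + 1) ≤ 2 ^ N := by
    refine le_trans ?_ hb.pw
    rw [← pow_add]
    refine Nat.pow_le_pow_right hN0 ?_
    have : 2 * E * (j + 1) ≤ 2 * E * r := Nat.mul_le_mul_left _ hj
    omega
  have hex := hRM N (N ^ (u + 1) * N ^ (2 * E * j)) (N ^ u * N ^ (2 * E * j))
    (Fin (N ^ (2 * E)) × ι) (Fin (N ^ (2 * E)) × κ) (blk B) hb.cmN (by positivity)
    (by rw [hM']; exact le_trans (Nat.le_mul_of_pos_right _ (by positivity)) hMN)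
    (abs_blk_le B hI.ent)
    (by
      rw [hM']
      refine Nat.le_of_mul_le_mul_right (c := N ^ D1) ?_ (by positivity)
      have a1 : Cm * N * (j + 1) ≤ N ^ D1 := by
        calc Cm * N * (j + 1) ≤ N * N * N := by
              have := hb.cmN
              exact Nat.mul_le_mul (Nat.mul_le_mul_right _ this) (hj.trans hrN)
          _ = N ^ 3 := by ring
          _ ≤ _ := Nat.pow_le_pow_right hN0 (by omega)
      calc Cm * N * (N ^ (u + 1) * N ^ (2 * E * j) * N +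
            Fintype.card (Fin (N ^ (2 * E)) × κ)) * N ^ D1
          = Cm * N * (N ^ (u + 1) * N ^ (2 * E * j) * N * N ^ D1 +
            Fintype.card (Fin (N ^ (2 * E)) × κ) * N ^ D1) := by ring
        _ ≤ Cm * N * (N ^ (2 * E * (j + 1)) + j * N ^ (2 * E * (j + 1))) := by
            rw [hkM]; gcongr
        _ = N ^ (2 * E * (j + 1)) * (Cm * N * (j + 1)) := by ring
        _ ≤ _ := Nat.mul_le_mul_left _ a1)
    (by
      have := hb.cmN
      calc Cm * N * (N ^ u * N ^ (2 * E * j)) ≤ N * N * (N ^ u * N ^ (2 * E * j)) := by gcongr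
        _ = _ := by ring)
  obtain ⟨k, hk0, hkM, A, hA⟩ : ∃ k : ℕ, 0 < k ∧ k * N ^ D1 = N ^ (2 * E * (j + 1)) ∧
      ∃ A : Fin (N ^ (2 * E)) × ι → Fin k → ℤ,
        RMP A (blk B) Cm (Cm * N) (N ^ u * N ^ (2 * E * j)) := ⟨_, by positivity, hkM, hex⟩
  have hkle : k ≤ Fintype.card (Fin (N ^ (2 * E)) × ι) := by
    rw [hM', ← hkM]; exact Nat.le_mul_of_pos_right _ (by positivity)
  have hkR : (0 : ℝ) < k := by exact_mod_cast hk0
  have hMk : (Fintype.card (Fin (N ^ (2 * E)) × ι) : ℝ) = k * (N : ℝ) ^ D1 := by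
    rw [hM', ← hkM]; push_cast; rfl
  have hCm1 : (1 : ℝ) ≤ Cm := by exact_mod_cast hb.cm1
  have hCmN : (Cm : ℝ) ≤ N := by exact_mod_cast hb.cmN
  have hB1 := hb.B1
  have hB2 : (Cm : ℝ) * N ≤ (N : ℝ) ^ 2 := by nlinarith
  have hB3 := hb.B3
  have hrR := hb.rR
  have hjr : (j : ℝ) + 1 ≤ r := by exact_mod_cast hj
  have hm0 : 0 < N ^ u * N ^ (2 * E * j) := by positivity
  refine ⟨Fin (N ^ (2 * E)) × ι, Fin k ⊕ Fin (N ^ (2 * E)) × κ, inferInstance, inferInstance,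
    inferInstance, stp A B, hM', ?_, fun _ l => row_step hA hk0 hm0 l,
    ⟨ent_step hA hI.ent, ?_, ?_, ?_, ?_, ?_, ?_⟩⟩
  · rw [Fintype.card_sum, Fintype.card_fin, add_mul, hkM, add_mul, one_mul, add_comm]
    exact Nat.add_le_add_right hκ' _
  · refine pi_step W A B hA (by linarith) hk0 hkle (m' := N ^ u) (by positivity) (by rw [hι])
      (by positivity) hI.pi (by positivity) hI.dual (by positivity) hI.kash (by positivity) ?_
    rw [hMk, mul_div_cancel_left₀ _ hkR.ne', Nat.cast_pow]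
    refine ind_num_pi hN (by positivity) hB2 (by positivity) ?_ (by linarith [W.one_le_kap]) ?_
      huE
    · calc 4 * (j : ℝ) * (Cm * N) * (N : ℝ) ^ D1 ≤ N * (N : ℝ) ^ 2 * (N : ℝ) ^ D1 := by
            gcongr; linarith
        _ = _ := by ring
    · rw [hk, hl, div_div_eq_mul_div, div_one, pow_succ']
      exact mul_le_mul_of_nonneg_right hb.kap (by positivity)
  · refine dualW_step hA (by linarith) hk0 hkle hI.dual (le_of_eq ?_)
    rw [hMk]; push_cast; field_simp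
  · refine kashin_step hA (by linarith) hk0 hkle hm0 ?_
    have e1 : ((N : ℝ) ^ (D1 + 4) / (N : ℝ) ^ (E * (j + 1))) ^ 2 =
        (N : ℝ) ^ (D1 + 6) / ((N ^ u * N ^ (2 * E * j) : ℕ) : ℝ) := by
      rw [div_pow, ← pow_mul, ← pow_mul, show E * (j + 1) * 2 = 2 * E * j + 2 * E by ring, hu]
      push_cast; field_simp; ring
    rw [e1, hMk]
    refine div_le_div_of_nonneg_right ?_ (by positivity)
    have e2 : 2 * ((Cm : ℝ) * N) ^ 2 * (k * (N : ℝ) ^ D1) / k =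
        2 * ((Cm : ℝ) * N) ^ 2 * (N : ℝ) ^ D1 := by field_simp
    rw [e2]
    have a1 : (1 : ℝ) ≤ (N : ℝ) ^ 3 * (N : ℝ) ^ D1 := by
      rw [← pow_add]; exact one_le_pow₀ h1
    have a2 : 2 * ((N : ℝ) ^ 3 * (N : ℝ) ^ D1) ≤ (N : ℝ) ^ (D1 + 6) := by
      calc 2 * ((N : ℝ) ^ 3 * (N : ℝ) ^ D1) ≤ N * ((N : ℝ) ^ 3 * (N : ℝ) ^ D1) := by
            gcongr; linarith
        _ = (N : ℝ) ^ (D1 + 4) := by ring
        _ ≤ _ := hb.pow_mono (by omega)
    nlinarith [pow_pos h0 D1, mul_le_mul_of_nonneg_right hB3 (pow_pos h0 D1).le]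
  · refine spread_step hA hB1 hk0 hkle (by positivity) hI.spread ?_
    rw [hMk]
    have e1 : 2 * (Cm : ℝ) ^ 2 * (Cm * N) * k / (k * (N : ℝ) ^ D1) =
        2 * (Cm : ℝ) ^ 2 * (Cm * N) / (N : ℝ) ^ D1 := by field_simp
    rw [e1, ← mul_div_assoc, ← add_div]
    refine div_le_div_of_nonneg_right ?_ (by positivity)
    have a1 : (N : ℝ) ^ 2 ≤ (N : ℝ) ^ (3 * j + 2) := hb.pow_mono (by omega)
    have a2 : (N : ℝ) ^ (3 * (j + 1) + 2) = (N : ℝ) ^ 3 * (N : ℝ) ^ (3 * j + 2) := by ring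
    have a3 : (Cm : ℝ) ^ 2 * (Cm * N) ≤ (N : ℝ) ^ (3 * j + 2) * (Cm * N) ^ 2 := by
      refine mul_le_mul ((pow_le_pow_left₀ (by positivity) hCmN 2).trans a1) (by nlinarith)
        (by positivity) (by positivity)
    rw [a2]
    nlinarith [mul_le_mul_of_nonneg_right hB3 (pow_pos h0 (3 * j + 2)).le,
      mul_nonneg (pow_pos h0 (3 * j + 2)).le (sq_nonneg ((Cm : ℝ) * N))]
  · refine dec0_step hA hB1 hk0 hkle (one_le_pow₀ h1) hI.dec0 ?_
    rw [mul_add, mul_one, pow_add, mul_comm ((N : ℝ) ^ (3 * j))]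
    exact mul_le_mul_of_nonneg_right (by nlinarith [sq_nonneg ((Cm : ℝ) * N)]) (by positivity)
  · exact bad_succ hb W hl hj hA hI.ent hk0 hkM hM' hκ' hMN hI.bad

theorem Core.mono {V ι : Type} [Fintype V] [DecidableEq V] [Fintype ι] {μ : V → ℝ}
    {w : V → V → ℝ} {x : V → ι → ℝ} {Gd : Finset V} {G Wt δ ε C0 Wt' ε' : ℝ}
    (h : Core μ w x Gd G Wt δ ε C0) (hW : Wt ≤ Wt') (hε : ε ≤ ε') :
    Core μ w x Gd G Wt' δ ε' C0 :=
  { h with
    tot := h.tot.trans hW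
    bad := fun Bd s hs => (h.bad Bd s hs).trans (mul_le_mul_of_nonneg_right hW
      (add_nonneg (mul_nonneg hs.le (sum_nonneg fun v _ => h.mu_nonneg v)) (by positivity)))
    tri1 := fun u hu v hv y hy => (h.tri1 u hu v hv y hy).trans (mul_le_mul_of_nonneg_right hε
      (add_nonneg (nsq_nonneg _) (nsq_nonneg _))) }

theorem ind_pow_le (p : ℕ) : ∃ N0 : ℕ, ∀ N : ℕ, N0 ≤ N → N ^ p ≤ 2 ^ N := by
  have h := (tendsto_pow_const_div_const_pow_of_one_lt p (r := 2) one_lt_two).eventually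
    (gt_mem_nhds one_pos)
  obtain ⟨N0, h⟩ := Filter.eventually_atTop.1 h
  refine ⟨N0, fun N hN => ?_⟩
  have := h N hN
  rw [div_lt_one (by positivity)] at this
  exact_mod_cast this.le

theorem ind_two_pow (N : ℕ) : (2 : ℝ) ^ N ≤ Real.exp N := by
  rw [← Real.exp_one_pow]
  exact pow_le_pow_left₀ (by norm_num) (by linarith [Real.add_one_le_exp 1]) _

theorem exists_core (r s : ℕ) (hr : 1 ≤ r) (hs : 5 ≤ s) :
    ∃ D : ℕ, ∀ E : ℕ, D ≤ E → ∃ N0 : ℕ, ∀ N : ℕ, N0 ≤ N →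
    ∃ (V ι : Type) (_ : Fintype V) (_ : DecidableEq V) (_ : Fintype ι) (μ : V → ℝ)
      (w : V → V → ℝ) (x : V → ι → ℝ) (Gd : Finset V),
      Fintype.card ι = N ^ (2 * E * r) ∧
      Core μ w x Gd ((N : ℝ) ^ (E * (r - 1)) / (N : ℝ) ^ D) ((N : ℝ) ^ D * Fintype.card ι)
        (1 / (6400 * (Fintype.card ι : ℝ) ^ 2)) ((N : ℝ) ^ (3 * r + 1) / (N : ℝ) ^ s)
        (2 * (N : ℝ) ^ (3 * r)) ∧
      (Fintype.card V : ℝ) ≤ Real.exp (N * Fintype.card ι) := by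
  obtain ⟨Cm, hCm, hRM⟩ := exists_rmp
  obtain ⟨κ1, hκ1, hW⟩ := exists_win
  obtain ⟨t, ht⟩ : ∃ t, t = s * (7 ^ r + 1) := ⟨_, rfl⟩
  obtain ⟨D1, hD1⟩ : ∃ D1, D1 = 2 * t + 3 * r + 6 := ⟨_, rfl⟩
  refine ⟨3 * D1 + 16 + t, fun E hE => ?_⟩
  obtain ⟨N1, hN1⟩ := ind_pow_le (2 * E * r + t + 2)
  refine ⟨max (max N1 ⌈κ1⌉₊) (max (19 * Cm ^ 2) (6400 * (r + 2))), fun N hN => ?_⟩
  simp only [max_le_iff] at hN
  have hb : Big Cm r s t D1 E N κ1 :=
    ⟨hN.2.1, hCm, hN.2.2, Nat.ceil_le.1 hN.1.2, hN1 N hN.1.1, hs, ht, hD1, by omega⟩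
  have hNb := hb.big
  have h0 : (0 : ℝ) < N := by linarith
  have h1 := hb.one_le
  have hN0 : 0 < N := by exact_mod_cast h0
  have ht1 : 1 ≤ t := by rw [ht]; nlinarith [Nat.zero_le (7 ^ r)]
  obtain ⟨W, hl, hk⟩ := hW (1 / (N : ℝ) ^ t) (by positivity) (by
    have := hb.pow_mono ht1
    exact one_div_le_one_div_of_le (by norm_num) (by linarith [pow_one (N : ℝ)]))
  have hall : ∀ j ≤ r, LevelOk W Cm s t D1 E N j := by
    intro j
    induction j with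
    | zero => exact fun _ => level_zero hb W hl
    | succ j ih => exact fun hj => level_succ hb hRM W hl (hl ▸ hk) hj (ih (by omega))
  obtain ⟨ι, κ, _, _, _, A, hι, hκ, hrow, hI⟩ := hall r le_rfl
  have hM : (Fintype.card ι : ℝ) = (N : ℝ) ^ (2 * E * r) := by rw [hι]; push_cast; rfl
  have hM1 : (1 : ℝ) ≤ Fintype.card ι := by rw [hM]; exact one_le_pow₀ h1
  have hM2 : (Fintype.card ι : ℝ) * (N : ℝ) ^ 2 ≤ Real.exp N := by
    refine le_trans ?_ (ind_two_pow N)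
    have : (N : ℝ) ^ (2 * E * r + t + 2) ≤ 2 ^ N := by exact_mod_cast hb.pw
    rw [hM, ← pow_add]
    exact (hb.pow_mono (by omega)).trans this
  have hMe : (Fintype.card ι : ℝ) ≤ Real.exp N :=
    (le_mul_of_one_le_right (by positivity) (one_le_pow₀ h1)).trans hM2
  obtain ⟨V, _, _, μ, w, x, Gd, hc, hV⟩ := core_of_inv W A
    (δ' := 1 / (6400 * (Fintype.card ι : ℝ) ^ 2)) hI (by positivity) (hrow hr) (by positivity)
    (by positivity) (by
      have a1 : Real.exp (-(W.lam ^ 2 / (8 * ((N : ℝ) ^ (3 * r + 2) / (N : ℝ) ^ D1)))) ≤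
          Real.exp (-(N : ℝ) ^ 2) := by
        have : W.lam ^ 2 / (8 * ((N : ℝ) ^ (3 * r + 2) / (N : ℝ) ^ D1)) = (N : ℝ) ^ 4 / 8 := by
          rw [hl, hD1]; field_simp; ring
        rw [this]
        refine Real.exp_le_exp.2 (neg_le_neg ?_)
        nlinarith [mul_le_mul_of_nonneg_left (show (8 : ℝ) ≤ N ^ 2 by nlinarith) (sq_nonneg (N : ℝ))]
      have a2 : 6400 * ((r : ℝ) + 2) ≤ Real.exp N := by
        have : 6400 * ((r : ℝ) + 2) ≤ N := by exact_mod_cast hb.rN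
        linarith [Real.add_one_le_exp (N : ℝ)]
      have a3 : 6400 * ((r : ℝ) + 2) * (Fintype.card ι : ℝ) ^ 3 ≤ Real.exp ((N : ℝ) ^ 2) := by
        calc 6400 * ((r : ℝ) + 2) * (Fintype.card ι : ℝ) ^ 3
            ≤ Real.exp N * Real.exp N ^ 3 := by gcongr
          _ = Real.exp (4 * N) := by rw [← pow_succ', ← Real.exp_nat_mul]; norm_num
          _ ≤ _ := Real.exp_le_exp.2 (by nlinarith)
      rw [← hM, le_div_iff₀ (by positivity)]
      calc _ ≤ (r * Fintype.card ι * Real.exp (-(N : ℝ) ^ 2) +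
            2 * Fintype.card ι * Real.exp (-(N : ℝ) ^ 2)) * (6400 * (Fintype.card ι : ℝ) ^ 2) := by
            gcongr
        _ = 6400 * ((r : ℝ) + 2) * (Fintype.card ι : ℝ) ^ 3 * Real.exp (-(N : ℝ) ^ 2) := by ring
        _ ≤ Real.exp ((N : ℝ) ^ 2) * Real.exp (-(N : ℝ) ^ 2) := by gcongr
        _ = 1 := by rw [← Real.exp_add]; simp)
    (one_div_le_one_div_of_le (by norm_num) (by nlinarith))
  refine ⟨V, ι, inferInstance, inferInstance, inferInstance, μ, w, x, Gd, hι, ?_, ?_⟩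
  · have e1 : (N : ℝ) ^ (E * (r - 1)) / (N : ℝ) ^ (3 * D1 + 16 + t) =
        (N : ℝ) ^ (E * r) / ((N : ℝ) ^ E * (N : ℝ) ^ (3 * D1 + 16 + t)) := by
      obtain ⟨r', rfl⟩ : ∃ r', r = r' + 1 := ⟨r - 1, by omega⟩
      rw [Nat.add_sub_cancel, mul_add E, mul_one, pow_add (N : ℝ) (E * r')]
      field_simp
    rw [e1]
    refine hc.mono (mul_le_mul_of_nonneg_right ?_ (by positivity)) ?_
    · rw [hk, div_div_eq_mul_div, div_one]
      calc κ1 * (N : ℝ) ^ t ≤ N * (N : ℝ) ^ t := by gcongr; exact hb.kap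
        _ = (N : ℝ) ^ (t + 1) := by ring
        _ ≤ _ := hb.pow_mono (by omega)
    · rw [mul_one_div, ← mul_div_assoc, pow_succ]
      gcongr; linarith
  · have hK : Fintype.card κ ≤ Fintype.card ι := by
      rw [hι]
      refine Nat.le_of_mul_le_mul_right (c := N ^ D1) (hκ.trans ?_) (by positivity)
      rw [mul_comm]
      refine Nat.mul_le_mul_left _ (le_trans ?_ (Nat.le_self_pow (by omega) N))
      have := hb.rN; omega
    have hKR : (Fintype.card κ : ℝ) ≤ Fintype.card ι := by exact_mod_cast hK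
    have hCmN : (Cm : ℝ) ≤ N := by exact_mod_cast hb.cmN
    have a1 : 2 * ((Cm : ℝ) * Fintype.card κ + 4) + 1 ≤ Real.exp N := by
      refine le_trans ?_ hM2
      have b1 : (Cm : ℝ) * Fintype.card κ ≤ N * Fintype.card ι := by gcongr
      have b2 : (1 : ℝ) ≤ N * Fintype.card ι := by nlinarith
      nlinarith [mul_le_mul_of_nonneg_right hNb (show (0 : ℝ) ≤ N * Fintype.card ι by positivity)]
    calc (Fintype.card V : ℝ) ≤ (2 * ((Cm : ℝ) * Fintype.card κ + 4) + 1) ^ Fintype.card ι := by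
          exact_mod_cast hV
      _ ≤ Real.exp N ^ Fintype.card ι := by gcongr
      _ = _ := by rw [← Real.exp_nat_mul, mul_comm]

end Vale.Agent.P318
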