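import Vale.Agent.P318.KernelA

open Finset MeasureTheory

noncomputable section

namespace Vale.Agent.P318

variable {ι κ : Type} [Fintype ι] [DecidableEq ι] [Fintype κ] (W : Win) (A : ι → κ → ℤ)

omit [Fintype ι] [DecidableEq ι] in
theorem kernel_cont {w : (ι → ℝ) → ℝ} (hw : Continuous w) (x : ι → ℝ) :
    Continuous fun t => w (x - mv A t) := hw.comp (continuous_const.sub (continuous_mv A))
omit [DecidableEq ι] in
theorem kernel_cont_int {w : (ι → ℝ) → ℝ} (hw : Continuous w) :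
    Continuous fun x => ∫ t in cube κ, w (x - mv A t) :=
  continuous_integral_cube (G := fun x t => w (x - mv A t))
    (hw.comp (continuous_fst.sub ((continuous_mv A).comp continuous_snd)))
omit [Fintype ι] [DecidableEq ι] in
theorem kernel_exists {w : (ι → ℝ) → ℝ} {x : ι → ℝ} (h : ∫ t in cube κ, w (x - mv A t) ≠ 0) :
    ∃ t ∈ cube κ, w (x - mv A t) ≠ 0 := by
  by_contra hc
  push Not at hc
  exact h (setIntegral_eq_zero_of_forall_eq_zero hc)

theorem tsum_Phi (y : ι → ℝ) : ∑' a : ι → ℤ, W.Phi (zc a - y) = 1 := kernelA_tsum_Phi W y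
theorem pm_nonneg (x : ι → ℝ) : 0 ≤ pm W A x := integral_nonneg fun _ => W.Phi_nonneg _
theorem ew_nonneg (l : ι) (x : ι → ℝ) : 0 ≤ ew W A l x := integral_nonneg fun _ => W.ed_nonneg l _
theorem continuous_pm : Continuous (pm W A) := kernel_cont_int A W.continuous_Phi
theorem continuous_dpm (l : ι) : Continuous (dpm W A l) := kernel_cont_int A (W.continuous_dPhi l)
theorem continuous_ew (l : ι) : Continuous (ew W A l) := kernel_cont_int A (W.continuous_ed l)
theorem exists_of_pm_ne {x : ι → ℝ} (h : pm W A x ≠ 0) :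
    ∃ t ∈ cube κ, W.Phi (x - mv A t) ≠ 0 := kernel_exists A h
theorem exists_of_dpm_ne {l : ι} {x : ι → ℝ} (h : dpm W A l x ≠ 0) :
    ∃ t ∈ cube κ, W.Phi (x - mv A t) ≠ 0 := by
  obtain ⟨t, ht, h1⟩ := kernel_exists A h
  exact ⟨t, ht, fun h0 => h1 (W.dPhi_eq_zero l h0)⟩
theorem exists_of_ew_ne {l : ι} {x : ι → ℝ} (h : ew W A l x ≠ 0) :
    ∃ t ∈ cube κ, W.Phi (x - mv A t) ≠ 0 := by
  obtain ⟨t, ht, h1⟩ := kernel_exists A h
  exact ⟨t, ht, fun h0 => h1 (W.ed_eq_zero l h0)⟩
theorem abs_le_of_Phi_ne {C : ℝ} (hA : ∀ l i, |(A l i : ℝ)| ≤ C) {x : ι → ℝ} {t : κ → ℝ}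
    (ht : t ∈ cube κ) (h : W.Phi (x - mv A t) ≠ 0) (l : ι) :
    |x l| ≤ 1 + C * Fintype.card κ := by
  have h1 : |x l - mv A t l| ≤ 1 := W.abs_le_one_of_Phi_ne h l
  have h2 := abs_mv_le A hA (abs_le_one_of_mem_cube ht) l
  have h3 := abs_add_le (x l - mv A t l) (mv A t l)
  rw [sub_add_cancel] at h3
  linarith
/-- a common support radius of the three kernels -/
theorem exists_supp : ∃ R : ℝ, (∀ x, pm W A x ≠ 0 → ∀ l, |x l| ≤ R) ∧
    (∀ l x, dpm W A l x ≠ 0 → ∀ l', |x l'| ≤ R) ∧ ∀ l x, ew W A l x ≠ 0 → ∀ l', |x l'| ≤ R := by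
  obtain ⟨C, hC⟩ := Finite.exists_le fun p : ι × κ => |(A p.1 p.2 : ℝ)|
  have hA : ∀ l i, |(A l i : ℝ)| ≤ C := fun l i => hC (l, i)
  refine ⟨1 + C * Fintype.card κ, fun x h => ?_, fun l x h => ?_, fun l x h => ?_⟩
  · obtain ⟨t, ht, h1⟩ := exists_of_pm_ne W A h
    exact abs_le_of_Phi_ne W A hA ht h1
  · obtain ⟨t, ht, h1⟩ := exists_of_dpm_ne W A h
    exact abs_le_of_Phi_ne W A hA ht h1
  · obtain ⟨t, ht, h1⟩ := exists_of_ew_ne W A h
    exact abs_le_of_Phi_ne W A hA ht h1
theorem tsum_pm (y : ι → ℝ) : ∑' a : ι → ℤ, pm W A (zc a - y) = 1 := by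
  have := kernelA_swap A (kernelA_supp_Phi W) W.continuous_Phi y fun _ => 1
  simp only [mul_one, tsum_Phi, integral_cube_const] at this
  exact this
theorem ew_le (l : ι) (x : ι → ℝ) {u : ℝ} (hu : 0 < u) :
    ew W A l x ≤ W.kap / 2 * (u * pm W A x + pm W A (x + Pi.single l 1) / u) := by
  have i1 := integrableOn_cube (kernel_cont A W.continuous_Phi x)
  have i2 := integrableOn_cube (kernel_cont A W.continuous_Phi (x + Pi.single l 1))
  unfold ew pm
  rw [← integral_const_mul, ← integral_div, ← integral_add (i1.const_mul _) (i2.div_const _),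
    ← integral_const_mul]
  refine integral_mono (integrableOn_cube (kernel_cont A (W.continuous_ed l) x))
    (((i1.const_mul _).add (i2.div_const _)).const_mul _) fun t => ?_
  have := W.ed_le l (x - mv A t) hu
  rwa [sub_add_eq_add_sub] at this
theorem hasDerivAt_pm (x v : ι → ℝ) :
    HasDerivAt (fun s : ℝ => pm W A (x + s • v)) (∑ l, dpm W A l x * v l) 0 := by
  have hc : Continuous fun p : ℝ × (κ → ℝ) => ∑ l, W.dPhi l (x - mv A p.2 + p.1 • v) * v l :=
    continuous_finsetSum _ fun l _ => ((W.continuous_dPhi l).comp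
      ((continuous_const.sub ((continuous_mv A).comp continuous_snd)).add
        (continuous_fst.smul continuous_const))).mul continuous_const
  obtain ⟨C, hC⟩ := ((isCompact_closedBall (0 : ℝ) 1).prod
    (isCompact_cube (κ := κ))).exists_bound_of_continuousOn hc.continuousOn
  have hF : ∀ s : ℝ, Continuous fun t => W.Phi (x - mv A t + s • v) := fun s =>
    W.continuous_Phi.comp ((continuous_const.sub (continuous_mv A)).add continuous_const)
  have h := (hasDerivAt_integral_of_dominated_loc_of_deriv_le (μ := volume.restrict (cube κ))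
    (F := fun s t => W.Phi (x - mv A t + s • v))
    (F' := fun s t => ∑ l, W.dPhi l (x - mv A t + s • v) * v l) (bound := fun _ => C)
    (Metric.closedBall_mem_nhds (0 : ℝ) one_pos)
    (Filter.Eventually.of_forall fun s => (hF s).aestronglyMeasurable)
    (integrableOn_cube (hF 0))
    (hc.comp (Continuous.prodMk_right (0 : ℝ))).aestronglyMeasurable
    ((ae_restrict_mem measurableSet_cube).mono fun t ht s hs => hC (s, t) ⟨hs, ht⟩)
    (integrableOn_cube continuous_const)
    (Filter.Eventually.of_forall fun t s _ => W.hasDerivAt_Phi _ v s)).2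
  simp only [zero_smul, add_zero] at h
  rw [integral_finsetSum _ fun l _ =>
    (integrableOn_cube (kernel_cont A (W.continuous_dPhi l) x)).mul_const _] at h
  simp only [integral_mul_const, sub_add_eq_add_sub] at h
  exact h
theorem Ex_eq_IE (c : ι → ℝ) (f : (ι → ℤ) → ℝ) : Ex W A c f = IE W A c fun _ a => f a := by
  have := kernelA_swap A (kernelA_supp_Phi W) W.continuous_Phi c f
  simp only [← sub_sub] at this
  exact this
theorem Per_nonneg (c : ι → ℝ) (f : (ι → ℤ) → ℝ) : 0 ≤ Per W A c f :=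
  sum_nonneg fun l _ => tsum_nonneg fun _ => mul_nonneg (ew_nonneg W A l _) (abs_nonneg _)
theorem continuous_Per (f : (ι → ℤ) → ℝ) : Continuous fun c => Per W A c f := by
  obtain ⟨R, -, -, hR⟩ := exists_supp W A
  exact continuous_finsetSum _ fun l _ => continuous_tsum_lattice (ew W A l) (hR l)
    (continuous_ew W A l) id continuous_id (fun _ a => |f (a + Pi.single l 1) - f a|)
    fun _ => continuous_const

theorem kernel_dpm (l : ι) (y : ι → ℝ) (f : (ι → ℤ) → ℝ) :
    ∑' a : ι → ℤ, dpm W A l (zc a - y) * f a =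
      ∫ t in cube κ, ∑' a : ι → ℤ, W.dPhi l (zc a - (y + mv A t)) * f a :=
  kernelA_swap A (kernelA_supp_dPhi W l) (W.continuous_dPhi l) y f

/-- Bessel bound for the gradient of the mean -/
theorem grad_nsq_le (y : ι → ℝ) (f : (ι → ℤ) → ℝ) (hf : ∀ a, |f a| ≤ 1) :
    nsq (fun l => ∑' a : ι → ℤ, dpm W A l (zc a - y) * f a) ≤ W.kap ^ 2 := by
  obtain ⟨v, hv⟩ : ∃ v : ι → ℝ, v = fun l => ∑' a : ι → ℤ, dpm W A l (zc a - y) * f a := ⟨_, rfl⟩
  have hi := fun l => (integrableOn_cube
    (kernelA_cont A (kernelA_supp_dPhi W l) (W.continuous_dPhi l) y f)).const_mul (v l)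
  have h1 : nsq v = ∫ t in cube κ,
      ∑ l, v l * ∑' a : ι → ℤ, W.dPhi l (zc a - (y + mv A t)) * f a := by
    rw [integral_finsetSum _ fun l _ => hi l, nsq]
    refine sum_congr rfl fun l _ => ?_
    rw [integral_const_mul, ← kernel_dpm, sq]
    congr 1
    rw [hv]
  have h2 : ∫ t in cube κ, ∑ l, v l * ∑' a : ι → ℤ, W.dPhi l (zc a - (y + mv A t)) * f a ≤
      ∫ _ in cube κ, (nsq v + W.kap ^ 2) / 2 :=
    integral_mono (integrable_finsetSum _ fun l _ => hi l) (integrableOn_cube continuous_const)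
      fun t => by linarith [kernelA_bessel W (y + mv A t) v f hf]
  rw [integral_cube_const] at h2
  rw [← hv]
  linarith
theorem grad_l1_le (y : ι → ℝ) (f : (ι → ℤ) → ℝ) :
    l1 (fun l => ∑' a : ι → ℤ, dpm W A l (zc a - y) * f a) ≤ Per W A y f := by
  refine sum_le_sum fun l _ => ?_
  simp only
  rw [kernel_dpm]
  refine le_of_le_of_eq ?_ (kernelA_swap A (kernelA_supp_ed W l) (W.continuous_ed l) y _).symm
  refine abs_integral_le_integral_abs.trans (integral_mono (integrableOn_cube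
    (kernelA_cont A (kernelA_supp_dPhi W l) (W.continuous_dPhi l) y f).abs) (integrableOn_cube
    (kernelA_cont A (kernelA_supp_ed W l) (W.continuous_ed l) y _)) fun t => kernelA_l1 W _ f l)

theorem kernel_const (y : ι → ℝ) (f : (ι → ℤ) → ℝ) (hinv : InvU A f) (w : κ → ℝ) :
    ∑' a : ι → ℤ, pm W A (zc a - (y + mv A w)) * f a = ∑' a : ι → ℤ, pm W A (zc a - y) * f a := by
  unfold pm
  rw [kernelA_swap A (kernelA_supp_Phi W) W.continuous_Phi,
    kernelA_swap A (kernelA_supp_Phi W) W.continuous_Phi,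
    ← integral_cube_translate _ (kernelA_cont A (kernelA_supp_Phi W) W.continuous_Phi y f) ?_ w]
  · simp only [mv_add, add_assoc, add_comm (mv A w)]
  · intro τ n
    obtain ⟨z, hz⟩ := zc_mem_latOf A n
    rw [← (Equiv.addRight z).tsum_eq]
    refine tsum_congr fun a => ?_
    simp only [Equiv.coe_addRight]
    rw [hinv a z ⟨_, hz.symm⟩, mv_add, hz, zc_add]
    congr 2
    abel

theorem grad_mtv (y : ι → ℝ) (f : (ι → ℤ) → ℝ) (hinv : InvU A f) :
    mtv A (fun l => ∑' a : ι → ℤ, dpm W A l (zc a - y) * f a) = 0 := by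
  obtain ⟨R, hR, hR', -⟩ := exists_supp W A
  have key : ∀ w : κ → ℝ,
      ip (fun l => ∑' a : ι → ℤ, dpm W A l (zc a - y) * f a) (mv A w) = 0 := by
    intro w
    obtain ⟨n, hn⟩ := exists_zbox (ι := ι) (‖y‖ + ‖mv A w‖) R
    have hd : HasDerivAt (fun s : ℝ => ∑ a ∈ zbox ι n, pm W A (zc a - y + s • -mv A w) * f a)
        (∑ a ∈ zbox ι n, (∑ l, dpm W A l (zc a - y) * (-mv A w) l) * f a) 0 :=
      HasDerivAt.fun_sum fun a _ => (hasDerivAt_pm W A (zc a - y) (-mv A w)).mul_const (f a)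
    have hc : HasDerivAt (fun s : ℝ => ∑ a ∈ zbox ι n, pm W A (zc a - y + s • -mv A w) * f a)
        0 0 := by
      refine (hasDerivAt_const (0 : ℝ)
        (∑' a : ι → ℤ, pm W A (zc a - y) * f a)).congr_of_eventuallyEq ?_
      filter_upwards [Metric.closedBall_mem_nhds (0 : ℝ) one_pos] with s hs
      have hs1 : |s| ≤ 1 := by simpa using hs
      rw [← kernel_const W A y f hinv (s • w), tsum_eq_sum (s := zbox ι n)]
      · refine sum_congr rfl fun a _ => ?_
        rw [mv_smul, smul_neg, ← sub_eq_add_neg, sub_sub]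
      · intro a ha
        by_contra h
        refine ha (hn _ a (fun l => ?_) (hR _ (left_ne_zero_of_mul h)))
        refine (norm_le_pi_norm (y + mv A (s • w)) l).trans ((norm_add_le _ _).trans ?_)
        rw [mv_smul, norm_smul, Real.norm_eq_abs]
        nlinarith [norm_nonneg (mv A w), abs_nonneg s]
    have h0 := hd.unique hc
    have e : ∀ l, ∑' a : ι → ℤ, dpm W A l (zc a - y) * f a =
        ∑ a ∈ zbox ι n, dpm W A l (zc a - y) * f a := by
      intro l
      refine tsum_eq_sum fun a ha => ?_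
      by_contra h
      refine ha (hn _ a (fun l => ?_) (hR' l _ (left_ne_zero_of_mul h)))
      exact (norm_le_pi_norm y l).trans (le_add_of_nonneg_right (norm_nonneg _))
    simp only [ip, e, sum_mul]
    rw [sum_comm, ← neg_eq_zero, ← h0, ← sum_neg_distrib]
    refine sum_congr rfl fun a _ => ?_
    rw [sum_mul, ← sum_neg_distrib]
    exact sum_congr rfl fun l _ => by rw [Pi.neg_apply]; ring
  refine nsq_eq_zero ?_
  rw [← ip_self, ← ip_mv]
  exact key _
theorem grad_bound {Ka : ℝ} (hKa : 0 ≤ Ka) (hK : Kashin A Ka) (y : ι → ℝ) (f : (ι → ℤ) → ℝ)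
    (hf : ∀ a, |f a| ≤ 1) (hinv : InvU A f) :
    nsq (fun l => ∑' a : ι → ℤ, dpm W A l (zc a - y) * f a) ≤ W.kap * Ka * Per W A y f := by
  have h1 := grad_nsq_le W A y f hf
  have h2 := grad_l1_le W A y f
  have h3 := hK _ (grad_mtv W A y f hinv)
  obtain ⟨v, hv⟩ : ∃ v : ι → ℝ, v = fun l => ∑' a : ι → ℤ, dpm W A l (zc a - y) * f a := ⟨_, rfl⟩
  rw [← hv] at h1 h2 h3 ⊢
  have hk : 0 < W.kap := by linarith [W.one_le_kap]
  have h0 := nsq_nonneg v
  have hl := l1_nonneg v
  have h4 : nsq v ≤ W.kap * Ka * l1 v := by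
    refine (pow_le_pow_iff_left₀ h0 (by positivity) two_ne_zero).1 ?_
    calc nsq v ^ 2 = nsq v * nsq v := sq _
      _ ≤ W.kap ^ 2 * (Ka ^ 2 * l1 v ^ 2) := mul_le_mul h1 h3 h0 (by positivity)
      _ = _ := by ring
  exact h4.trans (mul_le_mul_of_nonneg_left h2 (by positivity))

theorem pi_base : PI W base0 (1 / 2) := by
  intro c f hf _
  have e0 : ∀ t : Empty → ℝ, mv base0 t = 0 := fun t => by funext l; simp [mv]
  have e1 : ∀ x, pm W base0 x = W.phi (x ()) := fun x => by
    simp only [pm, e0, sub_zero, integral_cube_const, Win.Phi, Fintype.prod_unique]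
  have e2 : ∀ x, ew W base0 () x = W.ed1 (x ()) := fun x => by
    simp only [ew, e0, sub_zero, integral_cube_const]
    simp [Win.ed]
  have h := W.var_le_ed1 (c ()) (fun n => f fun _ => n) fun n => hf _
  have e3 : ∀ g : (Unit → ℤ) → ℝ, Ex W base0 c g = ∑' n : ℤ, W.phi (n - c ()) * g fun _ => n := by
    intro g
    rw [Ex, ← (Equiv.funUnique Unit ℤ).symm.tsum_eq]
    exact tsum_congr fun n => by rw [e1]; rfl
  have e4 : Per W base0 c f =
      ∑' n : ℤ, W.ed1 (n - c ()) * |f (fun _ => n + 1) - f fun _ => n| := by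
    rw [Per, Fintype.sum_unique, ← (Equiv.funUnique Unit ℤ).symm.tsum_eq]
    refine tsum_congr fun n => ?_
    rw [e2]
    congr 4
  rw [e3, e3, e4]
  linarith
theorem PI.mono {W : Win} {A : ι → κ → ℤ} {G G' : ℝ} (h : PI W A G) (h0 : 0 ≤ G') (hG : G' ≤ G) :
    PI W A G' := by
  intro c f hf hi
  have h1 := h c f hf hi
  rcases le_total 0 (Ex W A c (fun a => f a ^ 2) - Ex W A c f ^ 2) with h2 | h2
  · exact (mul_le_mul_of_nonneg_right hG h2).trans h1
  · exact (mul_nonpos_of_nonneg_of_nonpos h0 h2).trans (Per_nonneg W A c f)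

end Vale.Agent.P318
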