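import Vale.Agent.P318.Win
import Vale.Agent.P318.Cube

open Finset MeasureTheory

noncomputable section

namespace Vale.Agent.P318

variable {ι κ : Type} [Fintype ι] [DecidableEq ι] (W : Win)

omit [DecidableEq ι] in
theorem kernelA_supp_Phi : ∀ x : ι → ℝ, W.Phi x ≠ 0 → ∀ l, |x l| ≤ 1 :=
  fun _ h l => W.abs_le_one_of_Phi_ne h l
theorem kernelA_supp_dPhi (l : ι) : ∀ x : ι → ℝ, W.dPhi l x ≠ 0 → ∀ l', |x l'| ≤ 1 :=
  fun _ h l' => W.abs_le_one_of_Phi_ne (fun h0 => h (W.dPhi_eq_zero l h0)) l'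
theorem kernelA_supp_ed (l : ι) : ∀ x : ι → ℝ, W.ed l x ≠ 0 → ∀ l', |x l'| ≤ 1 :=
  fun _ h l' => W.abs_le_one_of_Phi_ne (fun h0 => h (W.ed_eq_zero l h0)) l'

theorem kernelA_abs_le {n : ℤ} {y : ℝ} (h : W.phi (n - y) ≠ 0) : |(n : ℝ)| ≤ |y| + 1 := by
  have h1 : |(n : ℝ) - y| < 1 / 2 + W.lam / 2 := lt_of_not_ge fun h2 => h (W.phi_eq_zero h2)
  have h2 := abs_add_le ((n : ℝ) - y) y
  rw [sub_add_cancel] at h2
  linarith [W.lam_le]

/-- products of one-dimensional weights -/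
theorem kernelA_prod (y : ι → ℝ) (g : ι → ℤ → ℝ) :
    ∑' a : ι → ℤ, W.Phi (zc a - y) * ∏ l, g l (a l) =
      ∏ l, ∑' n : ℤ, W.phi (n - y l) * g l n := by
  rw [← tsum_int_prod (fun l n => W.phi (n - y l) * g l n) (‖y‖ + 1)]
  · refine tsum_congr fun a => ?_
    rw [Win.Phi, ← prod_mul_distrib]
    rfl
  · intro l n h
    have := kernelA_abs_le W (left_ne_zero_of_mul h)
    have h2 : |y l| ≤ ‖y‖ := norm_le_pi_norm y l
    linarith

theorem kernelA_tsum_Phi (y : ι → ℝ) : ∑' a : ι → ℤ, W.Phi (zc a - y) = 1 := by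
  have := kernelA_prod W y fun _ _ => 1
  simpa [W.tsum_phi] using this

/-- score function -/
def kernelAsc (s : ℝ) : ℝ := W.dphi s / W.phi s

theorem kernelA_mul_sc (s : ℝ) : W.phi s * kernelAsc W s = W.dphi s := by
  unfold kernelAsc
  by_cases h : W.phi s = 0
  · rw [h, W.dphi_eq_zero h, zero_mul]
  · field_simp

theorem kernelA_dPhi (l : ι) (x : ι → ℝ) : W.dPhi l x = W.Phi x * kernelAsc W (x l) := by
  rw [Win.dPhi, Win.Phi, ← mul_prod_erase univ (fun l => W.phi (x l)) (mem_univ l),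
    ← kernelA_mul_sc]
  ring

theorem kernelA_cross (y : ι → ℝ) (l l' : ι) :
    ∑' a : ι → ℤ, W.Phi (zc a - y) * (kernelAsc W ((zc a - y) l) * kernelAsc W ((zc a - y) l')) =
      if l = l' then ∑' n : ℤ, W.dphi (n - y l) ^ 2 / W.phi (n - y l) else 0 := by
  have h := kernelA_prod W y fun j n => (if j = l then kernelAsc W (n - y j) else 1) *
    (if j = l' then kernelAsc W (n - y j) else 1)
  simp only [prod_mul_distrib, prod_ite_eq', mem_univ, if_true] at h
  refine Eq.trans h ?_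
  split_ifs with e
  · subst e
    rw [prod_eq_single l]
    · refine tsum_congr fun n => ?_
      simp only [if_true]
      rw [← mul_assoc, kernelA_mul_sc, kernelAsc]
      ring
    · intro j _ hj
      simp [hj, W.tsum_phi]
    · simp
  · refine prod_eq_zero (mem_univ l) ?_
    simp only [if_true, if_neg e, mul_one, kernelA_mul_sc, W.tsum_dphi]

theorem kernelA_sq (y v : ι → ℝ) :
    ∑' a : ι → ℤ, W.Phi (zc a - y) * (∑ l, v l * kernelAsc W ((zc a - y) l)) ^ 2 ≤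
      W.kap ^ 2 * nsq v := by
  have e : ∀ a : ι → ℤ, W.Phi (zc a - y) * (∑ l, v l * kernelAsc W ((zc a - y) l)) ^ 2 =
      ∑ l, ∑ l', v l * v l' *
        (W.Phi (zc a - y) * (kernelAsc W ((zc a - y) l) * kernelAsc W ((zc a - y) l'))) := by
    intro a
    rw [sq, sum_mul_sum, mul_sum]
    refine sum_congr rfl fun l _ => ?_
    rw [mul_sum]
    exact sum_congr rfl fun l' _ => by ring
  have hs : ∀ l l', Summable fun a : ι → ℤ => v l * v l' *
      (W.Phi (zc a - y) * (kernelAsc W ((zc a - y) l) * kernelAsc W ((zc a - y) l'))) :=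
    fun l l' => (summable_lattice W.Phi (kernelA_supp_Phi W) y _).mul_left _
  simp only [e]
  rw [Summable.tsum_finsetSum fun l _ => summable_sum fun l' _ => hs l l', nsq, mul_sum]
  refine sum_le_sum fun l _ => ?_
  rw [Summable.tsum_finsetSum fun l' _ => hs l l']
  simp only [tsum_mul_left, kernelA_cross, mul_ite, mul_zero, sum_ite_eq, mem_univ, if_true]
  nlinarith [mul_le_mul_of_nonneg_left (W.tsum_score (y l)) (sq_nonneg (v l))]

/-- Bessel inequality at a fixed offset -/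
theorem kernelA_bessel (y v : ι → ℝ) (f : (ι → ℤ) → ℝ) (hf : ∀ a, |f a| ≤ 1) :
    2 * ∑ l, v l * ∑' a : ι → ℤ, W.dPhi l (zc a - y) * f a ≤ nsq v + W.kap ^ 2 := by
  have hk : 0 < W.kap := by linarith [W.one_le_kap]
  have e : ∑ l, v l * ∑' a : ι → ℤ, W.dPhi l (zc a - y) * f a =
      ∑' a : ι → ℤ, W.Phi (zc a - y) * ((∑ l, v l * kernelAsc W ((zc a - y) l)) * f a) := by
    simp only [← tsum_mul_left]
    rw [← Summable.tsum_finsetSum fun l _ =>
      (summable_lattice (W.dPhi l) (kernelA_supp_dPhi W l) y f).mul_left _]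
    refine tsum_congr fun a => ?_
    rw [sum_mul, mul_sum]
    exact sum_congr rfl fun l _ => by rw [kernelA_dPhi]; ring
  have s1 := summable_lattice W.Phi (kernelA_supp_Phi W) y
    fun a => (∑ l, v l * kernelAsc W ((zc a - y) l)) ^ 2
  have s2 := summable_lattice W.Phi (kernelA_supp_Phi W) y fun _ => 1
  simp only [mul_one] at s2
  have h1 : ∑' a : ι → ℤ, 2 * (W.Phi (zc a - y) * ((∑ l, v l * kernelAsc W ((zc a - y) l)) * f a))
      ≤ ∑' a : ι → ℤ, ((W.kap ^ 2)⁻¹ * (W.Phi (zc a - y) *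
        (∑ l, v l * kernelAsc W ((zc a - y) l)) ^ 2) + W.kap ^ 2 * W.Phi (zc a - y)) := by
    refine Summable.tsum_le_tsum (fun a => ?_)
      ((summable_lattice W.Phi (kernelA_supp_Phi W) y _).mul_left _)
      ((s1.mul_left _).add (s2.mul_left _))
    obtain ⟨S, hS⟩ : ∃ S, S = ∑ l, v l * kernelAsc W ((zc a - y) l) := ⟨_, rfl⟩
    rw [← hS]
    have h2 : f a ^ 2 ≤ 1 := by rw [← sq_abs]; nlinarith [hf a, abs_nonneg (f a)]
    have h3 : 2 * (S * f a) ≤ (W.kap ^ 2)⁻¹ * S ^ 2 + W.kap ^ 2 := by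
      have e1 : (W.kap ^ 2)⁻¹ * S ^ 2 = (S / W.kap) ^ 2 := by field_simp
      have e2 : S * f a = (S / W.kap) * (W.kap * f a) := by field_simp
      rw [e1, e2]
      nlinarith [sq_nonneg (S / W.kap - W.kap * f a), mul_le_mul_of_nonneg_left h2 (sq_nonneg W.kap)]
    nlinarith [mul_le_mul_of_nonneg_left h3 (W.Phi_nonneg (zc a - y))]
  rw [tsum_mul_left, Summable.tsum_add (s1.mul_left _) (s2.mul_left _), tsum_mul_left,
    tsum_mul_left, kernelA_tsum_Phi] at h1
  have h2 := mul_le_mul_of_nonneg_left (kernelA_sq W y v) (by positivity : 0 ≤ (W.kap ^ 2)⁻¹)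
  rw [← mul_assoc, inv_mul_cancel₀ (by positivity)] at h2
  rw [e]
  linarith

/-- splitting off one coordinate -/
def kernelAe (l : ι) : ({j // j ≠ l} → ℤ) × ℤ ≃ (ι → ℤ) :=
  (Equiv.prodComm _ _).trans (Equiv.funSplitAt l ℤ).symm

omit [Fintype ι] in
theorem kernelAe_self (l : ι) (r : {j // j ≠ l} → ℤ) (n : ℤ) : kernelAe l (r, n) l = n := by
  simp [kernelAe]

omit [Fintype ι] in
theorem kernelAe_ne (l : ι) (r : {j // j ≠ l} → ℤ) (n : ℤ) {j : ι} (h : j ≠ l) :
    kernelAe l (r, n) j = r ⟨j, h⟩ := by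
  simp [kernelAe, h]

omit [Fintype ι] in
theorem kernelAe_succ (l : ι) (r : {j // j ≠ l} → ℤ) (n : ℤ) :
    kernelAe l (r, n) + Pi.single l 1 = kernelAe l (r, n + 1) := by
  funext j
  by_cases h : j = l
  · subst h; simp [kernelAe_self]
  · simp [kernelAe_ne _ _ _ h, h]

theorem kernelA_l1 (y : ι → ℝ) (f : (ι → ℤ) → ℝ) (l : ι) :
    |∑' a : ι → ℤ, W.dPhi l (zc a - y) * f a| ≤
      ∑' a : ι → ℤ, W.ed l (zc a - y) * |f (a + Pi.single l 1) - f a| := by
  have s1 := (kernelAe l).summable_iff.2 (summable_lattice (W.dPhi l) (kernelA_supp_dPhi W l) y f)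
  have s2 := (kernelAe l).summable_iff.2 (summable_lattice (W.ed l) (kernelA_supp_ed W l) y
    fun a => |f (a + Pi.single l 1) - f a|)
  rw [← (kernelAe l).tsum_eq, ← (kernelAe l).tsum_eq]
  refine le_of_eq_of_le (congrArg _ s1.tsum_prod) (le_of_le_of_eq ?_ s2.tsum_prod.symm)
  rw [← Real.norm_eq_abs]
  refine tsum_of_norm_bounded s2.prod.hasSum fun r => ?_
  obtain ⟨c, hc⟩ : ∃ c, c = ∏ j ∈ univ.erase l, W.phi ((zc (kernelAe l (r, 0)) - y) j) := ⟨_, rfl⟩
  have hc0 : 0 ≤ c := by rw [hc]; exact prod_nonneg fun _ _ => W.phi_nonneg _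
  have e : ∀ n : ℤ, ∏ j ∈ univ.erase l, W.phi ((zc (kernelAe l (r, n)) - y) j) = c := by
    intro n
    rw [hc]
    refine prod_congr rfl fun j hj => ?_
    simp only [Pi.sub_apply, zc, kernelAe_ne _ _ _ (ne_of_mem_erase hj)]
  have e0 : ∀ n : ℤ, (zc (kernelAe l (r, n)) - y) l = n - y l := by
    intro n
    simp only [Pi.sub_apply, zc, kernelAe_self]
  simp only [Function.comp, Win.dPhi, Win.ed, e, e0, kernelAe_succ, Real.norm_eq_abs]
  have h := mul_le_mul_of_nonneg_left (W.abs_tsum_dphi (y l) fun n => f (kernelAe l (r, n))) hc0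
  rw [← abs_of_nonneg hc0, ← abs_mul, abs_of_nonneg hc0, ← tsum_mul_left, ← tsum_mul_left] at h
  exact le_of_eq_of_le (congrArg _ (tsum_congr fun n => by ring))
    (le_of_le_of_eq h (tsum_congr fun n => by ring))

variable [Fintype κ] (A : ι → κ → ℤ)

theorem kernelA_cont {w : (ι → ℝ) → ℝ} (hw : ∀ x, w x ≠ 0 → ∀ l, |x l| ≤ 1) (hc : Continuous w)
    (y : ι → ℝ) (f : (ι → ℤ) → ℝ) :
    Continuous fun t => ∑' a : ι → ℤ, w (zc a - (y + mv A t)) * f a :=
  continuous_tsum_lattice w hw hc _ (continuous_const.add (continuous_mv A)) (fun _ a => f a)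
    fun _ => continuous_const

theorem kernelA_swap {w : (ι → ℝ) → ℝ} (hw : ∀ x, w x ≠ 0 → ∀ l, |x l| ≤ 1) (hc : Continuous w)
    (y : ι → ℝ) (f : (ι → ℤ) → ℝ) :
    ∑' a : ι → ℤ, (∫ t in cube κ, w (zc a - y - mv A t)) * f a =
      ∫ t in cube κ, ∑' a : ι → ℤ, w (zc a - (y + mv A t)) * f a := by
  rw [integral_tsum_lattice w hw hc (fun t => y + mv A t) (continuous_const.add (continuous_mv A))
    (fun _ a => f a) fun _ => continuous_const]
  simp only [integral_mul_const, sub_sub]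

end Vale.Agent.P318
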