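import Vale.Agent.P318.Kernel
import Vale.Agent.P318.ES

open Finset MeasureTheory

noncomputable section

namespace Vale.Agent.P318

variable {β ι κ K : Type} [Fintype β] [DecidableEq β] [Fintype ι] [DecidableEq ι] [Fintype κ]
  [Fintype K]

variable (W : Win) (A : β × ι → K → ℤ) (B : ι → κ → ℤ) (c : β × ι → ℝ)

omit [DecidableEq β] in
/-- one finite set carries all weights for bounded hidden points -/
theorem leva_box (ρ : ℝ) : ∃ T : Finset (ι → ℤ), ∀ t : K → ℝ, ‖t‖ ≤ ρ → ∀ b, ∀ x ∉ T,
    pt W A B c t b x = 0 ∧ (∀ l, dpm W B l (zc x - yb A c t b) = 0) ∧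
      ∀ l, ew W B l (zc x - yb A c t b) = 0 := by
  obtain ⟨R, h1, h2, h3⟩ := exists_supp W B
  obtain ⟨C, hC⟩ := (isCompact_closedBall (0 : K → ℝ) ρ).exists_bound_of_continuousOn
    (f := fun t => c + mv A t) (continuous_const.add (continuous_mv A)).continuousOn
  obtain ⟨n, hn⟩ := exists_zbox (ι := ι) C R
  refine ⟨zbox ι n, fun t ht b x hx => ?_⟩
  have hy : ∀ l, |yb A c t b l| ≤ C := fun l =>
    (norm_le_pi_norm (c + mv A t) (b, l)).trans (hC t (mem_closedBall_zero_iff.2 ht))
  exact ⟨by_contra fun h => hx (hn _ x hy (h1 _ h)),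
    fun l => by_contra fun h => hx (hn _ x hy (h2 l _ h)),
    fun l => by_contra fun h => hx (hn _ x hy (h3 l _ h))⟩

omit [Fintype β] [DecidableEq β] [Fintype ι] [DecidableEq ι] in
theorem leva_cont_yb (b : β) : Continuous fun t => yb A c t b := by
  have := continuous_mv A
  unfold yb
  fun_prop

theorem finProb_pt (t : K → ℝ) : FinProb (pt W A B c t) := by
  obtain ⟨T, hT⟩ := leva_box W A B c ‖t‖
  refine ⟨fun b x => pm_nonneg W B _, T, fun b x hx => (hT t le_rfl b x hx).1, fun b => ?_⟩
  rw [← tsum_pm W B (yb A c t b)]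
  exact (tsum_eq_sum fun x hx => (hT t le_rfl b x hx).1).symm

theorem continuous_EP_pt (G : (K → ℝ) → (β → ι → ℤ) → ℝ) (hG : ∀ a, Continuous fun t => G t a) :
    Continuous fun t => EP (pt W A B c t) (G t) := by
  refine continuous_iff_continuousAt.2 fun t0 => ?_
  obtain ⟨T, hT⟩ := leva_box W A B c (‖t0‖ + 1)
  have hc : Continuous fun t => ∑ a ∈ Fintype.piFinset (fun _ : β => T),
      (∏ b, pt W A B c t b (a b)) * G t a :=
    continuous_finsetSum _ fun a _ => (continuous_finsetProd _ fun b _ =>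
      (continuous_pm W B).comp (continuous_const.sub (leva_cont_yb A c b))).mul (hG a)
  refine hc.continuousAt.congr ?_
  filter_upwards [continuous_norm.continuousAt.eventually (gt_mem_nhds (lt_add_one ‖t0‖))]
    with t ht
  exact (EP_eq_sum (fun b x hx => (hT t ht.le b x hx).1) _).symm

theorem continuous_cp_pt (G : (K → ℝ) → (β → ι → ℤ) → ℝ) (hG : ∀ a, Continuous fun t => G t a)
    (J : Finset β) (a : β → ι → ℤ) : Continuous fun t => cp (pt W A B c t) J (G t) a :=
  continuous_finsetSum _ fun N _ => continuous_const.mul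
    (continuous_EP_pt W A B c (fun t a' => G t (N.piecewise a a')) fun _ => hG _)

theorem continuous_Zf (F : (β → ι → ℤ) → ℝ) (b : β) (l : ι) (a : β → ι → ℤ) :
    Continuous fun t => Zf W A B c t F b l a := by
  obtain ⟨R, -, h2, -⟩ := exists_supp W B
  exact continuous_tsum_lattice (dpm W B l) (h2 l) (continuous_dpm W B l) _ (leva_cont_yb A c b)
    (fun _ x => F (Function.update a b x)) fun _ => continuous_const

theorem leva_tsum_dpm (l : ι) (y : ι → ℝ) : ∑' x : ι → ℤ, dpm W B l (zc x - y) = 0 := by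
  have h := grad_l1_le W B y fun _ => 1
  have h2 := single_le_sum (f := fun l => |∑' x : ι → ℤ, dpm W B l (zc x - y) * 1|)
    (fun _ _ => abs_nonneg _) (mem_univ l)
  have h3 : Per W B y (fun _ => 1) = 0 := by simp [Per]
  rw [h3] at h
  simpa using h2.trans h

theorem leva_deriv (G : (β → ι → ℤ) → ℝ) (t w : K → ℝ) :
    HasDerivAt (fun s : ℝ => EP (pt W A B c (t + s • w)) G)
      (-∑ b, ∑ l, mv A w (b, l) * EP (pt W A B c t) (Zf W A B c t G b l)) 0 := by
  obtain ⟨T, hT⟩ := leva_box W A B c (‖t‖ + 1)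
  have h1 : ∀ b x, HasDerivAt (fun s : ℝ => pt W A B c (t + s • w) b x)
      (∑ l, dpm W B l (zc x - yb A c t b) * -mv A w (b, l)) 0 := fun b x => by
    refine (hasDerivAt_pm W B (zc x - yb A c t b) fun l => -mv A w (b, l)).congr_of_eventuallyEq
      (Filter.Eventually.of_forall fun s => ?_)
    simp only [pt]
    congr 1
    funext l
    simp only [yb, mv_add, mv_smul, Pi.add_apply, Pi.sub_apply, Pi.smul_apply, smul_eq_mul]
    ring
  have h2 := HasDerivAt.fun_sum (u := Fintype.piFinset fun _ : β => T) fun a _ =>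
    (HasDerivAt.fun_finsetProd (u := univ) fun b _ => h1 b (a b)).mul_const (G a)
  have hc : Continuous fun s : ℝ => ‖t + s • w‖ := by fun_prop
  have h3 : ∀ b l, EP (pt W A B c t) (Zf W A B c t G b l) =
      ∑ a ∈ Fintype.piFinset (fun _ : β => T), (dpm W B l (zc (a b) - yb A c t b) *
        ∏ b' ∈ univ.erase b, pt W A B c t b' (a b')) * G a := fun b l => by
    refine (EP_update (finProb_pt W A B c t) b (fun x => dpm W B l (zc x - yb A c t b)) T
      (fun x hx => (hT t (by linarith) b x hx).2.1 l) G).trans (tsum_eq_sum fun a ha => ?_)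
    obtain ⟨b', hb'⟩ := not_forall.1 (mt Fintype.mem_piFinset.2 ha)
    by_cases hb : b' = b
    · rw [(hT t (by linarith) b _ (hb ▸ hb')).2.1 l, zero_mul, zero_mul]
    · rw [prod_eq_zero (mem_erase.2 ⟨hb, mem_univ _⟩) (hT t (by linarith) b' _ hb').1, mul_zero,
        zero_mul]
  refine (h2.congr_of_eventuallyEq ?_).congr_deriv ?_
  · filter_upwards [hc.continuousAt.eventually (gt_mem_nhds (show ‖t + (0 : ℝ) • w‖ < ‖t‖ + 1 by
      simp))] with s hs
    exact EP_eq_sum (fun b x hx => (hT _ hs.le b x hx).1) _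
  · simp only [h3, zero_smul, add_zero, smul_eq_mul, mul_sum, sum_mul, ← sum_neg_distrib]
    rw [sum_comm]
    refine sum_congr rfl fun b _ => ?_
    rw [sum_comm]
    exact sum_congr rfl fun l _ => sum_congr rfl fun a _ => by ring

theorem hasDerivAt_CE (F : (β → ι → ℤ) → ℝ) (N : Finset β) (a : β → ι → ℤ) (t w : K → ℝ) :
    HasDerivAt (fun s : ℝ => CE (pt W A B c (t + s • w)) N F a)
      (-∑ b, ∑ l, mv A w (b, l) *
        (if b ∈ N then 0 else CE (pt W A B c t) N (Zf W A B c t F b l) a)) 0 := by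
  refine (leva_deriv W A B c (fun a' => F (N.piecewise a a')) t w).congr_deriv ?_
  congr 1
  refine sum_congr rfl fun b _ => sum_congr rfl fun l _ => ?_
  congr 1
  split_ifs with hb
  · rw [← EP_const (finProb_pt W A B c t) 0]
    congr 1
    funext a'
    have : ∀ x, N.piecewise a (Function.update a' b x) = N.piecewise a a' := fun x =>
      piecewise_congr _ (fun _ _ => rfl) fun i hi =>
        Function.update_of_ne (ne_of_mem_of_not_mem hb hi).symm _ _
    simp only [Zf, this, tsum_mul_right, leva_tsum_dpm, zero_mul]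
  · unfold CE
    congr 1
    funext a'
    simp only [Zf, update_piecewise_of_notMem _ _ _ hb]

/-- gradient of an Efron-Stein component in the top hidden variable -/
theorem hasDerivAt_cp (F : (β → ι → ℤ) → ℝ) (J : Finset β) (a : β → ι → ℤ) (t w : K → ℝ) :
    HasDerivAt (fun s : ℝ => cp (pt W A B c (t + s • w)) J F a)
      (ip (mtv A fun q => (if q.1 ∈ J then 1 else -1) *
        cp (pt W A B c t) (J.erase q.1) (Zf W A B c t F q.1 q.2) a) w) 0 := by
  refine (HasDerivAt.fun_sum (u := J.powerset) fun N _ =>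
    (hasDerivAt_CE W A B c F N a t w).const_mul ((-1 : ℝ) ^ (J.card - N.card))).congr_deriv ?_
  rw [← ip_mv, ip, Fintype.sum_prod_type]
  simp only [mul_neg, mul_sum, ← sum_neg_distrib]
  rw [sum_comm]
  refine sum_congr rfl fun b _ => ?_
  rw [sum_comm]
  refine sum_congr rfl fun l _ => ?_
  simp only [mul_left_comm _ (mv A w (b, l))]
  rw [sum_neg_distrib, ← mul_sum, cp_erase_sum]
  split_ifs <;> ring

theorem cp_shift_top (F : (β → ι → ℤ) → ℝ) (t0 : K → ℝ) (z : β × ι → ℤ) (hz : mv A t0 = zc z)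
    (hF : ∀ a, F (a + fun b l => z (b, l)) = F a) (J : Finset β) (t : K → ℝ) (a : β → ι → ℤ) :
    cp (pt W A B c (t + t0)) J F (a + fun b l => z (b, l)) = cp (pt W A B c t) J F a := by
  refine sum_congr rfl fun N _ => ?_
  congr 1
  unfold CE EP
  rw [← (Equiv.addRight fun b l => z (b, l)).tsum_eq]
  refine tsum_congr fun a' => ?_
  rw [Equiv.coe_addRight]
  congr 1
  · refine prod_congr rfl fun b _ => ?_
    simp only [pt]
    congr 1
    funext l
    simp only [yb, mv_add, hz, zc, Pi.add_apply, Pi.sub_apply]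
    push_cast
    ring
  · simp only
    rw [← hF (N.piecewise a a')]
    congr 1
    funext b
    by_cases hb : b ∈ N <;> simp [hb]

theorem cp_shift_blk (p : β → (ι → ℤ) → ℝ) (F : (β → ι → ℤ) → ℝ) (d : β → ι → ℤ)
    (hF : ∀ (N : Finset β) a, F (a + N.piecewise d 0) = F a) (J : Finset β) (a : β → ι → ℤ) :
    cp p J F (a + d) = cp p J F a := by
  refine sum_congr rfl fun N _ => ?_
  congr 1
  unfold CE
  congr 1
  funext a'
  rw [← hF N (N.piecewise a a')]
  congr 1
  funext b
  by_cases hb : b ∈ N <;> simp [hb]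

end Vale.Agent.P318
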