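import Vale.Agent.P318.PCJ

open Finset MeasureTheory

noncomputable section

namespace Vale.Agent.P318

variable {β ι κ K : Type} [Fintype β] [DecidableEq β] [Fintype ι] [DecidableEq ι] [Fintype κ]
  [Fintype K]

omit [DecidableEq β] [DecidableEq ι] in
theorem level_sum (J : Finset β) (h : β × ι → ℝ) (h0 : ∀ q : β × ι, q.1 ∉ J → h q = 0) :
    ∑ q, h q = ∑ q : J × ι, h (q.1.1, q.2) := by
  rw [Fintype.sum_prod_type, Fintype.sum_prod_type, sum_coe_sort J fun b => ∑ l, h (b, l)]
  exact (sum_subset (subset_univ J) fun b _ hb => sum_eq_zero fun l _ => h0 _ hb).symm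

/-- extension by zero -/
def levelExt (J : Finset β) (z : J × ι → ℝ) : β × ι → ℝ :=
  fun q => if h : q.1 ∈ J then z (⟨q.1, h⟩, q.2) else 0

omit [DecidableEq β] [DecidableEq ι] [Fintype K] in
theorem level_mtv (J : Finset β) (A : β × ι → K → ℤ) (z : β × ι → ℝ)
    (h0 : ∀ q : β × ι, q.1 ∉ J → z q = 0) :
    mtv A z = mtv (fun q : J × ι => A (q.1.1, q.2)) fun q => z (q.1.1, q.2) := by
  funext i
  exact level_sum J _ fun q hq => by rw [h0 q hq, mul_zero]

omit [Fintype β] [Fintype ι] [DecidableEq ι] in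
theorem levelExt_zero (J : Finset β) (z : J × ι → ℝ) (q : β × ι) (hq : q.1 ∉ J) :
    levelExt J z q = 0 := dif_neg hq

omit [Fintype β] [Fintype ι] [DecidableEq ι] in
theorem levelExt_res (J : Finset β) (z : J × ι → ℝ) :
    (fun q : J × ι => levelExt J z (q.1.1, q.2)) = z := by
  funext q
  exact dif_pos q.1.2

omit [Fintype ι] [DecidableEq ι] in
theorem level_inU (A : β × ι → K → ℤ) (B : ι → κ → ℤ) (e : β → ι → ℤ)
    (he : ∀ b, InU B (zc (e b))) : InU (stp A B) (zc fun q => e q.1 q.2) := by
  choose σ hσ using he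
  refine ⟨Sum.elim 0 fun q => σ q.1 q.2, funext fun q => ?_⟩
  have := congrFun (hσ q.1) q.2
  rw [show q = (q.1, q.2) from rfl, mv_stp_apply]
  simpa [zc, mv] using this

omit [Fintype ι] [DecidableEq ι] in
theorem level_inv {A : β × ι → K → ℤ} {B : ι → κ → ℤ} {f : (β × ι → ℤ) → ℝ}
    (hf : InvU (stp A B) f) (a : β → ι → ℤ) (b : β) :
    InvU B fun x => f fun q => Function.update a b x q.1 q.2 := by
  intro x z hz
  have := hf (fun q => Function.update a b x q.1 q.2) _
    (level_inU A B (Function.update 0 b z) fun b' => by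
      by_cases h : b' = b
      · subst h
        simpa using hz
      · rw [Function.update_of_ne h, Pi.zero_apply, zc_zero]
        exact inU_zero B)
  refine Eq.trans (congrArg f (funext fun q => ?_)) this
  by_cases h : q.1 = b
  · simp [h]
  · simp [h]

/-- bound for one low-degree component -/
theorem level_comp (W : Win) {k Cm m : ℕ} {Bc Γ : ℝ} (A : β × ι → Fin k → ℤ) (B : ι → κ → ℤ)
    (h : RMP A (blk B) Cm Bc m) (hB : 0 ≤ Bc) (hk : 0 < k) (hkM : k ≤ Fintype.card (β × ι))
    (hΓ : 0 ≤ Γ) (hω : DualW B Γ) (c : β × ι → ℝ) (f : (β × ι → ℤ) → ℝ)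
    (hf : InvU (stp A B) f) (J : Finset β) (hJ : J.card * Fintype.card ι ≤ m) :
    (∫ t in cube (Fin k), EP (pt W A B c t) fun a =>
        cp (pt W A B c t) J (fun a => f fun q => a q.1 q.2) a ^ 2) -
      (if J = ∅ then Ex W (stp A B) c f ^ 2 else 0) ≤
    4 * Bc * (Bc + 2 + Γ * Bc) * (Fintype.card (β × ι) / k) *
      ∫ t in cube (Fin k), ∑ b, ∑ l, EP (pt W A B c t) fun a =>
        cp (pt W A B c t) (J.erase b) (Zf W A B c t (fun a => f fun q => a q.1 q.2) b l) a ^ 2 := by
  set F : (β → ι → ℤ) → ℝ := fun a => f fun q => a q.1 q.2 with hF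
  have hk' : (0 : ℝ) < k := by exact_mod_cast hk
  have hS : (J ×ˢ (univ : Finset ι)).card ≤ m := by rwa [card_product, card_univ]
  have hout : ∀ q : β × ι, q ∉ J ×ˢ (univ : Finset ι) ↔ q.1 ∉ J := fun q => by simp
  have hp := finProb_pt W A B c
  set D : (Fin k → ℝ) → (β → ι → ℤ) → Fin k → ℝ := fun t a => mtv A fun q =>
    (if q.1 ∈ J then 1 else -1) * cp (pt W A B c t) (J.erase q.1) (Zf W A B c t F q.1 q.2) a with hD
  have cZ : ∀ b l a, Continuous fun t =>
      cp (pt W A B c t) (J.erase b) (Zf W A B c t F b l) a := fun b l a =>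
    continuous_cp_pt W A B c (fun t => Zf W A B c t F b l) (continuous_Zf W A B c F b l) _ a
  have cD : ∀ a, Continuous fun t => D t a := fun a =>
    continuous_pi fun i => continuous_finsetSum _ fun q _ =>
      continuous_const.mul (continuous_const.mul (cZ q.1 q.2 a))
  have key := pcj W (fun q : J × ι => A (q.1.1, q.2)) B (fun q => c (q.1.1, q.2)) (LatOf A)
    (zc_mem_latOf A) (fun t ⟨z, hz⟩ => ⟨fun q => z (q.1.1, q.2), funext fun q => congrFun hz _⟩)
    hk' hB hΓ
    (fun z => by
      have h1 := h.low _ (levelExt J z) hS fun q hq => levelExt_zero J z q ((hout q).1 hq)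
      rw [level_mtv J A _ (levelExt_zero J z), levelExt_res] at h1
      have h2 : nsq (levelExt J z) = nsq z := by
        rw [nsq, level_sum J _ fun q hq => by rw [levelExt_zero J z q hq, sq, mul_zero]]
        exact congrArg nsq (levelExt_res J z)
      rwa [h2] at h1)
    (fun v hv cc hcc => by
      obtain ⟨z, hz, e⟩ := h.prim _ hS v hv (levelExt J cc)
        (fun q hq => levelExt_zero J cc q ((hout q).1 hq))
        (by rwa [level_mtv J A _ (levelExt_zero J cc), levelExt_res])
      refine ⟨fun q => z (q.1.1, q.2), e.trans (level_mtv J A _ fun q hq => ?_)⟩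
      simp [zc, hz q ((hout q).2 hq)])
    hω (fun t a => cp (pt W A B c t) J F (extJ J 0 a)) (fun t a => D t (extJ J 0 a))
    (fun a => continuous_cp_pt W A B c (fun _ => F) (fun _ => continuous_const) J _)
    (fun a => cD _) (fun t w a => hasDerivAt_cp W A B c F J _ t w)
    (fun t0 ⟨z0, hz0⟩ z hz t a => by
      have e : z = fun q => z0 (q.1.1, q.2) :=
        zc_injective (hz.symm.trans (funext fun q => congrFun hz0 _))
      refine Eq.trans (cp_congr F fun b hb => ?_) (cp_shift_top W A B c F t0 z0 hz0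
        (fun a => hf _ z0 ⟨Sum.elim t0 0, ?_⟩) J t (extJ J 0 a))
      · funext l
        simp [extJ, hb, e]
      · rw [mv_stp, ← hz0]
        exact (congrArg (mv A t0 + ·) (mv_zero (blk B))).trans (add_zero _) |>.symm)
    (fun d hd t a => by
      refine Eq.trans (cp_congr F fun b hb => ?_) (cp_shift_blk (pt W A B c t) F (extJ J 0 d)
        (fun N a => hf _ _ (level_inU A B (N.piecewise (extJ J 0 d) 0) fun b => ?_)) J (extJ J 0 a))
      · simp [extJ, hb]
      · by_cases hb : b ∈ N
        · rw [piecewise_eq_of_mem _ _ _ hb, extJ]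
          split_ifs
          · exact hd _
          · rw [zc_zero]
            exact inU_zero B
        · rw [piecewise_eq_of_notMem _ _ _ hb, Pi.zero_apply, zc_zero]
          exact inU_zero B)
  have e1 : ∀ t, EP (pt W (fun q : J × ι => A (q.1.1, q.2)) B (fun q => c (q.1.1, q.2)) t)
      (fun a => cp (pt W A B c t) J F (extJ J 0 a) ^ 2) =
      EP (pt W A B c t) fun a => cp (pt W A B c t) J F a ^ 2 := fun t =>
    (EP_restrict (hp t) J 0 (fun a => cp (pt W A B c t) J F a ^ 2) fun a a' ha => by
      rw [cp_congr F ha]).symm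
  have e2 : ∀ t, EP (pt W (fun q : J × ι => A (q.1.1, q.2)) B (fun q => c (q.1.1, q.2)) t)
      (fun a => cp (pt W A B c t) J F (extJ J 0 a)) =
      EP (pt W A B c t) (cp (pt W A B c t) J F) := fun t =>
    (EP_restrict (hp t) J 0 (cp (pt W A B c t) J F) fun a a' ha => cp_congr F ha).symm
  have e3 : ∀ t, EP (pt W (fun q : J × ι => A (q.1.1, q.2)) B (fun q => c (q.1.1, q.2)) t)
      (fun a => nsq (D t (extJ J 0 a))) = EP (pt W A B c t) fun a => nsq (D t a) := fun t =>
    (EP_restrict (hp t) J 0 (fun a => nsq (D t a)) fun a a' ha => by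
      simp only [hD]
      congr 2
      funext q
      rw [cp_congr _ fun b hb => ha b (mem_of_mem_erase hb)]).symm
  simp only [e1, e2, e3] at key
  have e4 : (∫ t in cube (Fin k), EP (pt W A B c t) (cp (pt W A B c t) J F)) ^ 2 =
      if J = ∅ then Ex W (stp A B) c f ^ 2 else 0 := by
    split_ifs with hJ0
    · subst hJ0
      rw [Ex_stp]
      congr 2
      funext t
      rw [show cp (pt W A B c t) ∅ F = fun _ => EP (pt W A B c t) F from funext (cp_empty F),
        EP_const (hp t)]
    · simp [EP_cp (hp _) (nonempty_iff_ne_empty.2 hJ0)]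
  rw [e4] at key
  refine key.trans ?_
  have hM : 0 ≤ 2 * Bc * Fintype.card (β × ι) := by positivity
  have h5 : (∫ t in cube (Fin k), EP (pt W A B c t) fun a => nsq (D t a)) ≤
      ∫ t in cube (Fin k), 2 * Bc * Fintype.card (β × ι) * ∑ b, ∑ l, EP (pt W A B c t) fun a =>
        cp (pt W A B c t) (J.erase b) (Zf W A B c t F b l) a ^ 2 := by
    refine integral_mono (integrableOn_cube (continuous_EP_pt W A B c _ fun a =>
      continuous_finsetSum _ fun i _ => ((continuous_apply i).comp (cD a)).pow 2))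
      (integrableOn_cube (continuous_const.mul (continuous_finsetSum _ fun b _ =>
        continuous_finsetSum _ fun l _ => continuous_EP_pt W A B c _ fun a => (cZ b l a).pow 2)))
      fun t => ?_
    simp only [← EP_sum (hp t), ← EP_mul_left]
    refine EP_mono (hp t) fun a => (nsq_mtv_le A hM (h.up_univ hB hkM) _).trans (le_of_eq ?_)
    rw [nsq, Fintype.sum_prod_type]
    congr 1
    refine sum_congr rfl fun b _ => sum_congr rfl fun l _ => ?_
    split_ifs <;> ring
  rw [integral_const_mul] at h5
  refine (mul_le_mul_of_nonneg_left h5 (by positivity)).trans (le_of_eq ?_)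
  ring

/-- the isoperimetric inequality passes to the next level -/
theorem pi_step (W : Win) {k Cm m m' : ℕ} {Bc Γ Ka G G' : ℝ} (A : β × ι → Fin k → ℤ)
    (B : ι → κ → ℤ) (h : RMP A (blk B) Cm Bc m) (hB : 0 ≤ Bc) (hk : 0 < k)
    (hkM : k ≤ Fintype.card (β × ι)) (hm' : 0 < m') (hmm : m' * Fintype.card ι ≤ m)
    (hG : 0 < G) (hPI : PI W B G) (hΓ : 0 ≤ Γ) (hω : DualW B Γ) (hKa0 : 0 ≤ Ka)
    (hKa : Kashin B Ka) (hG0 : 0 ≤ G')
    (hG' : G' * (1 / (m' * G) +
      8 * Bc * (Bc + 2 + Γ * Bc) * (Fintype.card (β × ι) / k) * W.kap * Ka) ≤ 1) :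
    PI W (stp A B) G' := by
  intro c f hf hinv
  set F : (β → ι → ℤ) → ℝ := fun a => f fun q => a q.1 q.2 with hF
  set C : ℝ := 4 * Bc * (Bc + 2 + Γ * Bc) * (Fintype.card (β × ι) / k) with hC
  have hC0 : 0 ≤ C := by positivity
  have hm0 : (0 : ℝ) < m' := by exact_mod_cast hm'
  have hp := finProb_pt W A B c
  set U : Finset β → (Fin k → ℝ) → ℝ := fun J t =>
    EP (pt W A B c t) fun a => cp (pt W A B c t) J F a ^ 2 with hU
  set Y : Finset β → (Fin k → ℝ) → ℝ := fun J t => ∑ b, ∑ l, EP (pt W A B c t) fun a =>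
    cp (pt W A B c t) (J.erase b) (Zf W A B c t F b l) a ^ 2 with hY
  set P : (Fin k → ℝ) → ℝ := fun t => ∑ b, EP (pt W A B c t) fun a =>
    Per W B (yb A c t b) fun x => f fun q => Function.update a b x q.1 q.2 with hP
  have cU : ∀ J, Continuous (U J) := fun J => continuous_EP_pt W A B c _ fun a =>
    (continuous_cp_pt W A B c (fun _ => F) (fun _ => continuous_const) J a).pow 2
  have cY : ∀ J, Continuous (Y J) := fun J => continuous_finsetSum _ fun b _ =>
    continuous_finsetSum _ fun l _ => continuous_EP_pt W A B c _ fun a =>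
      (continuous_cp_pt W A B c (fun t => Zf W A B c t F b l) (continuous_Zf W A B c F b l)
        _ a).pow 2
  have cy : ∀ b, Continuous fun t => yb A c t b := fun b => continuous_pi fun l =>
    continuous_const.add ((continuous_apply (b, l)).comp (continuous_mv A))
  have cP : Continuous P := continuous_finsetSum _ fun b _ => continuous_EP_pt W A B c _ fun a =>
    (continuous_Per W B fun x => f fun q => Function.update a b x q.1 q.2).comp (cy b)
  have e1 : Ex W (stp A B) c (fun a => f a ^ 2) = ∑ J, ∫ t in cube (Fin k), U J t := by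
    rw [Ex_stp, ← integral_finsetSum _ fun J _ => integrableOn_cube (cU J)]
    congr 1
    funext t
    exact es_parseval (hp t) F
  have e2 : Ex W (stp A B) c f ^ 2 = ∑ J : Finset β, if J = ∅ then Ex W (stp A B) c f ^ 2 else 0 := by
    simp
  have h1 : ∀ J : Finset β,
      (∫ t in cube (Fin k), U J t) - (if J = ∅ then Ex W (stp A B) c f ^ 2 else 0) ≤
        ∫ t in cube (Fin k), (1 / m' * (J.card * U J t) + C * Y J t) := fun J => by
    have a1 : 0 ≤ ∫ t in cube (Fin k), U J t :=
      integral_nonneg fun t => EP_nonneg (hp t) fun _ => sq_nonneg _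
    have a2 : 0 ≤ ∫ t in cube (Fin k), Y J t := integral_nonneg fun t =>
      sum_nonneg fun _ _ => sum_nonneg fun _ _ => EP_nonneg (hp t) fun _ => sq_nonneg _
    rw [integral_add (((integrableOn_cube (cU J)).const_mul _).const_mul _)
      ((integrableOn_cube (cY J)).const_mul _), integral_const_mul, integral_const_mul,
      integral_const_mul]
    rcases le_total J.card m' with hJ | hJ
    · exact (level_comp W A B h hB hk hkM hΓ hω c f hinv J
        ((Nat.mul_le_mul_right _ hJ).trans hmm)).trans (le_add_of_nonneg_left (by positivity))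
    · have a3 : (1 : ℝ) ≤ 1 / m' * J.card := by
        rw [one_div, inv_mul_eq_div, one_le_div hm0]
        exact_mod_cast hJ
      have a4 := mul_le_mul_of_nonneg_right a3 a1
      have a5 : 0 ≤ if J = ∅ then Ex W (stp A B) c f ^ 2 else 0 := by positivity
      have a6 := mul_nonneg hC0 a2
      linarith
  have h2 : ∀ t, ∑ J : Finset β, (1 / m' * (J.card * U J t) + C * Y J t) ≤
      (1 / (m' * G) + 2 * C * W.kap * Ka) * P t := fun t => by
    have a1 : G * ∑ J : Finset β, J.card * U J t ≤ P t := by
      simp only [hU, hP]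
      rw [es_energy (hp t) F, mul_sum]
      refine sum_le_sum fun b _ => ?_
      rw [← EP_mul_left]
      exact EP_mono (hp t) fun a => hPI (yb A c t b) _ (fun _ => hf _) (level_inv hinv a b)
    have a2 : ∑ J : Finset β, Y J t ≤ 2 * (W.kap * Ka) * P t := by
      simp only [hY, hP]
      rw [sum_comm, mul_sum]
      refine sum_le_sum fun b _ => ?_
      rw [sum_comm]
      refine (sum_le_sum fun l _ => es_erase (hp t) b _).trans ?_
      rw [← mul_sum, ← EP_sum (hp t), mul_assoc, ← EP_mul_left (W.kap * Ka)]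
      exact mul_le_mul_of_nonneg_left (EP_mono (hp t) fun a =>
        grad_bound W B hKa0 hKa (yb A c t b) _ (fun _ => hf _) (level_inv hinv a b)) zero_le_two
    rw [sum_add_distrib, ← mul_sum, ← mul_sum]
    have a3 := mul_le_mul_of_nonneg_left a1 (show 0 ≤ 1 / (m' * G) by positivity)
    have a4 := mul_le_mul_of_nonneg_left a2 hC0
    have a5 : 1 / (m' * G) * (G * ∑ J : Finset β, J.card * U J t) =
        1 / m' * ∑ J : Finset β, J.card * U J t := by
      generalize ∑ J : Finset β, J.card * U J t = x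
      field_simp
    linarith
  have cS : ∀ J : Finset β, Continuous fun t => 1 / m' * (J.card * U J t) + C * Y J t := fun J =>
    (continuous_const.mul (continuous_const.mul (cU J))).add (continuous_const.mul (cY J))
  have h3 : Ex W (stp A B) c (fun a => f a ^ 2) - Ex W (stp A B) c f ^ 2 ≤
      (1 / (m' * G) + 2 * C * W.kap * Ka) * Per W (stp A B) c f := by
    rw [e1, e2, ← sum_sub_distrib, Per_stp, ← integral_const_mul]
    refine (sum_le_sum fun J _ => h1 J).trans ?_
    rw [← integral_finsetSum _ fun J _ => integrableOn_cube (cS J)]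
    exact integral_mono (integrableOn_cube (continuous_finsetSum _ fun J _ => cS J))
      (integrableOn_cube (continuous_const.mul cP)) h2
  have h4 := mul_le_mul_of_nonneg_left h3 hG0
  have h5 := mul_le_mul_of_nonneg_right hG' (Per_nonneg W (stp A B) c f)
  have h6 : 8 * Bc * (Bc + 2 + Γ * Bc) * (Fintype.card (β × ι) / k) = 2 * C := by
    rw [hC]
    ring
  rw [h6] at h5
  linarith

end Vale.Agent.P318
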