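import Vale.Agent.P318.Ind
import Vale.Agent.P318.Fin

open Finset MeasureTheory

noncomputable section

namespace Vale.Agent.P318

theorem main_pick (p N1 : ℕ) (hp : 1 ≤ p) : ∃ n0 : ℕ, ∀ n : ℕ, n0 ≤ n → ∃ N : ℕ, N1 ≤ N ∧
    Real.exp (2 * (N : ℝ) ^ p) ≤ n ∧ Real.log n ≤ 2 * ((N : ℝ) + 1) ^ p := by
  refine ⟨⌈Real.exp (2 * (N1 : ℝ) ^ p)⌉₊, fun n hn => ?_⟩
  have hex : ∃ j : ℕ, (n : ℝ) < Real.exp (2 * ((N1 + j : ℕ) + 1 : ℝ) ^ p) := by
    refine ⟨n, ?_⟩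
    have a1 : ((N1 + n : ℕ) + 1 : ℝ) ≤ ((N1 + n : ℕ) + 1 : ℝ) ^ p :=
      le_self_pow₀ (by linarith [Nat.cast_nonneg (α := ℝ) (N1 + n)]) (by omega)
    have a2 := Real.add_one_le_exp (2 * ((N1 + n : ℕ) + 1 : ℝ) ^ p)
    push_cast at a1 a2 ⊢
    linarith [Nat.cast_nonneg (α := ℝ) N1, Nat.cast_nonneg (α := ℝ) n]
  have hn0 : (0 : ℝ) < n := (Real.exp_pos _).trans_le (Nat.ceil_le.1 hn)
  refine ⟨N1 + Nat.find hex, Nat.le_add_right _ _, ?_, ?_⟩
  · rcases h : Nat.find hex with _ | j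
    · simpa using Nat.ceil_le.1 hn
    · have := Nat.find_min hex (m := j) (by omega)
      rw [not_lt] at this
      push_cast at this ⊢
      rwa [← add_assoc]
  · exact (Real.log_le_iff_le_exp hn0).2 (Nat.find_spec hex).le

theorem sparsity_nonneg {n : ℕ} {c : Fin n → Fin n → ℝ} (hc : IsCap c) : 0 ≤ sparsity c := by
  refine Real.sInf_nonneg ?_
  rintro _ ⟨S, -, -, rfl⟩
  refine div_nonneg (sum_nonneg fun i _ => sum_nonneg fun j _ => hc.1 i j)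
    (mul_nonneg (Nat.cast_nonneg _) (sub_nonneg.2 ?_))
  exact_mod_cast (card_le_univ S).trans_eq (Fintype.card_fin n)

theorem main_key {x M e : ℝ} {r D E : ℕ} (h0 : 0 < x) (hx : 1000000 ≤ x) (hre : 2 ≤ (r : ℝ) * e)
    (hE : E = 2 * D + 2) (hr1 : 1 ≤ r) (he0 : 0 < e) (hM : M = x ^ (2 * E * r)) :
    x ^ (((2 * E * r + 2 : ℕ) : ℝ) * (1 / 2 - e)) * (1000000 * (x ^ D * M)) ≤
      x ^ (E * (r - 1)) / x ^ D * M ^ (1 - e / 2) := by
  have h1 : 1 ≤ x := by linarith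
  obtain ⟨r', rfl⟩ : ∃ r', r = r' + 1 := ⟨r - 1, by omega⟩
  rw [Nat.add_sub_cancel, hM, ← Real.rpow_natCast x (2 * E * (r' + 1)),
    ← Real.rpow_mul h0.le, ← Real.rpow_natCast x D, ← Real.rpow_natCast x (E * r'),
    ← Real.rpow_sub h0, ← Real.rpow_add h0, ← Real.rpow_add h0]
  calc _ ≤ x ^ (((2 * E * (r' + 1) + 2 : ℕ) : ℝ) * (1 / 2 - e)) *
        (x ^ (1 : ℝ) * x ^ ((D : ℝ) + ((2 * E * (r' + 1) : ℕ) : ℝ))) := by
        rw [Real.rpow_one]; gcongr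
    _ ≤ _ := by
        rw [← Real.rpow_add h0, ← Real.rpow_add h0]
        refine Real.rpow_le_rpow_of_exponent_le h1 ?_
        have hER : (E : ℝ) = 2 * D + 2 := by rw [hE]; push_cast; rfl
        have hE0 : (0 : ℝ) ≤ E := Nat.cast_nonneg _
        push_cast at hre ⊢
        nlinarith [mul_le_mul_of_nonneg_left hre hE0]

theorem main (ε : ℝ) (hε : 0 < ε) : ∃ n0 : ℕ, ∀ n : ℕ, n0 ≤ n → ∃ c : Fin n → Fin n → ℝ,
    IsCap c ∧ 0 < glValue c ∧ Real.log n ^ (1 / 2 - ε) * glValue c ≤ sparsity c := by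
  obtain ⟨e, he0, he1, heε⟩ : ∃ e : ℝ, 0 < e ∧ e ≤ 1 / 2 ∧ e ≤ ε :=
    ⟨min ε (1 / 2), lt_min hε (by norm_num), min_le_right _ _, min_le_left _ _⟩
  obtain ⟨r, hr⟩ := exists_nat_ge (2 / e)
  have hre : 2 ≤ (r : ℝ) * e := (div_le_iff₀ he0).1 hr
  have hr1 : 1 ≤ r := by
    rcases r with _ | r
    · norm_num at hre
    · omega
  obtain ⟨s1, hs1⟩ := exists_nat_ge ((3 * r + 2) / (e / 2))
  have hs1' : 3 * (r : ℝ) + 2 ≤ s1 * (e / 2) := (div_le_iff₀ (by positivity)).1 hs1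
  obtain ⟨D, hD⟩ := exists_core r (3 * r + 2 + s1) hr1 (by omega)
  obtain ⟨E, hE⟩ : ∃ E, E = 2 * D + 2 := ⟨_, rfl⟩
  obtain ⟨N0, hN0⟩ := hD E (by omega)
  obtain ⟨N2, hN2⟩ := exists_nat_ge (8 / e)
  obtain ⟨n0, hn0⟩ := main_pick (2 * E * r + 1)
    (max (max N0 N2) (max 1000000 (2 ^ (2 * E * r + 2)))) (by omega)
  refine ⟨n0, fun n hn => ?_⟩
  obtain ⟨N, hN, hlo, hhi⟩ := hn0 n hn
  simp only [max_le_iff] at hN
  obtain ⟨V, ι, _, _, _, μ, w, x, Gd, hι, hc, hV⟩ := hN0 N hN.1.1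
  have hNb : (1000000 : ℝ) ≤ N := by exact_mod_cast hN.2.1
  have h0 : (0 : ℝ) < N := by linarith
  have h1 : (1 : ℝ) ≤ N := by linarith
  have hM : (Fintype.card ι : ℝ) = (N : ℝ) ^ (2 * E * r) := by rw [hι]; push_cast; rfl
  have hM1 : (1 : ℝ) ≤ Fintype.card ι := by rw [hM]; exact one_le_pow₀ h1
  have hlo' : Real.exp (N * Fintype.card ι) * Real.exp (N * Fintype.card ι) ≤ n := by
    rw [← Real.exp_add, hM]
    refine le_trans (le_of_eq ?_) hlo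
    congr 1; ring
  have hexp : 6400 * (Fintype.card ι : ℝ) ^ 2 ≤ Real.exp (N * Fintype.card ι) := by
    have := Real.quadratic_le_exp_of_nonneg (show (0 : ℝ) ≤ N * Fintype.card ι by positivity)
    have a1 : 12800 * (Fintype.card ι : ℝ) ^ 2 ≤ (N * Fintype.card ι) ^ 2 := by
      rw [mul_pow]; gcongr; nlinarith
    nlinarith [show (0 : ℝ) ≤ N * Fintype.card ι by positivity]
  have hn6 : (6400 : ℝ) ≤ n := by
    have a1 : (1 : ℝ) ≤ Real.exp (N * Fintype.card ι) := Real.one_le_exp (by positivity)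
    nlinarith
  obtain ⟨c, hcap, hgl, hgap⟩ := fin_gap hc (α := 1 - e / 2) (Kk := (N : ℝ) ^ s1) (by linarith)
    (by linarith) (one_le_pow₀ h1) (by positivity) (by positivity)
    (by
      have a1 : 2 * ((N : ℝ) ^ (3 * r + 1) / (N : ℝ) ^ (3 * r + 2 + s1)) * ((N : ℝ) ^ s1 + 1) ≤
          e / 2 := by
        have b1 : (1 : ℝ) ≤ (N : ℝ) ^ s1 := one_le_pow₀ h1
        have b2 : 8 ≤ N * e := by
          have : (N2 : ℝ) ≤ N := by exact_mod_cast hN.1.2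
          exact (div_le_iff₀ he0).1 (hN2.trans this)
        calc _ ≤ 2 * ((N : ℝ) ^ (3 * r + 1) / (N : ℝ) ^ (3 * r + 2 + s1)) *
              ((N : ℝ) ^ s1 + (N : ℝ) ^ s1) := by gcongr
          _ = 4 / N := by field_simp; ring
          _ ≤ e / 2 := by rw [div_le_div_iff₀ h0 (by norm_num)]; linarith
      nlinarith)
    (by
      rw [← Real.rpow_natCast (N : ℝ) s1, ← Real.rpow_mul h0.le]
      calc 1 + 2 * (2 * (N : ℝ) ^ (3 * r)) ≤ (N : ℝ) ^ (3 * r + 2) := by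
            have b1 : (1 : ℝ) ≤ (N : ℝ) ^ (3 * r) := one_le_pow₀ h1
            rw [pow_add]; nlinarith [show (5 : ℝ) ≤ (N : ℝ) ^ 2 by nlinarith]
        _ = (N : ℝ) ^ ((3 * r + 2 : ℕ) : ℝ) := (Real.rpow_natCast _ _).symm
        _ ≤ _ := Real.rpow_le_rpow_of_exponent_le h1 (by push_cast; linarith))
    (by positivity) (by positivity) (by exact_mod_cast hM1) (by positivity)
    (by rw [one_div_mul_cancel (by positivity)]) n (by exact_mod_cast (by linarith : (2 : ℝ) ≤ n))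
    (by
      rw [mul_one_div, le_div_iff₀ (by positivity)]
      exact (mul_le_mul hV hexp (by positivity) (by positivity)).trans hlo')
  refine ⟨c, hcap, hgl, ?_⟩
  have hΦ := sparsity_nonneg hcap
  have hlog : Real.log n ≤ (N : ℝ) ^ (2 * E * r + 2) := by
    have a1 : (2 : ℝ) ^ (2 * E * r + 2) ≤ N := by exact_mod_cast hN.2.2
    calc Real.log n ≤ 2 * ((N : ℝ) + 1) ^ (2 * E * r + 1) := hhi
      _ ≤ 2 * (2 * (N : ℝ)) ^ (2 * E * r + 1) := by gcongr; linarith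
      _ = 2 ^ (2 * E * r + 2) * (N : ℝ) ^ (2 * E * r + 1) := by rw [mul_pow]; ring
      _ ≤ N * (N : ℝ) ^ (2 * E * r + 1) := by gcongr
      _ = _ := by ring
  have hlog1 : 1 ≤ Real.log n := by
    rw [Real.le_log_iff_exp_le (by linarith)]
    linarith [Real.exp_one_lt_d9]
  have hpow : Real.log n ^ (1 / 2 - ε) ≤ (N : ℝ) ^ (((2 * E * r + 2 : ℕ) : ℝ) * (1 / 2 - e)) := by
    refine (Real.rpow_le_rpow_of_exponent_le hlog1 (by linarith : 1 / 2 - ε ≤ 1 / 2 - e)).trans ?_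
    rw [Real.rpow_mul h0.le, Real.rpow_natCast]
    exact Real.rpow_le_rpow (by linarith) hlog (by linarith)
  have key := main_key h0 hNb hre hE hr1 he0 hM
  have hWt : 0 < 1000000 * ((N : ℝ) ^ D * Fintype.card ι) := by positivity
  refine le_of_mul_le_mul_left ?_ hWt
  calc 1000000 * ((N : ℝ) ^ D * Fintype.card ι) * (Real.log n ^ (1 / 2 - ε) * glValue c)
      = Real.log n ^ (1 / 2 - ε) * (1000000 * ((N : ℝ) ^ D * Fintype.card ι)) * glValue c := by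
        ring
    _ ≤ (N : ℝ) ^ (((2 * E * r + 2 : ℕ) : ℝ) * (1 / 2 - e)) *
        (1000000 * ((N : ℝ) ^ D * Fintype.card ι)) * glValue c := by gcongr
    _ ≤ _ := (mul_le_mul_of_nonneg_right key hgl.le).trans hgap

end Vale.Agent.P318
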