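import Vale.Agent.P318.Basic

open Finset MeasureTheory

noncomputable section

namespace Vale.Agent.P318

theorem neg_pow_psd {ι : Type} [Fintype ι] {n : ℕ} (x : Fin n → ι → ℝ) (c : Fin n → ℝ) (r : ℕ) :
    0 ≤ ∑ i, ∑ j, c i * c j * ip (x i) (x j) ^ r := by
  classical
  have e : ∑ i, ∑ j, c i * c j * ip (x i) (x j) ^ r =
      ∑ f : Fin r → ι, (∑ i, c i * ∏ s, x i (f s)) ^ 2 := by
    simp only [pow_two, sum_mul_sum]
    simp only [ip, Fintype.sum_pow, mul_sum, prod_mul_distrib]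
    rw [sum_comm (γ := Fin r → ι)]
    refine sum_congr rfl fun i _ => ?_
    rw [sum_comm (γ := Fin r → ι)]
    exact sum_congr rfl fun j _ => sum_congr rfl fun f _ => by ring
  rw [e]
  exact sum_nonneg fun _ _ => sq_nonneg _

theorem neg_exp_psd {ι : Type} [Fintype ι] {n : ℕ} (x : Fin n → ι → ℝ) (c : Fin n → ℝ) {u : ℝ}
    (hu : 0 ≤ u) : 0 ≤ ∑ i, ∑ j, c i * c j * Real.exp (u * ip (x i) (x j)) := by
  have h := hasSum_sum (s := univ) fun i _ => hasSum_sum (s := univ) fun j _ =>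
    (NormedSpace.expSeries_div_hasSum_exp (u * ip (x i) (x j))).mul_left (c i * c j)
  rw [← Real.exp_eq_exp_ℝ] at h
  refine h.nonneg fun r => ?_
  have e : ∑ i, ∑ j, c i * c j * ((u * ip (x i) (x j)) ^ r / (r.factorial : ℝ)) =
      u ^ r / (r.factorial : ℝ) * ∑ i, ∑ j, c i * c j * ip (x i) (x j) ^ r := by
    simp only [mul_sum]
    exact sum_congr rfl fun i _ => sum_congr rfl fun j _ => by ring
  rw [e]
  exact mul_nonneg (by positivity) (neg_pow_psd x c r)

theorem neg_gauss_psd {ι : Type} [Fintype ι] {n : ℕ} (x : Fin n → ι → ℝ) (c : Fin n → ℝ) {u : ℝ}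
    (hu : 0 ≤ u) : 0 ≤ ∑ i, ∑ j, c i * c j * Real.exp (-(u * nsq (x i - x j))) := by
  refine (neg_exp_psd x (fun i => c i * Real.exp (-(u * nsq (x i)))) (u := 2 * u)
    (by positivity)).trans (le_of_eq ?_)
  refine sum_congr rfl fun i _ => sum_congr rfl fun j _ => ?_
  have : -(u * nsq (x i - x j)) = -(u * nsq (x i)) + -(u * nsq (x j)) + 2 * u * ip (x i) (x j) := by
    rw [nsq_sub]; ring
  rw [this, Real.exp_add, Real.exp_add]
  ring

theorem neg_int_sum {n : ℕ} (c : Fin n → ℝ) (F : Fin n → Fin n → ℝ → ℝ) (μ : Measure ℝ)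
    (h : ∀ i j, Integrable (F i j) μ) :
    ∑ i, ∑ j, c i * c j * ∫ t, F i j t ∂μ = ∫ t, ∑ i, ∑ j, c i * c j * F i j t ∂μ := by
  rw [integral_finsetSum _ fun i _ => integrable_finsetSum _ fun j _ => (h i j).const_mul _]
  refine sum_congr rfl fun i _ => ?_
  rw [integral_finsetSum _ fun j _ => (h i j).const_mul _]
  simp only [integral_const_mul]

theorem neg_inv_psd {ι : Type} [Fintype ι] {n : ℕ} (x : Fin n → ι → ℝ) (c : Fin n → ℝ) {t : ℝ}
    (ht : 0 < t) : 0 ≤ ∑ i, ∑ j, c i * c j * (t + nsq (x i - x j))⁻¹ := by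
  have ha : ∀ i j, -(t + nsq (x i - x j)) < 0 := fun i j => by
    have := nsq_nonneg (x i - x j)
    linarith
  have e : ∀ i j, (t + nsq (x i - x j))⁻¹ =
      ∫ u in Set.Ioi (0 : ℝ), Real.exp (-(t + nsq (x i - x j)) * u) := fun i j => by
    rw [integral_exp_mul_Ioi (ha i j), mul_zero, Real.exp_zero, neg_div_neg_eq, one_div]
  simp only [e]
  rw [neg_int_sum c _ _ fun i j => integrableOn_exp_mul_Ioi (ha i j) 0]
  refine setIntegral_nonneg measurableSet_Ioi fun u hu => ?_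
  refine (mul_nonneg (Real.exp_pos (-(t * u))).le (neg_gauss_psd x c (le_of_lt hu))).trans
    (le_of_eq ?_)
  simp only [mul_sum]
  refine sum_congr rfl fun i _ => sum_congr rfl fun j _ => ?_
  have : -(t + nsq (x i - x j)) * u = -(t * u) + -(u * nsq (x i - x j)) := by ring
  rw [this, Real.exp_add]
  ring

theorem neg_type {ι : Type} [Fintype ι] {n : ℕ} (x : Fin n → ι → ℝ) {α : ℝ} (h0 : 0 < α)
    (h1 : α < 1) (c : Fin n → ℝ) (hc : ∑ i, c i = 0) :
    ∑ i, ∑ j, c i * c j * nsq (x i - x j) ^ α ≤ 0 := by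
  obtain ⟨μ, hμ⟩ := Real.exists_measure_rpow_eq_integral_rpowIntegrand₀₁ (p := α) ⟨h0, h1⟩
  have e : ∀ i j, nsq (x i - x j) ^ α =
      ∫ t in Set.Ioi 0, Real.rpowIntegrand₀₁ α t (nsq (x i - x j)) ∂μ := fun i j =>
    (hμ _ (nsq_nonneg _)).2
  simp only [e]
  rw [neg_int_sum c _ _ fun i j => (hμ _ (nsq_nonneg _)).1]
  refine setIntegral_nonpos measurableSet_Ioi fun t ht => ?_
  have ht' : 0 < t := ht
  have e2 : ∑ i, ∑ j, c i * c j * Real.rpowIntegrand₀₁ α t (nsq (x i - x j)) =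
      t ^ α * t⁻¹ * ((∑ i, c i) * ∑ j, c j) -
        t ^ α * ∑ i, ∑ j, c i * c j * (t + nsq (x i - x j))⁻¹ := by
    rw [sum_mul_sum]
    simp only [Real.rpowIntegrand₀₁, mul_sum, ← sum_sub_distrib]
    exact sum_congr rfl fun i _ => sum_congr rfl fun j _ => by ring
  rw [e2, hc, mul_zero, mul_zero, zero_sub, neg_nonpos]
  exact mul_nonneg (by positivity) (neg_inv_psd x c ht')

open scoped MatrixOrder in
theorem neg_embed {n : ℕ} (d : Fin n → Fin n → ℝ) (o : Fin n) (hs : ∀ i j, d i j = d j i)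
    (h0 : ∀ i, d i i = 0) (h : ∀ c : Fin n → ℝ, ∑ i, c i = 0 → ∑ i, ∑ j, c i * c j * d i j ≤ 0) :
    ∃ y : Fin n → EuclideanSpace ℝ (Fin n), ∀ i j, d i j = ‖y i - y j‖ ^ 2 := by
  let G : Matrix (Fin n) (Fin n) ℝ := Matrix.of fun i j => (d i o + d j o - d i j) / 2
  have hG : G.PosSemidef := by
    refine Matrix.PosSemidef.of_dotProduct_mulVec_nonneg ?_ fun c => ?_
    · ext i j
      simp only [G, Matrix.conjTranspose_apply, Matrix.of_apply, star_trivial, hs j i, add_comm]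
    · set s := ∑ i, c i with hsdef
      have h1 := h (fun i => c i - if i = o then s else 0) (by simp [hsdef])
      have h2 : ∀ i, ∑ j, (c j - if j = o then s else 0) * d i j = ∑ j, c j * d i j - s * d i o :=
        fun i => by simp [sub_mul]
      have h3 : ∑ i, ∑ j, (c i - if i = o then s else 0) * (c j - if j = o then s else 0) * d i j =
          ∑ i, c i * ∑ j, c j * d i j - 2 * s * ∑ i, c i * d i o := by
        simp only [mul_assoc, ← mul_sum, h2]
        simp only [sub_mul, mul_sub, sum_sub_distrib, ite_mul, zero_mul, sum_ite_eq', mem_univ,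
          if_true, h0, mul_zero, hs o, mul_left_comm _ s, ← mul_sum]
        ring
      have h4 : star c ⬝ᵥ G.mulVec c =
          s * ∑ i, c i * d i o - 1 / 2 * ∑ i, c i * ∑ j, c j * d i j := by
        have h5 : ∀ i, G.mulVec c i =
            d i o * s / 2 + (∑ j, c j * d j o) / 2 - (∑ j, c j * d i j) / 2 := fun i => by
          simp only [G, Matrix.mulVec, dotProduct, Matrix.of_apply, hsdef, mul_sum, sum_div,
            ← sum_add_distrib, ← sum_sub_distrib]
          exact sum_congr rfl fun j _ => by ring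
        have h6 : ∀ i, c i * (d i o * s / 2 + (∑ j, c j * d j o) / 2 - (∑ j, c j * d i j) / 2) =
            s / 2 * (c i * d i o) + (∑ j, c j * d j o) / 2 * c i -
              1 / 2 * (c i * ∑ j, c j * d i j) := fun i => by ring
        simp only [dotProduct, star_trivial, h5, h6, sum_sub_distrib, sum_add_distrib, ← mul_sum,
          ← hsdef]
        ring
      rw [h4]
      linarith
  obtain ⟨B, hB⟩ := CStarAlgebra.nonneg_iff_eq_star_mul_self.1 hG.nonneg
  have hB' : ∀ i j, (d i o + d j o - d i j) / 2 = ∑ r, B r i * B r j := fun i j => by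
    simpa [G, Matrix.mul_apply, Matrix.star_apply] using congrFun (congrFun hB i) j
  refine ⟨fun i => WithLp.toLp 2 fun r => B r i, fun i j => ?_⟩
  have e : ∑ r, (B r i - B r j) ^ 2 =
      ∑ r, B r i * B r i + ∑ r, B r j * B r j - 2 * ∑ r, B r i * B r j := by
    simp only [mul_sum, ← sum_add_distrib, ← sum_sub_distrib]
    exact sum_congr rfl fun r _ => by ring
  rw [EuclideanSpace.real_norm_sq_eq]
  simp only [PiLp.sub_apply]
  rw [e, ← hB', ← hB', ← hB', h0, h0]
  ring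

/-- powers of the squared Euclidean distance are of negative type -/
theorem neg_rpow {ι : Type} [Fintype ι] {n : ℕ} (x : Fin n → ι → ℝ) {α : ℝ} (h0 : 0 < α)
    (h1 : α < 1) : ∃ y : Fin n → EuclideanSpace ℝ (Fin n),
      ∀ i j, nsq (x i - x j) ^ α = ‖y i - y j‖ ^ 2 := by
  rcases Nat.eq_zero_or_pos n with rfl | hn
  · exact ⟨fun _ => 0, fun i => i.elim0⟩
  refine neg_embed (fun i j => nsq (x i - x j) ^ α) ⟨0, hn⟩ (fun i j => by rw [nsq_sub_comm])
    (fun i => ?_) (neg_type x h0 h1)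
  rw [sub_self, nsq_zero, Real.zero_rpow h0.ne']

theorem neg_tri {a b w α Kk ε C0 : ℝ} (h0 : 0 < α) (h1 : α < 1)
    (hK : 1 ≤ Kk) (hε : 0 ≤ ε) (hC0 : 0 ≤ C0) (hα : α * (1 + 2 * ε * (Kk + 1)) ≤ 1)
    (hKC : 1 + 2 * C0 ≤ Kk ^ (1 - α)) (hb : 0 ≤ b) (hba : b ≤ a) (hc : 0 ≤ a - 2 * w + b)
    (t1 : -w ≤ ε * (a + b)) (t2 : -w ≤ C0 * b) : (a - 2 * w + b) ^ α ≤ a ^ α + b ^ α := by
  rcases hb.eq_or_lt with rfl | hb
  · rw [mul_zero] at t2
    rw [Real.zero_rpow h0.ne', add_zero (a ^ α)]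
    exact Real.rpow_le_rpow hc (by linarith) h0.le
  have ha : 0 < a := hb.trans_le hba
  have e1 : a - 2 * w + b = a * (1 + (b - 2 * w) / a) := by field_simp; ring
  have e2 : -1 ≤ (b - 2 * w) / a := by rw [le_div_iff₀ ha]; linarith
  have e3 := rpow_one_add_le_one_add_mul_self e2 h0.le h1.le
  have e4 : a ^ α * (1 + α * ((b - 2 * w) / a)) = a ^ α + α * (b - 2 * w) * a ^ (α - 1) := by
    rw [Real.rpow_sub_one ha.ne']; ring
  have e5 : b ^ α = b * b ^ (α - 1) := by
    rw [Real.rpow_sub_one hb.ne']; field_simp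
  rw [e1, Real.mul_rpow ha.le (by linarith)]
  refine (mul_le_mul_of_nonneg_left e3 (by positivity)).trans ?_
  rw [e4, add_le_add_iff_left, e5]
  rcases le_total a (Kk * b) with h | h
  · refine mul_le_mul ?_ (Real.rpow_le_rpow_of_nonpos hb hba (by linarith)) (by positivity) hb.le
    have d1 := mul_le_mul_of_nonneg_left h hε
    have d2 : b - 2 * w ≤ (1 + 2 * ε * (Kk + 1)) * b := by linarith
    have d3 := mul_le_mul_of_nonneg_left d2 h0.le
    have d4 := mul_le_mul_of_nonneg_right hα hb.le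
    linarith
  · have hK0 : 0 < Kk := by linarith
    have d1 : a ^ (α - 1) ≤ Kk ^ (α - 1) * b ^ (α - 1) := by
      rw [← Real.mul_rpow hK0.le hb.le]
      exact Real.rpow_le_rpow_of_nonpos (by positivity) h (by linarith)
    have d2 : α * (b - 2 * w) ≤ Kk ^ (1 - α) * b := by
      have d3 := mul_le_mul_of_nonneg_right hKC hb.le
      have d4 : b - 2 * w ≤ (1 + 2 * C0) * b := by linarith
      have d5 := mul_le_mul_of_nonneg_left d4 h0.le
      have d6 := mul_le_mul_of_nonneg_right h1.le (show 0 ≤ (1 + 2 * C0) * b by positivity)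
      linarith
    refine (mul_le_mul d2 d1 (by positivity) (by positivity)).trans (le_of_eq ?_)
    have d7 : Kk ^ (1 - α) * Kk ^ (α - 1) = 1 := by
      rw [← Real.rpow_add hK0]; simp
    linear_combination (b * b ^ (α - 1)) * d7

/-- triangle inequality for the snowflaked squared distance -/
theorem tri_rpow {ι : Type} [Fintype ι] (x y z : ι → ℝ) {α Kk ε C0 : ℝ} (h0 : 0 < α) (h1 : α < 1)
    (hK : 1 ≤ Kk) (hε : 0 ≤ ε) (hC0 : 0 ≤ C0) (hα : α * (1 + 2 * ε * (Kk + 1)) ≤ 1)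
    (hKC : 1 + 2 * C0 ≤ Kk ^ (1 - α))
    (t1 : -ip (x - y) (z - y) ≤ ε * (nsq (x - y) + nsq (z - y)))
    (t2 : -ip (x - y) (z - y) ≤ C0 * nsq (z - y)) (t3 : -ip (x - y) (z - y) ≤ C0 * nsq (x - y)) :
    nsq (x - z) ^ α ≤ nsq (x - y) ^ α + nsq (y - z) ^ α := by
  have e : x - z = (x - y) - (z - y) := by abel
  rw [nsq_sub_comm y z, e, nsq_sub]
  have hc := nsq_nonneg ((x - y) - (z - y))
  rw [nsq_sub] at hc
  rcases le_total (nsq (z - y)) (nsq (x - y)) with h | h
  · exact neg_tri h0 h1 hK hε hC0 hα hKC (nsq_nonneg _) h hc t1 t2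
  · have := neg_tri (w := ip (x - y) (z - y)) h0 h1 hK hε hC0 hα hKC (nsq_nonneg _) h (by linarith)
      (by rwa [add_comm]) t3
    rw [add_comm (nsq (x - y) ^ α)]
    refine le_trans (le_of_eq (congrArg (· ^ α) ?_)) this
    ring

end Vale.Agent.P318
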