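import Vale.Agent.P318.PCA

open Finset MeasureTheory

noncomputable section

namespace Vale.Agent.P318

variable {ι κ : Type} [Fintype ι] [DecidableEq ι] [Fintype κ]

omit [DecidableEq ι] in
theorem pc_swap2 {H : (κ → ℝ) → (ι → ℝ) → ℝ} (hH : Continuous (Function.uncurry H))
    (h0 : ∀ τ s, H τ s ≠ 0 → ∀ l, |s l| ≤ 2) :
    ∫ τ in cube κ, ∫ s, H τ s = ∫ s, ∫ τ in cube κ, H τ s := by
  have hz : ∀ τ, ∀ s ∉ Set.Icc (fun _ : ι => (-2 : ℝ)) (fun _ => 2), H τ s = 0 :=
    fun τ s hs => by_contra fun h =>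
      hs ⟨fun l => (abs_le.1 (h0 τ s h l)).1, fun l => (abs_le.1 (h0 τ s h l)).2⟩
  have e1 := fun τ => setIntegral_eq_integral_of_forall_compl_eq_zero (μ := volume) (hz τ)
  have e2 := setIntegral_eq_integral_of_forall_compl_eq_zero (μ := volume)
    (f := fun s => ∫ τ in cube κ, H τ s) (s := Set.Icc (fun _ : ι => (-2 : ℝ)) (fun _ => 2))
    (fun s hs => by simp [hz _ s hs])
  rw [← e2, ← pca_swap isCompact_Icc hH]
  simp only [e1]

/-- exchange of the two weights by translating along the fibre -/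
theorem pc_swap (A : ι → κ → ℤ) (c : ι → ℝ) (R : (ι → ℝ) →ₗ[ℝ] (κ → ℝ))
    (hR : ∀ s, mv A (R s) = s) (w1 w2 : (ι → ℝ) → ℝ) (h1 : Continuous w1) (h2 : Continuous w2)
    (s1 : ∀ x, w1 x ≠ 0 → ∀ l, |x l| ≤ 1) (s2 : ∀ x, w2 x ≠ 0 → ∀ l, |x l| ≤ 1)
    (g : (κ → ℝ) → (ι → ℤ) → ℝ) (hg : ∀ a, Continuous fun τ => g τ a)
    (heq : ∀ (n : κ → ℤ) (z : ι → ℤ), mv A (zc n) = zc z → ∀ τ a, g (τ + zc n) (a + z) = g τ a) :
    ∫ τ in cube κ, ∑' a : ι → ℤ, w1 (zc a - c - mv A τ) *
        ∫ s : ι → ℝ, w2 (zc a - c - mv A τ - s) * g (τ + R s) a =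
      (∫ x, w1 x) * ∫ τ in cube κ, ∑' a : ι → ℤ, w2 (zc a - c - mv A τ) * g τ a := by
  have p1 : PcW w1 := ⟨h1, s1⟩
  have p2 : PcW w2 := ⟨h2, s2⟩
  have cR : Continuous R := R.continuous_of_finiteDimensional
  have cm := continuous_mv A
  have two : ∀ x s : ι → ℝ, w1 x ≠ 0 → w2 (x - s) ≠ 0 → ∀ l, |s l| ≤ 2 := fun x s a1 a2 l => by
    have b1 := abs_le.1 (s1 _ a1 l)
    have b2 := abs_le.1 (s2 _ a2 l)
    rw [Pi.sub_apply] at b2
    rw [abs_le]
    constructor <;> linarith [b1.1, b1.2, b2.1, b2.2]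
  have e1 : ∀ τ, ∑' a : ι → ℤ, w1 (zc a - c - mv A τ) *
      ∫ s : ι → ℝ, w2 (zc a - c - mv A τ - s) * g (τ + R s) a =
      ∫ s : ι → ℝ, ∑' a : ι → ℤ, w1 (zc a - c - mv A τ) *
        (w2 (zc a - c - mv A τ - s) * g (τ + R s) a) := fun τ => by
    simp only [sub_sub _ c]
    refine (pca_int_tsum _ w1 s1 _ (fun a s => w2 (zc a - (c + mv A τ) - s) * g (τ + R s) a)
      fun a => prodp_int (p := fun s => w2 (zc a - (c + mv A τ) - s)) (by fun_prop) ?_
        ((hg a).comp (by fun_prop))).symm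
    exact p2.cpt.comp_homeomorph (Homeomorph.subLeft _)
  have e2 : ∀ τ, ∫ s : ι → ℝ, ∑' a : ι → ℤ, w2 (zc a - c - mv A τ) *
      (w1 (zc a - c - mv A τ + s) * g τ a) =
      (∫ x, w1 x) * ∑' a : ι → ℤ, w2 (zc a - c - mv A τ) * g τ a := fun τ => by
    simp only [sub_sub _ c]
    rw [pca_int_tsum _ w2 s2 _ (fun a s => w1 (zc a - (c + mv A τ) + s) * g τ a)
      fun a => prodp_int (p := fun s => w1 (zc a - (c + mv A τ) + s)) (by fun_prop)
        (p1.cpt.comp_homeomorph (Homeomorph.addLeft _)) continuous_const, ← tsum_mul_left]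
    refine tsum_congr fun a => ?_
    rw [integral_mul_const, integral_add_left_eq_self w1]
    ring
  have c1 : Continuous (Function.uncurry fun (τ : κ → ℝ) (s : ι → ℝ) => ∑' a : ι → ℤ,
      w1 (zc a - c - mv A τ) * (w2 (zc a - c - mv A τ - s) * g (τ + R s) a)) :=
    pcS_cont' (Y := (κ → ℝ) × (ι → ℝ)) p1 continuous_fst
      (g := fun y a => w2 (zc a - c - mv A y.1 - y.2) * g (y.1 + R y.2) a)
      fun a => Continuous.fun_mul (by fun_prop) ((hg a).comp (by fun_prop))
  have c2 : Continuous (Function.uncurry fun (τ : κ → ℝ) (s : ι → ℝ) => ∑' a : ι → ℤ,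
      w2 (zc a - c - mv A τ) * (w1 (zc a - c - mv A τ + s) * g τ a)) :=
    pcS_cont' (Y := (κ → ℝ) × (ι → ℝ)) p2 continuous_fst
      (g := fun y a => w1 (zc a - c - mv A y.1 + y.2) * g y.1 a)
      fun a => Continuous.fun_mul (by fun_prop) ((hg a).comp (by fun_prop))
  simp only [e1]
  rw [← integral_const_mul]
  simp only [← e2]
  rw [pc_swap2 c1 fun τ s hne => ?_, pc_swap2 c2 fun τ s hne => ?_]
  · refine integral_congr_ae (Filter.Eventually.of_forall fun s => ?_)
    have := integral_cube_translate (fun τ => pcS A c w1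
      (fun τ a => w2 (zc a - c - mv A τ - s) * g (τ + R s) a) τ)
      (c1.comp (Continuous.prodMk_left s)) (fun τ n => pcS_shift (zc_mem_latOf A n)
        (fun z hz τ a => by
          rw [add_right_comm τ, heq n z hz, mv_add, hz, zc_add]
          congr 2
          abel) τ) (-R s)
    refine this.symm.trans (integral_congr_ae (Filter.Eventually.of_forall fun τ => ?_))
    refine tsum_congr fun a => ?_
    have a1 : zc a - c - mv A (τ + -R s) = zc a - c - mv A τ + s := by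
      rw [mv_add, mv_neg, hR]; abel
    simp only [a1, add_sub_cancel_right, neg_add_cancel_right]
    ring
  · by_contra hcon
    refine hne ((tsum_congr fun a => ?_).trans tsum_zero)
    by_contra h3
    refine hcon (two (zc a - c - mv A τ + s) s
      (left_ne_zero_of_mul (right_ne_zero_of_mul h3)) ?_)
    rw [add_sub_cancel_right]
    exact left_ne_zero_of_mul h3
  · by_contra hcon
    refine hne ((tsum_congr fun a => ?_).trans tsum_zero)
    by_contra h3
    exact hcon (two _ s (left_ne_zero_of_mul h3) (left_ne_zero_of_mul (right_ne_zero_of_mul h3)))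

section K
variable (W : Win) (A : ι → κ → ℤ) (c : ι → ℝ) (R : (ι → ℝ) →ₗ[ℝ] (κ → ℝ))

/-- average along the fibre -/
def pcK (g : (κ → ℝ) → (ι → ℤ) → ℝ) (τ : κ → ℝ) (a : ι → ℤ) : ℝ :=
  ∫ x, W.Phi x * g (τ + R (zc a - c - mv A τ - x)) a

variable {A c R} {g : (κ → ℝ) → (ι → ℤ) → ℝ}

omit [DecidableEq ι] in
theorem pcK_cont (hg : ∀ a, Continuous fun τ => g τ a) (a : ι → ℤ) :
    Continuous fun τ => pcK W A c R g τ a := by
  have cR : Continuous R := R.continuous_of_finiteDimensional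
  have cm := continuous_mv A
  exact prodp_cont (pcW_Phi (ι := ι) W).1 (pcW_Phi W).cpt
    (f := fun τ x => g (τ + R (zc a - c - mv A τ - x)) a) ((hg a).comp (by fun_prop))

omit [DecidableEq ι] in
theorem pcK_cont1 (hg : ∀ a, Continuous fun τ => g τ a) (τ : κ → ℝ) (a : ι → ℤ) :
    Continuous fun x => g (τ + R (zc a - c - mv A τ - x)) a := by
  have cR : Continuous R := R.continuous_of_finiteDimensional
  exact (hg a).comp (by fun_prop)

omit [DecidableEq ι] in
theorem pcK_eqv {t : κ → ℝ} (he : PcE A t g) : PcE A t (pcK W A c R g) := fun z hz τ a => by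
  have e : zc (a + z) - c - mv A (τ + t) = zc a - c - mv A τ := by
    rw [mv_add, hz, zc_add]; abel
  simp only [pcK, e, add_right_comm τ t, he z hz]

omit [DecidableEq ι] in
theorem pcK_inv (hR : ∀ s, mv A (R s) = s) (τ : κ → ℝ) (s : ι → ℝ) (a : ι → ℤ) :
    pcK W A c R g (τ + R s) a = pcK W A c R g τ a := by
  have e : ∀ x, τ + R s + R (zc a - c - mv A (τ + R s) - x) = τ + R (zc a - c - mv A τ - x) :=
    fun x => by
      rw [add_assoc, ← map_add, mv_add, hR]
      congr 2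
      abel
  simp only [pcK, e]

omit [DecidableEq ι] in
theorem pcK_self (hi : ∀ τ s a, g (τ + R s) a = g τ a) : pcK W A c R g = g := by
  funext τ a
  simp only [pcK, hi, integral_mul_const, W.integral_Phi, one_mul]

theorem pcK_int (hR : ∀ s, mv A (R s) = s) {w : (ι → ℝ) → ℝ} (hw : PcW w)
    (hg : ∀ a, Continuous fun τ => g τ a) (he : ∀ n, PcE A (zc n) g) :
    ∫ τ in cube κ, pcS A c w (pcK W A c R g) τ = (∫ x, w x) * IE W A c g := by
  rw [IE, ← pc_swap A c R hR w W.Phi hw.1 W.continuous_Phi hw.2 (pcW_Phi W).2 g hg he]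
  refine integral_congr_ae (Filter.Eventually.of_forall fun τ => tsum_congr fun a => ?_)
  rw [pcK, ← integral_sub_left_eq_self _ volume (zc a - c - mv A τ)]
  simp only [sub_sub_cancel]

theorem pcK_IE (hR : ∀ s, mv A (R s) = s) (hg : ∀ a, Continuous fun τ => g τ a)
    (he : ∀ n, PcE A (zc n) g) : IE W A c (pcK W A c R g) = IE W A c g := by
  rw [pca_IE, pcK_int W hR (pcW_Phi W) hg he, W.integral_Phi, one_mul]

theorem pcK_int' (hR : ∀ s, mv A (R s) = s) {w : (ι → ℝ) → ℝ} (hw : PcW w)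
    (hg : ∀ a, Continuous fun τ => g τ a) (he : ∀ n, PcE A (zc n) g)
    (hi : ∀ τ s a, g (τ + R s) a = g τ a) :
    ∫ τ in cube κ, pcS A c w g τ = (∫ x, w x) * IE W A c g := by
  rw [← pcK_int W hR hw hg he, pcK_self W hi]

/-- the fibre part -/
theorem pc_fibre (hR : ∀ s, mv A (R s) = s) {d : ι → (κ → ℝ) → (ι → ℤ) → ℝ}
    (hg : ∀ a, Continuous fun τ => g τ a) (he : ∀ n, PcE A (zc n) g)
    (dc : ∀ l a, Continuous fun τ => d l τ a) (de : ∀ l n, PcE A (zc n) (d l))
    (hD : ∀ l τ a, HasDerivAt (fun s : ℝ => g (τ + s • -R (Pi.single l 1)) a) (d l τ a) 0) :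
    IE W A c (fun τ a => (g τ a - pcK W A c R g τ a) ^ 2) ≤
      IE W A c fun τ a => ∑ l, d l τ a ^ 2 := by
  have c1 : ∀ a, Continuous fun τ => (g τ a - pcK W A c R g τ a) ^ 2 := fun a =>
    ((hg a).sub (pcK_cont W hg a)).fun_pow 2
  have c2 : ∀ a, Continuous fun τ => ∑ l, d l τ a ^ 2 := fun a =>
    continuous_finsetSum _ fun l _ => (dc l a).fun_pow 2
  rw [← pcK_IE W hR c1 fun n z hz τ a => by simp only [he n z hz, pcK_eqv W (he n) z hz τ a],
    ← pcK_IE W hR c2 fun n z hz τ a => by simp only [fun l => de l n z hz]]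
  refine pca_IE_mono W (pcK_cont W c1) (pcK_cont W c2) fun τ a => ?_
  have key := prod_poincare W (fun x => g (τ + R (zc a - c - mv A τ - x)) a)
    (fun l x => d l (τ + R (zc a - c - mv A τ - x)) a) (pcK_cont1 hg τ a)
    (fun l => pcK_cont1 (dc l) τ a) fun l x => by
      refine (hD l (τ + R (zc a - c - mv A τ - x)) a).congr_of_eventuallyEq
        (Filter.Eventually.of_forall fun u => ?_)
      simp only
      congr 1
      rw [← sub_sub _ x, map_sub _ _ (u • _), map_smul, smul_neg]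
      abel
  rw [← integral_finsetSum _ fun l _ => prodp_int (pcW_Phi (ι := ι) W).1 (pcW_Phi W).cpt
    ((pcK_cont1 (dc l) τ a).fun_pow 2)] at key
  simp only [← mul_sum] at key
  refine le_trans (le_of_eq ?_) key
  rw [pcK]
  simp only [pcK_inv W hR]
  rw [prodp_var (pcW_Phi (ι := ι) W).1 (pcW_Phi W).cpt W.integral_Phi (pcK_cont1 hg τ a), pcK]
  ring

end K

/-- a narrow weight -/
def pcOm (x : ι → ℝ) : ℝ := ∏ l, max 0 (1 / 4 - |x l|)

omit [DecidableEq ι] in
theorem pcOm_lt {x : ι → ℝ} (h : pcOm x ≠ 0) (l : ι) : |x l| < 1 / 4 := by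
  have := prod_ne_zero_iff.1 h l (mem_univ l)
  by_contra hc
  exact this (max_eq_left (by linarith))

omit [DecidableEq ι] in
theorem pcW_om : PcW (pcOm : (ι → ℝ) → ℝ) :=
  ⟨by unfold pcOm; fun_prop, fun x h l => by linarith [pcOm_lt h l]⟩

omit [DecidableEq ι] in
theorem pcOm_pos : 0 < ∫ x : ι → ℝ, pcOm x * pcOm x :=
  Continuous.integral_pos_of_hasCompactSupport_nonneg_nonzero (pcW_om.mul pcW_om.1).1
    (pcW_om.mul pcW_om.1).cpt (fun x => mul_self_nonneg _) (x := 0) (by simp [pcOm])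

omit [DecidableEq ι] in
theorem pcS_om_sq (A : ι → κ → ℤ) (c : ι → ℝ) (g : (κ → ℝ) → (ι → ℤ) → ℝ) (τ : κ → ℝ) :
    pcS A c pcOm g τ ^ 2 = pcS A c (fun x => pcOm x * pcOm x) (fun τ a => g τ a ^ 2) τ := by
  unfold pcS
  rw [pca_sq_tsum]
  · exact tsum_congr fun a => by ring
  · intro a b ha hb
    funext l
    have h1 := abs_lt.1 (pcOm_lt (left_ne_zero_of_mul ha) l)
    have h2 := abs_lt.1 (pcOm_lt (left_ne_zero_of_mul hb) l)
    simp only [Pi.sub_apply, zc] at h1 h2
    have h3 : (a l : ℝ) < b l + 1 := by linarith [h1.1, h1.2, h2.1, h2.2]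
    have h4 : (b l : ℝ) < a l + 1 := by linarith [h1.1, h1.2, h2.1, h2.2]
    have h5 : a l < b l + 1 := by exact_mod_cast h3
    have h6 : b l < a l + 1 := by exact_mod_cast h4
    omega

/-- the base part -/
theorem pc_base {I : Type} [Fintype I] (W : Win) (A : ι → κ → ℤ) (c : ι → ℝ) (Λ : Set (κ → ℝ))
    (hΛZ : ∀ n : κ → ℤ, zc n ∈ Λ) (hΛ : Λ ⊆ LatOf A) (R : (ι → ℝ) →ₗ[ℝ] (κ → ℝ))
    (hR : ∀ s, mv A (R s) = s) (u : (κ → ℝ) → (ι → ℤ) → ℝ) (uc : ∀ a, Continuous fun τ => u τ a)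
    (ue : ∀ t ∈ Λ, PcE A t u) (ui : ∀ τ s a, u (τ + R s) a = u τ a) (u0 : IE W A c u = 0)
    (θ : I → κ → ℝ) (hθ : ∀ i, mv A (θ i) = 0)
    (hdual : ∀ v : κ → ℤ, Dual Λ v →
      (∃ z : ι → ℤ, zc v = mtv A (zc z)) ∨ 1 ≤ ∑ i, ip (zc v) (θ i) ^ 2) (B : ℝ)
    (hB : ∀ ε : ℝ, ∑ i, IE W A c (fun τ a => (u (τ + ε • θ i) a - u τ a) ^ 2) ≤ ε ^ 2 * B) :
    IE W A c (fun τ a => u τ a ^ 2) ≤ B := by
  have o2 : PcW fun x : ι → ℝ => pcOm x * pcOm x := pcW_om.mul pcW_om.1
  have uz := fun n => ue _ (hΛZ n)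
  have Gc := pcS_cont (A := A) (c := c) pcW_om uc
  have Gp : ∀ τ (n : κ → ℤ), pcS A c pcOm u (τ + zc n) = pcS A c pcOm u τ := fun τ n =>
    pcS_shift (zc_mem_latOf A n) (uz n) τ
  have zero : ∀ f : (ι → ℝ) → ℝ, Continuous f → ∀ F : (κ → ℝ) → ℝ,
      (∀ τ a, F τ = f (zc a - c - mv A τ)) → ∫ τ in cube κ, pcS A c pcOm u τ * F τ = 0 :=
    fun f hf F hF => by
      have := pcK_int' W (c := c) hR (pcW_om.mul hf) uc uz ui
      rw [u0, mul_zero] at this
      rw [← this]
      refine integral_congr_ae (Filter.Eventually.of_forall fun τ => ?_)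
      simp only [pcS]
      rw [← tsum_mul_right]
      exact tsum_congr fun a => by rw [← hF τ a]; ring
  have key := torus_poincare (pcS A c pcOm u) Gc Gp θ ((∫ x : ι → ℝ, pcOm x * pcOm x) * B)
    (fun v => by
      by_cases hv : Dual Λ v
      · rcases hdual v hv with ⟨z, hz⟩ | h
        · left
          have cz := torus_cont_ip (zc z)
          have e : ∀ τ (a : ι → ℤ), 2 * Real.pi * ip (zc v) τ =
              -(2 * Real.pi * ip (zc z) (c + (zc a - c - mv A τ))) +
                (∑ l, z l * a l : ℤ) * (2 * Real.pi) := fun τ a => by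
            have : c + (zc a - c - mv A τ) = zc a - mv A τ := by abel
            rw [this, ip_sub_right, torus_ip_int, ip_mv, hz]
            ring
          exact ⟨zero (fun x => Real.cos (-(2 * Real.pi * ip (zc z) (c + x)))) (by fun_prop) _
              fun τ a => by rw [e τ a, Real.cos_add_int_mul_two_pi],
            zero (fun x => Real.sin (-(2 * Real.pi * ip (zc z) (c + x)))) (by fun_prop) _
              fun τ a => by rw [e τ a, Real.sin_add_int_mul_two_pi]⟩
        · exact Or.inr h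
      · left
        simp only [Dual, not_forall] at hv
        obtain ⟨t, ht, hn⟩ := hv
        exact torus_vanish _ Gc Gp t (pcS_shift (hΛ ht) (ue t ht)) v hn)
    (fun ε _ => by
      have e : ∀ i, ∫ τ in cube κ, (pcS A c pcOm u (τ + ε • θ i) - pcS A c pcOm u τ) ^ 2 =
          (∫ x : ι → ℝ, pcOm x * pcOm x) *
            IE W A c (fun τ a => (u (τ + ε • θ i) a - u τ a) ^ 2) := fun i => by
        rw [← pcK_int' W hR o2 (g := fun τ a => (u (τ + ε • θ i) a - u τ a) ^ 2)
          (fun a => (((uc a).comp (by fun_prop)).sub (uc a)).fun_pow 2)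
          (fun n z hz τ a => by simp only [add_right_comm τ (zc n), uz n z hz])
          (fun τ s a => by simp only [add_right_comm τ (R s), ui])]
        refine integral_congr_ae (Filter.Eventually.of_forall fun τ => ?_)
        simp only
        rw [← pcS_om_sq A c (fun τ a => u (τ + ε • θ i) a - u τ a), pcS_sub pcW_om]
        simp only [pcS, mv_add, mv_smul, hθ, smul_zero, add_zero]
      simp only [e]
      rw [← mul_sum, mul_left_comm]
      exact mul_le_mul_of_nonneg_left (hB ε) pcOm_pos.le)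
  simp only [pcS_om_sq] at key
  rw [pcK_int' W hR o2 (fun a => (uc a).fun_pow 2) (fun n z hz τ a => by simp only [uz n z hz])
    (fun τ s a => by simp only [ui])] at key
  exact le_of_mul_le_mul_left key pcOm_pos

/-- Poincare inequality on the space of pairs (hidden point, lattice point) -/
theorem pc {I : Type} [Fintype I] (W : Win) (A : ι → κ → ℤ) (c : ι → ℝ) (Λ : Set (κ → ℝ))
    (hΛZ : ∀ n : κ → ℤ, zc n ∈ Λ) (hΛ : Λ ⊆ LatOf A)
    (h : (κ → ℝ) → (ι → ℤ) → ℝ) (D : (κ → ℝ) → (ι → ℤ) → κ → ℝ)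
    (hc : ∀ a, Continuous fun τ => h τ a) (Dc : ∀ a, Continuous fun τ => D τ a)
    (hD : ∀ τ w a, HasDerivAt (fun s : ℝ => h (τ + s • w) a) (ip (D τ a) w) 0)
    (heq : ∀ t ∈ Λ, ∀ z : ι → ℤ, mv A t = zc z → ∀ τ a, h (τ + t) (a + z) = h τ a)
    (R : ι → κ → ℝ) (hR : ∀ l, mv A (R l) = Pi.single l 1)
    (θ : I → κ → ℝ) (hθ : ∀ i, mv A (θ i) = 0)
    (hdual : ∀ v : κ → ℤ, Dual Λ v →
      (∃ z : ι → ℤ, zc v = mtv A (zc z)) ∨ 1 ≤ ∑ i, ip (zc v) (θ i) ^ 2) :
    IE W A c (fun τ a => h τ a ^ 2) - IE W A c h ^ 2 ≤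
      2 * IE W A c fun τ a => ∑ l, ip (D τ a) (R l) ^ 2 + ∑ i, ip (D τ a) (θ i) ^ 2 := by
  set Rl : (ι → ℝ) →ₗ[ℝ] (κ → ℝ) := Fintype.linearCombination ℝ R with hRl
  have hR1 : ∀ l, Rl (Pi.single l 1) = R l := fun l => by simp [hRl]
  have hR2 : ∀ s, mv A (Rl s) = s := fun s => by
    induction s using Pi.single_induction with
    | zero => rw [map_zero, mv_zero]
    | add f g hf hg => rw [map_add, mv_add, hf, hg]
    | single l r =>
      have : (Pi.single l r : ι → ℝ) = r • Pi.single l 1 := by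
        rw [← Pi.single_smul, smul_eq_mul, mul_one]
      rw [this, map_smul, mv_smul, hR1, hR]
  have hz : ∀ n, PcE A (zc n) h := fun n => heq _ (hΛZ n)
  have dc : ∀ w a, Continuous fun τ => ip (D τ a) w := fun w a => by
    have := Dc a
    unfold ip
    fun_prop
  have de : ∀ w n, PcE A (zc n) fun τ a => ip (D τ a) w := fun w n z hn τ a => by
    refine (hD _ w _).unique ?_
    simp only [add_right_comm τ (zc n), hz n z hn]
    exact hD τ w a
  have kc := pcK_cont W (A := A) (c := c) (R := Rl) hc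
  set m := IE W A c h with hm
  have f1 := pc_fibre W (c := c) hR2 (d := fun l τ a => ip (D τ a) (-R l)) hc hz
    (fun l => dc _) (fun l => de _) fun l τ a => by rw [hR1]; exact hD τ _ a
  have hneg : ∀ v w : κ → ℝ, ip v (-w) ^ 2 = ip v w ^ 2 := fun v w => by simp [ip]
  simp only [hneg] at f1
  have f2 := pc_base W A c Λ hΛZ hΛ Rl hR2 (fun τ a => pcK W A c Rl h τ a + -m)
    (fun a => (kc a).add continuous_const)
    (fun t ht z hz τ a => by simp only [pcK_eqv W (heq t ht) z hz τ a])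
    (fun τ s a => by simp only [pcK_inv W hR2])
    (by rw [pca_IE_add W kc fun _ => continuous_const, pca_IE_const, pcK_IE W hR2 hc hz]; ring)
    θ hθ hdual (IE W A c fun τ a => ∑ i, ip (D τ a) (θ i) ^ 2) fun ε => by
      rw [pca_IE_sum W _ fun i a => (dc _ a).fun_pow 2, mul_sum]
      refine sum_le_sum fun i _ => le_trans ?_ (pca_incr W (hθ i) hc (dc _) (de _)
        (fun τ a => hD τ _ a) ε)
      have c0 : ∀ a, Continuous fun τ => h (τ + ε • θ i) a := fun a => (hc a).comp (by fun_prop)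
      have c1 : ∀ a, Continuous fun τ => h (τ + ε • θ i) a - h τ a := fun a => (c0 a).sub (hc a)
      have c2 : ∀ a, Continuous fun τ => (h (τ + ε • θ i) a - h τ a) ^ 2 := fun a =>
        (c1 a).fun_pow 2
      rw [← pcK_IE W hR2 c2 fun n z hn τ a => by simp only [add_right_comm τ (zc n), hz n z hn]]
      refine pca_IE_mono W (fun a => ((((kc a).comp (by fun_prop)).add continuous_const).sub
        ((kc a).add continuous_const)).fun_pow 2) (pcK_cont W c2) fun τ a => ?_
      refine le_trans (le_of_eq ?_) (prodp_jensen (pcW_Phi (ι := ι) W).1 (pcW_Phi W).cpt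
        W.Phi_nonneg W.integral_Phi (pcK_cont1 (R := Rl) (c := c) (A := A) c1 τ a))
      simp only [mul_sub]
      rw [integral_sub (prodp_int (pcW_Phi (ι := ι) W).1 (pcW_Phi W).cpt (pcK_cont1 c0 τ a))
        (prodp_int (pcW_Phi (ι := ι) W).1 (pcW_Phi W).cpt (pcK_cont1 hc τ a))]
      simp only [pcK, mv_add, mv_smul, hθ, smul_zero, add_zero, add_right_comm τ (ε • θ i)]
      ring
  have c3 : ∀ a, Continuous fun τ => (h τ a - pcK W A c Rl h τ a) ^ 2 := fun a =>
    ((hc a).sub (kc a)).fun_pow 2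
  have c4 : ∀ a, Continuous fun τ => (pcK W A c Rl h τ a + -m) ^ 2 := fun a =>
    ((kc a).add continuous_const).fun_pow 2
  have f3 : IE W A c (fun τ a => h τ a ^ 2 + (-(2 * m) * h τ a + m ^ 2)) ≤
      IE W A c fun τ a => 2 * (h τ a - pcK W A c Rl h τ a) ^ 2 +
        2 * (pcK W A c Rl h τ a + -m) ^ 2 :=
    pca_IE_mono W (fun a => by have := hc a; fun_prop)
      (fun a => (continuous_const.mul (c3 a)).add (continuous_const.mul (c4 a))) fun τ a => by
        nlinarith [sq_nonneg (h τ a - 2 * pcK W A c Rl h τ a + m)]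
  rw [pca_IE_add W (fun a => (hc a).fun_pow 2) (fun a => by have := hc a; fun_prop),
    pca_IE_add W (fun a => continuous_const.fun_mul (hc a)) (fun _ => continuous_const),
    pca_IE_mul, pca_IE_const, pca_IE_add W (fun a => continuous_const.fun_mul (c3 a))
      (fun a => continuous_const.fun_mul (c4 a)), pca_IE_mul, pca_IE_mul, ← hm] at f3
  rw [pca_IE_add W (fun a => continuous_finsetSum _ fun l _ => (dc _ a).fun_pow 2)
    (fun a => continuous_finsetSum _ fun l _ => (dc _ a).fun_pow 2)]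
  nlinarith

end Vale.Agent.P318
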