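import Vale.Agent.P318.Win

open Finset MeasureTheory

noncomputable section

namespace Vale.Agent.P318

section avg
variable {X Y : Type} [NormedAddCommGroup X] [MeasureSpace X] [BorelSpace X]
  [IsFiniteMeasureOnCompacts (volume : Measure X)]

theorem prodp_int {p f : X → ℝ} (hp : Continuous p) (hc : HasCompactSupport p)
    (hf : Continuous f) : Integrable fun x => p x * f x :=
  (hp.mul hf).integrable_of_hasCompactSupport hc.mul_right

theorem prodp_cont [TopologicalSpace Y] {p : X → ℝ} (hp : Continuous p)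
    (hc : HasCompactSupport p) {f : Y → X → ℝ} (hf : Continuous (Function.uncurry f)) :
    Continuous fun y => ∫ x, p x * f y x := by
  rw [← continuousOn_univ]
  refine continuousOn_integral_of_compact_support hc (f := fun y x => p x * f y x) ?_ ?_
  · exact ((hp.comp continuous_snd).mul hf).continuousOn
  · intro y x _ hx
    rw [image_eq_zero_of_notMem_tsupport hx, zero_mul]

theorem prodp_var {p f : X → ℝ} (hp : Continuous p) (hc : HasCompactSupport p)
    (h1 : ∫ x, p x = 1) (hf : Continuous f) (m : ℝ) :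
    ∫ x, p x * (f x - m) ^ 2 = (∫ x, p x * f x ^ 2) - 2 * m * (∫ x, p x * f x) + m ^ 2 := by
  have i0 : Integrable p := hp.integrable_of_hasCompactSupport hc
  have i1 := prodp_int hp hc hf
  have i2 := prodp_int hp hc (hf.fun_pow 2)
  have e : ∀ x, p x * (f x - m) ^ 2 = p x * f x ^ 2 - 2 * m * (p x * f x) + m ^ 2 * p x :=
    fun x => by ring
  simp only [e]
  have i3 : Integrable fun x => p x * f x ^ 2 - 2 * m * (p x * f x) := i2.sub (i1.const_mul _)
  rw [integral_add i3 (i0.const_mul _), integral_sub i2 (i1.const_mul _),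
    integral_const_mul, integral_const_mul, h1, mul_one]

theorem prodp_jensen {p f : X → ℝ} (hp : Continuous p) (hc : HasCompactSupport p)
    (h0 : ∀ x, 0 ≤ p x) (h1 : ∫ x, p x = 1) (hf : Continuous f) :
    (∫ x, p x * f x) ^ 2 ≤ ∫ x, p x * f x ^ 2 := by
  have h := prodp_var hp hc h1 hf (∫ x, p x * f x)
  have : 0 ≤ ∫ x, p x * (f x - ∫ x, p x * f x) ^ 2 :=
    integral_nonneg fun x => mul_nonneg (h0 x) (sq_nonneg _)
  nlinarith

variable [NormedAddCommGroup Y] [MeasureSpace Y] [BorelSpace Y]
  [IsFiniteMeasureOnCompacts (volume : Measure Y)] [SecondCountableTopology X]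
  [SFinite (volume : Measure X)] [SFinite (volume : Measure Y)]

theorem prodp_int2 {p : X → ℝ} {q : Y → ℝ} (hp : Continuous p) (hc : HasCompactSupport p)
    (hq : Continuous q) (hd : HasCompactSupport q) {f : X → Y → ℝ}
    (hf : Continuous (Function.uncurry f)) :
    Integrable (fun z : X × Y => p z.1 * q z.2 * f z.1 z.2) (volume.prod volume) := by
  refine Continuous.integrable_of_hasCompactSupport
    (((hp.comp continuous_fst).mul (hq.comp continuous_snd)).mul hf) ?_
  refine HasCompactSupport.intro (hc.prod hd) fun z hz => ?_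
  rw [Set.mem_prod, not_and_or] at hz
  rcases hz with h | h <;> simp [image_eq_zero_of_notMem_tsupport h]

theorem prodp_swap {p : X → ℝ} {q : Y → ℝ} (hp : Continuous p) (hc : HasCompactSupport p)
    (hq : Continuous q) (hd : HasCompactSupport q) {f : X → Y → ℝ}
    (hf : Continuous (Function.uncurry f)) :
    ∫ y, q y * ∫ x, p x * f x y = ∫ x, p x * ∫ y, q y * f x y := by
  have h := integral_integral_swap (f := fun x y => p x * q y * f x y) (prodp_int2 hp hc hq hd hf)
  simp only [← integral_const_mul]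
  simp only [← mul_assoc, mul_comm (q _) (p _)]
  exact h.symm

theorem prodp_prod {p : X → ℝ} {q : Y → ℝ} (hp : Continuous p) (hc : HasCompactSupport p)
    (hq : Continuous q) (hd : HasCompactSupport q) {f : X → Y → ℝ}
    (hf : Continuous (Function.uncurry f)) :
    ∫ z : X × Y, p z.1 * q z.2 * f z.1 z.2 = ∫ x, p x * ∫ y, q y * f x y := by
  simp only [← integral_const_mul, ← mul_assoc]
  exact integral_prod _ (prodp_int2 hp hc hq hd hf)

/-- tensorisation of the variance -/
theorem prodp_two {p : X → ℝ} {q : Y → ℝ} (hp : Continuous p) (hc : HasCompactSupport p)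
    (p0 : ∀ x, 0 ≤ p x) (p1 : ∫ x, p x = 1) (hq : Continuous q) (hd : HasCompactSupport q)
    (q0 : ∀ y, 0 ≤ q y) (q1 : ∫ y, q y = 1) {f : X → Y → ℝ}
    (hf : Continuous (Function.uncurry f)) :
    (∫ y, q y * ∫ x, p x * f x y ^ 2) - (∫ y, q y * ∫ x, p x * f x y) ^ 2 ≤
      (∫ y, q y * ((∫ x, p x * f x y ^ 2) - (∫ x, p x * f x y) ^ 2)) +
        ∫ x, p x * ((∫ y, q y * f x y ^ 2) - (∫ y, q y * f x y) ^ 2) := by
  have hf' : Continuous (Function.uncurry fun y x => f x y) := hf.comp continuous_swap
  have ca : Continuous fun y => ∫ x, p x * f x y := prodp_cont hp hc hf'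
  have ca2 : Continuous fun y => ∫ x, p x * f x y ^ 2 :=
    prodp_cont hp hc (f := fun y x => f x y ^ 2) (hf'.fun_pow 2)
  have cb : Continuous fun x => ∫ y, q y * f x y := prodp_cont hq hd hf
  have hx : ∀ y, Continuous fun x => f x y := fun y => hf.comp (Continuous.prodMk_left y)
  have hy : ∀ x, Continuous fun y => f x y := fun x => hf.comp (Continuous.prodMk_right x)
  set b : X → ℝ := fun x => ∫ y, q y * f x y with hb
  set m := ∫ y, q y * ∫ x, p x * f x y with hm
  have hm' : m = ∫ x, p x * b x := prodp_swap hp hc hq hd hf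
  have cg : Continuous (Function.uncurry fun x y => (f x y - b x) ^ 2) :=
    (hf.sub (cb.comp continuous_fst)).fun_pow 2
  have h1 : ∀ y, ((∫ x, p x * f x y) - m) ^ 2 ≤ ∫ x, p x * (f x y - b x) ^ 2 := fun y => by
    have := prodp_jensen hp hc p0 p1 ((hx y).fun_sub cb)
    rw [hm', ← integral_sub (prodp_int hp hc (hx y)) (prodp_int hp hc cb)]
    simpa only [mul_sub] using this
  have h2 : ∫ y, q y * ((∫ x, p x * f x y) - m) ^ 2 ≤ ∫ y, q y * ∫ x, p x * (f x y - b x) ^ 2 :=
    integral_mono (prodp_int hq hd ((ca.sub continuous_const).fun_pow 2))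
      (prodp_int hq hd (prodp_cont hp hc (f := fun y x => (f x y - b x) ^ 2)
        (cg.comp continuous_swap)))
      fun y => mul_le_mul_of_nonneg_left (h1 y) (q0 y)
  rw [prodp_var hq hd q1 ca, prodp_swap hp hc hq hd cg] at h2
  have h3 : ∀ x, ∫ y, q y * (f x y - b x) ^ 2 = (∫ y, q y * f x y ^ 2) - b x ^ 2 := fun x => by
    rw [prodp_var hq hd q1 (hy x)]
    simp only [hb]
    ring
  simp only [h3] at h2
  simp only [mul_sub (q _)]
  rw [integral_sub (prodp_int hq hd ca2) (prodp_int hq hd (ca.fun_pow 2))]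
  linarith

end avg

theorem prodp_cons (W : Win) {n : ℕ} {F : (Fin (n + 1) → ℝ) → ℝ} (hF : Continuous F) :
    ∫ z, W.Phi z * F z = ∫ x : Fin n → ℝ, W.Phi x * ∫ s, W.phi s * F (Fin.cons s x) := by
  have hc : Continuous (Function.uncurry fun (s : ℝ) (x : Fin n → ℝ) => F (Fin.cons s x)) :=
    hF.comp (Continuous.finCons continuous_fst continuous_snd)
  have h := (volume_preserving_piFinSuccAbove (fun _ : Fin (n + 1) => ℝ) 0).symm.integral_comp'
    (fun z => W.Phi z * F z)
  have c1 := W.continuous_phi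
  have c2 := W.hasCompactSupport_phi
  have c3 := W.continuous_Phi (ι := Fin n)
  have c4 := W.hasCompactSupport_Phi (ι := Fin n)
  rw [← h, prodp_swap c1 c2 c3 c4 hc, ← prodp_prod c1 c2 c3 c4 hc]
  refine integral_congr_ae (Filter.Eventually.of_forall fun z => ?_)
  simp [MeasurableEquiv.piFinSuccAbove, Win.Phi, Fin.prod_univ_succ, Fin.insertNthEquiv]

theorem prodp_fin (W : Win) (n : ℕ) : ∀ (g : (Fin n → ℝ) → ℝ) (g' : Fin n → (Fin n → ℝ) → ℝ),
    Continuous g → (∀ l, Continuous (g' l)) →
    (∀ l x, HasDerivAt (fun s : ℝ => g (x + s • Pi.single l 1)) (g' l x) 0) →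
    (∫ x, W.Phi x * g x ^ 2) - (∫ x, W.Phi x * g x) ^ 2 ≤ ∑ l, ∫ x, W.Phi x * g' l x ^ 2 := by
  induction n with
  | zero =>
    intro g g' _ _ _
    have e : ∀ x : Fin 0 → ℝ, g x = g 0 := fun x => congrArg g (Subsingleton.elim _ _)
    simp only [e, integral_mul_const, W.integral_Phi]
    simp
  | succ n ih =>
    intro g g' hg hg' hd
    have hc : ∀ {F : (Fin (n + 1) → ℝ) → ℝ}, Continuous F →
        Continuous (Function.uncurry fun (s : ℝ) (x : Fin n → ℝ) => F (Fin.cons s x)) :=
      fun hF => hF.comp (Continuous.finCons continuous_fst continuous_snd)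
    have c1 := W.continuous_phi
    have c2 := W.hasCompactSupport_phi
    have c3 := W.continuous_Phi (ι := Fin n)
    have c4 := W.hasCompactSupport_Phi (ι := Fin n)
    have key := prodp_two c1 c2 W.phi_nonneg W.integral_phi c3 c4 W.Phi_nonneg W.integral_Phi
      (hc hg)
    rw [prodp_cons W (hg.fun_pow 2), prodp_cons W hg, Fin.sum_univ_succ]
    refine key.trans (add_le_add ?_ ?_)
    · rw [prodp_cons W ((hg' 0).fun_pow 2)]
      refine integral_mono (prodp_int c3 c4 ?_) (prodp_int c3 c4 ?_) fun x => ?_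
      · exact (prodp_cont c1 c2 (f := fun x s => g (Fin.cons s x) ^ 2)
          ((hc (hg.fun_pow 2)).comp continuous_swap)).sub
          ((prodp_cont c1 c2 (f := fun x s => g (Fin.cons s x))
            ((hc hg).comp continuous_swap)).fun_pow 2)
      · exact prodp_cont c1 c2 (f := fun x s => g' 0 (Fin.cons s x) ^ 2)
          ((hc ((hg' 0).fun_pow 2)).comp continuous_swap)
      · refine mul_le_mul_of_nonneg_left ?_ (W.Phi_nonneg x)
        refine W.poincare1 (fun s => g (Fin.cons s x)) (fun s => g' 0 (Fin.cons s x)) (fun s => ?_)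
          ((hc (hg' 0)).comp (Continuous.prodMk_left x))
        have h1 := hd 0 (Fin.cons s x)
        have h2 : HasDerivAt (fun u : ℝ => u - s) 1 s := (hasDerivAt_id s).sub_const s
        have h3 := HasDerivAt.comp_of_eq s h1 h2 (by simp)
        rw [mul_one] at h3
        refine h3.congr_of_eventuallyEq (Filter.Eventually.of_forall fun u => ?_)
        simp only [Function.comp]
        congr 1
        funext l
        refine Fin.cases ?_ (fun j => ?_) l <;> simp
    · have e : ∀ l : Fin n, ∫ z, W.Phi z * g' l.succ z ^ 2 =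
          ∫ s, W.phi s * ∫ x : Fin n → ℝ, W.Phi x * g' l.succ (Fin.cons s x) ^ 2 := fun l => by
        rw [prodp_cons W ((hg' _).fun_pow 2), prodp_swap c1 c2 c3 c4 (hc ((hg' _).fun_pow 2))]
      have cl : ∀ l : Fin n, Continuous fun s : ℝ =>
          ∫ x : Fin n → ℝ, W.Phi x * g' l.succ (Fin.cons s x) ^ 2 := fun l =>
        prodp_cont c3 c4 (hc ((hg' _).fun_pow 2))
      simp only [e]
      rw [← integral_finsetSum _ fun l _ => prodp_int c1 c2 (cl l)]
      refine integral_mono (prodp_int c1 c2 ?_)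
        (integrable_finsetSum _ fun l _ => prodp_int c1 c2 (cl l)) fun s => ?_
      · exact (prodp_cont c3 c4 (hc (hg.fun_pow 2))).sub ((prodp_cont c3 c4 (hc hg)).fun_pow 2)
      · simp only [← mul_sum]
        refine mul_le_mul_of_nonneg_left ?_ (W.phi_nonneg s)
        refine ih (fun x => g (Fin.cons s x)) (fun l x => g' l.succ (Fin.cons s x))
          ((hc hg).comp (Continuous.prodMk_right s))
          (fun l => (hc (hg' _)).comp (Continuous.prodMk_right s)) fun l x => ?_
        convert hd l.succ (Fin.cons s x) using 3 with u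
        funext j
        refine Fin.cases ?_ (fun j => ?_) j <;> simp [Pi.single_apply]

/-- Poincare inequality for the product density -/
theorem prod_poincare {ι : Type} [Fintype ι] [DecidableEq ι] (W : Win) (g : (ι → ℝ) → ℝ)
    (g' : ι → (ι → ℝ) → ℝ) (hg : Continuous g) (hg' : ∀ l, Continuous (g' l))
    (hd : ∀ l x, HasDerivAt (fun s : ℝ => g (x + s • Pi.single l 1)) (g' l x) 0) :
    (∫ x, W.Phi x * g x ^ 2) - (∫ x, W.Phi x * g x) ^ 2 ≤ ∑ l, ∫ x, W.Phi x * g' l x ^ 2 := by
  set e := Fintype.equivFin ι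
  have tr : ∀ F : (ι → ℝ) → ℝ, ∫ x, W.Phi x * F x =
      ∫ y : Fin (Fintype.card ι) → ℝ, W.Phi y * F (fun l => y (e l)) := fun F => by
    rw [← (volume_preserving_arrowCongr' e.symm (MeasurableEquiv.refl ℝ)
      (MeasurePreserving.id _)).integral_comp' (fun x => W.Phi x * F x)]
    refine integral_congr_ae (Filter.Eventually.of_forall fun y => ?_)
    have e1 : (MeasurableEquiv.arrowCongr' e.symm (MeasurableEquiv.refl ℝ)) y =
        fun l => y (e l) := rfl
    simp only [e1, Win.Phi]
    rw [e.prod_comp fun j => W.phi (y j)]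
  have cc : Continuous fun (y : Fin (Fintype.card ι) → ℝ) (l : ι) => y (e l) := by fun_prop
  have := prodp_fin W (Fintype.card ι) (fun y => g fun l => y (e l))
    (fun j y => g' (e.symm j) fun l => y (e l)) (hg.comp cc) (fun j => (hg' _).comp cc)
    fun j y => by
      convert hd (e.symm j) (fun l => y (e l)) using 3 with u
      funext l
      simp [Pi.single_apply, Equiv.eq_symm_apply]
  rw [tr fun x => g x ^ 2, tr g, ← e.symm.sum_comp]
  simp only [tr fun x => g' _ x ^ 2]
  exact this

end Vale.Agent.P318
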