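import Vale.Agent.P318.Torus
import Vale.Agent.P318.ProdP
import Vale.Agent.P318.Kernel

open Finset MeasureTheory

noncomputable section

namespace Vale.Agent.P318

variable {ι κ : Type} [Fintype ι] [DecidableEq ι] [Fintype κ]

theorem pca_fin {R : ℝ} (w : (ι → ℝ) → ℝ) (hw : ∀ x, w x ≠ 0 → ∀ l, |x l| ≤ R) (y : ι → ℝ) :
    ∃ T : Finset (ι → ℤ), ∀ a ∉ T, w (zc a - y) = 0 := by
  obtain ⟨n, hn⟩ := exists_zbox (ι := ι) ‖y‖ R
  exact ⟨zbox ι n, fun a ha => by_contra fun h =>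
    ha (hn y a (fun l => norm_le_pi_norm y l) (hw _ h))⟩

theorem pca_int_tsum {X : Type} [MeasurableSpace X] (μ : Measure X) {R : ℝ} (w : (ι → ℝ) → ℝ)
    (hw : ∀ x, w x ≠ 0 → ∀ l, |x l| ≤ R) (y : ι → ℝ) (F : (ι → ℤ) → X → ℝ)
    (hF : ∀ a, Integrable (F a) μ) :
    ∫ s, ∑' a : ι → ℤ, w (zc a - y) * F a s ∂μ = ∑' a : ι → ℤ, w (zc a - y) * ∫ s, F a s ∂μ := by
  obtain ⟨T, hT⟩ := pca_fin w hw y
  have e : ∀ g : (ι → ℤ) → ℝ, ∑' a : ι → ℤ, w (zc a - y) * g a = ∑ a ∈ T, w (zc a - y) * g a :=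
    fun g => tsum_eq_sum fun a ha => by rw [hT a ha, zero_mul]
  simp only [e]
  rw [integral_finsetSum _ fun a _ => (hF a).const_mul _]
  simp only [integral_const_mul]

omit [DecidableEq ι] in
theorem pca_swap {X : Type} [NormedAddCommGroup X] [MeasureSpace X] [BorelSpace X]
    [IsFiniteMeasureOnCompacts (volume : Measure X)] [SFinite (volume : Measure X)]
    {S : Set X} (hS : IsCompact S) {H : (κ → ℝ) → X → ℝ} (hH : Continuous (Function.uncurry H)) :
    ∫ τ in cube κ, ∫ s in S, H τ s = ∫ s in S, ∫ τ in cube κ, H τ s := by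
  refine integral_integral_swap ?_
  rw [Measure.prod_restrict]
  exact hH.continuousOn.integrableOn_compact (isCompact_cube.prod hS)

theorem pca_sq_tsum {α : Type} (f : α → ℝ) (hf : ∀ a b, f a ≠ 0 → f b ≠ 0 → a = b) :
    (∑' a, f a) ^ 2 = ∑' a, f a ^ 2 := by
  by_cases h : ∃ a, f a ≠ 0
  · obtain ⟨a, ha⟩ := h
    have h0 : ∀ b, b ≠ a → f b = 0 := fun b hb => by_contra fun h => hb (hf b a h ha)
    rw [tsum_eq_single a h0, tsum_eq_single a fun b hb => by rw [h0 b hb]; norm_num]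
  · have : ∀ a, f a = 0 := fun a => by_contra fun h' => h ⟨a, h'⟩
    simp [this]

/-- continuous weights supported in the unit box -/
def PcW (w : (ι → ℝ) → ℝ) : Prop := Continuous w ∧ ∀ x, w x ≠ 0 → ∀ l, |x l| ≤ 1

omit [DecidableEq ι] in
theorem pcW_Phi (W : Win) : PcW (W.Phi : (ι → ℝ) → ℝ) :=
  ⟨W.continuous_Phi, fun _ h => W.abs_le_one_of_Phi_ne h⟩

omit [DecidableEq ι] in
theorem PcW.mul {w : (ι → ℝ) → ℝ} (hw : PcW w) {f : (ι → ℝ) → ℝ} (hf : Continuous f) :
    PcW fun x => w x * f x := ⟨hw.1.mul hf, fun x h => hw.2 x (left_ne_zero_of_mul h)⟩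

omit [DecidableEq ι] in
theorem PcW.cpt {w : (ι → ℝ) → ℝ} (hw : PcW w) : HasCompactSupport w :=
  HasCompactSupport.intro (isCompact_Icc (a := fun _ => -1) (b := fun _ => 1)) fun x hx =>
    by_contra fun h => hx ⟨fun l => (abs_le.1 (hw.2 x h l)).1, fun l => (abs_le.1 (hw.2 x h l)).2⟩

variable (A : ι → κ → ℤ) (c : ι → ℝ)

/-- lattice sum with a weight -/
def pcS (w : (ι → ℝ) → ℝ) (g : (κ → ℝ) → (ι → ℤ) → ℝ) (τ : κ → ℝ) : ℝ :=
  ∑' a : ι → ℤ, w (zc a - c - mv A τ) * g τ a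

/-- equivariance under a translation -/
def PcE (t : κ → ℝ) (g : (κ → ℝ) → (ι → ℤ) → ℝ) : Prop :=
  ∀ z : ι → ℤ, mv A t = zc z → ∀ τ a, g (τ + t) (a + z) = g τ a

variable {A c} {w : (ι → ℝ) → ℝ} {g g' : (κ → ℝ) → (ι → ℤ) → ℝ}

theorem pcS_summable (hw : PcW w) (g : (ι → ℤ) → ℝ) (τ : κ → ℝ) :
    Summable fun a : ι → ℤ => w (zc a - c - mv A τ) * g a := by
  simp only [sub_sub]
  exact summable_lattice w hw.2 _ g

theorem pcS_cont' {Y : Type} [TopologicalSpace Y] (hw : PcW w) {p : Y → κ → ℝ}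
    (hp : Continuous p) {g : Y → (ι → ℤ) → ℝ} (hg : ∀ a, Continuous fun y => g y a) :
    Continuous fun y => ∑' a : ι → ℤ, w (zc a - c - mv A (p y)) * g y a := by
  simp only [sub_sub]
  exact continuous_tsum_lattice w hw.2 hw.1 (fun y => c + mv A (p y))
    (continuous_const.add ((continuous_mv A).comp hp)) g hg

theorem pcS_cont (hw : PcW w) (hg : ∀ a, Continuous fun τ => g τ a) :
    Continuous (pcS A c w g) := pcS_cont' hw continuous_id hg

omit [Fintype ι] [DecidableEq ι] in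
theorem pcS_shift {t : κ → ℝ} (ht : t ∈ LatOf A) (hg : PcE A t g) (τ : κ → ℝ) :
    pcS A c w g (τ + t) = pcS A c w g τ := by
  obtain ⟨z, hz⟩ := ht
  unfold pcS
  rw [← (Equiv.addRight z).tsum_eq]
  refine tsum_congr fun a => ?_
  rw [Equiv.coe_addRight, hg z hz, mv_add, hz, zc_add]
  congr 2
  abel

theorem pcS_add (hw : PcW w) (τ : κ → ℝ) :
    pcS A c w (fun τ a => g τ a + g' τ a) τ = pcS A c w g τ + pcS A c w g' τ := by
  unfold pcS
  simp only [mul_add]
  exact (pcS_summable hw _ τ).tsum_add (pcS_summable hw _ τ)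

theorem pcS_sub (hw : PcW w) (τ : κ → ℝ) :
    pcS A c w (fun τ a => g τ a - g' τ a) τ = pcS A c w g τ - pcS A c w g' τ := by
  unfold pcS
  simp only [mul_sub]
  exact (pcS_summable hw _ τ).tsum_sub (pcS_summable hw _ τ)

omit [Fintype ι] [DecidableEq ι] in
theorem pcS_mul (r : ℝ) (τ : κ → ℝ) :
    pcS A c w (fun τ a => r * g τ a) τ = r * pcS A c w g τ := by
  unfold pcS
  rw [← tsum_mul_left]
  exact tsum_congr fun a => by ring

variable (W : Win)

omit [DecidableEq ι] in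
theorem pca_IE (g : (κ → ℝ) → (ι → ℤ) → ℝ) : IE W A c g = ∫ τ in cube κ, pcS A c W.Phi g τ := rfl

theorem pca_IE_add (hg : ∀ a, Continuous fun τ => g τ a) (hg' : ∀ a, Continuous fun τ => g' τ a) :
    IE W A c (fun τ a => g τ a + g' τ a) = IE W A c g + IE W A c g' := by
  simp only [pca_IE, pcS_add (pcW_Phi W)]
  exact integral_add (integrableOn_cube (pcS_cont (pcW_Phi W) hg))
    (integrableOn_cube (pcS_cont (pcW_Phi W) hg'))

omit [DecidableEq ι] in
theorem pca_IE_mul (r : ℝ) : IE W A c (fun τ a => r * g τ a) = r * IE W A c g := by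
  simp only [pca_IE, pcS_mul, integral_const_mul]

theorem pca_IE_const (r : ℝ) : IE W A c (fun _ _ => r) = r := by
  simp only [IE, tsum_mul_right, sub_sub, tsum_Phi, one_mul, integral_cube_const]

theorem pca_IE_mono (hg : ∀ a, Continuous fun τ => g τ a) (hg' : ∀ a, Continuous fun τ => g' τ a)
    (h : ∀ τ a, g τ a ≤ g' τ a) : IE W A c g ≤ IE W A c g' :=
  integral_mono (integrableOn_cube (pcS_cont (pcW_Phi W) hg))
    (integrableOn_cube (pcS_cont (pcW_Phi W) hg')) fun τ =>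
    (pcS_summable (pcW_Phi W) _ τ).tsum_le_tsum
      (fun a => mul_le_mul_of_nonneg_left (h τ a) (W.Phi_nonneg _)) (pcS_summable (pcW_Phi W) _ τ)

theorem pca_IE_sum {I : Type} (s : Finset I) {g : I → (κ → ℝ) → (ι → ℤ) → ℝ}
    (hg : ∀ i a, Continuous fun τ => g i τ a) :
    IE W A c (fun τ a => ∑ i ∈ s, g i τ a) = ∑ i ∈ s, IE W A c (g i) := by
  classical
  induction s using Finset.induction_on with
  | empty => simpa using pca_IE_const W 0
  | insert i s hi ih =>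
    simp only [sum_insert hi]
    rw [pca_IE_add W (hg i) fun a => continuous_finsetSum _ fun j _ => hg j a, ih]

theorem pca_IE_shift (hg : ∀ a, Continuous fun τ => g τ a) (he : ∀ n, PcE A (zc n) g)
    {θ : κ → ℝ} (hθ : mv A θ = 0) : IE W A c (fun τ a => g (τ + θ) a) = IE W A c g := by
  rw [pca_IE W g, ← integral_cube_translate _ (pcS_cont (pcW_Phi W) hg)
    (fun τ n => pcS_shift (zc_mem_latOf A n) (he n) τ) θ]
  simp only [IE, pcS, mv_add, hθ, add_zero]

/-- increments along a direction in the kernel -/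
theorem pca_incr {h : (κ → ℝ) → (ι → ℤ) → ℝ} {d : (κ → ℝ) → (ι → ℤ) → ℝ} {θ : κ → ℝ}
    (hθ : mv A θ = 0) (hc : ∀ a, Continuous fun τ => h τ a) (dc : ∀ a, Continuous fun τ => d τ a)
    (de : ∀ n, PcE A (zc n) d)
    (hD : ∀ τ a, HasDerivAt (fun s : ℝ => h (τ + s • θ) a) (d τ a) 0) (ε : ℝ) :
    IE W A c (fun τ a => (h (τ + ε • θ) a - h τ a) ^ 2) ≤
      ε ^ 2 * IE W A c fun τ a => d τ a ^ 2 := by
  have cj : ∀ a, Continuous (Function.uncurry fun (τ : κ → ℝ) (r : ℝ) =>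
      d (τ + (r * ε) • θ) a) := fun a => (dc a).comp (by fun_prop)
  have c1 : ∀ τ a, Continuous fun r : ℝ => d (τ + (r * ε) • θ) a := fun τ a =>
    (dc a).comp (by fun_prop)
  have h1 : ∀ τ a, (h (τ + ε • θ) a - h τ a) ^ 2 ≤
      ε ^ 2 * ∫ r in Set.Icc (0 : ℝ) 1, d (τ + (r * ε) • θ) a ^ 2 := fun τ a => by
    have e1 : ∫ r in (0 : ℝ)..1, ε * d (τ + (r * ε) • θ) a =
        h (τ + (1 * ε) • θ) a - h (τ + (0 * ε) • θ) a := by
      refine intervalIntegral.integral_eq_sub_of_hasDerivAt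
        (f := fun r : ℝ => h (τ + (r * ε) • θ) a) (fun r _ => ?_)
        ((continuous_const.mul (c1 τ a)).intervalIntegrable _ _)
      have h2 : HasDerivAt (fun u : ℝ => (u - r) * ε) (1 * ε) r :=
        ((hasDerivAt_id r).sub_const r).mul_const ε
      have h3 := HasDerivAt.comp_of_eq r (hD (τ + (r * ε) • θ) a) h2 (by simp)
      rw [one_mul] at h3
      rw [mul_comm ε]
      refine h3.congr_of_eventuallyEq (Filter.Eventually.of_forall fun u => ?_)
      simp only [Function.comp]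
      congr 1
      rw [add_assoc, ← add_smul]
      congr 2
      ring
    simp only [one_mul, zero_mul, zero_smul, add_zero] at e1
    rw [← e1, intervalIntegral.integral_const_mul, mul_pow]
    refine mul_le_mul_of_nonneg_left ?_ (sq_nonneg _)
    rw [integral_Icc_eq_integral_Ioc, ← intervalIntegral.integral_of_le zero_le_one]
    set m := ∫ r in (0 : ℝ)..1, d (τ + (r * ε) • θ) a with hm
    have i1 := (c1 τ a).intervalIntegrable (μ := volume) 0 1
    have i2 := ((c1 τ a).fun_pow 2).intervalIntegrable (μ := volume) 0 1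
    have h4 : ∫ r in (0 : ℝ)..1, (2 * m * d (τ + (r * ε) • θ) a - m ^ 2) ≤
        ∫ r in (0 : ℝ)..1, d (τ + (r * ε) • θ) a ^ 2 :=
      intervalIntegral.integral_mono_on zero_le_one ((i1.const_mul _).sub (by simp)) i2
        fun r _ => by nlinarith [sq_nonneg (d (τ + (r * ε) • θ) a - m)]
    rw [intervalIntegral.integral_sub (i1.const_mul _) (by simp),
      intervalIntegral.integral_const_mul, ← hm] at h4
    simp only [intervalIntegral.integral_const, sub_zero, one_smul] at h4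
    linarith
  have c2 : ∀ a, Continuous fun τ => ∫ r in Set.Icc (0 : ℝ) 1, d (τ + (r * ε) • θ) a ^ 2 :=
    fun a => continuous_parametric_integral_of_continuous
      (f := fun τ r => d (τ + (r * ε) • θ) a ^ 2) ((cj a).fun_pow 2) isCompact_Icc
  refine (pca_IE_mono W (fun a => (((hc a).comp (by fun_prop)).sub (hc a)).fun_pow 2)
    (fun a => continuous_const.fun_mul (c2 a)) h1).trans (le_of_eq ?_)
  rw [pca_IE_mul]
  congr 1
  have e2 : ∀ τ, ∑' a : ι → ℤ, W.Phi (zc a - c - mv A τ) *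
      ∫ r in Set.Icc (0 : ℝ) 1, d (τ + (r * ε) • θ) a ^ 2 =
      ∫ r in Set.Icc (0 : ℝ) 1, ∑' a : ι → ℤ, W.Phi (zc a - c - mv A τ) *
        d (τ + (r * ε) • θ) a ^ 2 := fun τ => by
    simp only [sub_sub]
    exact (pca_int_tsum _ _ (pcW_Phi W).2 _ (fun a r => d (τ + (r * ε) • θ) a ^ 2)
      fun a => ((c1 τ a).fun_pow 2).continuousOn.integrableOn_compact isCompact_Icc).symm
  unfold IE
  simp only [e2]
  rw [pca_swap isCompact_Icc (pcS_cont' (Y := (κ → ℝ) × ℝ) (pcW_Phi W) continuous_fst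
    (g := fun y a => d (y.1 + (y.2 * ε) • θ) a ^ 2) fun a => (cj a).fun_pow 2)]
  have e3 : ∀ r : ℝ, IE W A c (fun τ a => d (τ + (r * ε) • θ) a ^ 2) =
      IE W A c fun τ a => d τ a ^ 2 := fun r =>
    pca_IE_shift W (g := fun τ a => d τ a ^ 2) (fun a => (dc a).fun_pow 2)
      (fun n z hz τ a => by simp only [de n z hz]) (by rw [mv_smul, hθ, smul_zero])
  unfold IE at e3
  simp [e3]

end Vale.Agent.P318
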