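import Vale.Agent.P318.LevA
import Vale.Agent.P318.PC
import Vale.Agent.P318.Geo

open Finset MeasureTheory

noncomputable section

namespace Vale.Agent.P318

variable {β ι κ K : Type} [Fintype β] [DecidableEq β] [Fintype ι] [DecidableEq ι] [Fintype κ]
  [Fintype K]

variable (W : Win) (A : β × ι → K → ℤ) (B : ι → κ → ℤ) (c : β × ι → ℝ)

/-- integrating out the hidden points of the blocks -/
theorem pcj_core (w : β → (ι → ℝ) → ℝ) (hw : ∀ b, PcW (w b)) (g : (K → ℝ) → (β → ι → ℤ) → ℝ)
    (hg : ∀ a, Continuous fun t => g t a) :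
    ∑' a : β × ι → ℤ, ∫ τ in cube (K ⊕ β × κ),
        (∏ b, w b fun l => (zc a - (c + mv (stp A B) τ)) (b, l)) *
          g (fun i => τ (Sum.inl i)) (fun b l => a (b, l)) =
      ∫ t in cube K, ∑' a : β → ι → ℤ,
        (∏ b, ∫ σ in cube κ, w b (zc (a b) - yb A c t b - mv B σ)) * g t a := by
  obtain ⟨C, hC⟩ := (isCompact_cube (κ := κ)).exists_bound_of_continuousOn
    (continuous_mv B).continuousOn
  have hs : ∀ x : β × ι → ℝ, (∏ b, ∫ σ in cube κ, w b ((fun l => x (b, l)) - mv B σ)) ≠ 0 →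
      ∀ q, |x q| ≤ 1 + C := fun x hx q => by
    obtain ⟨σ, hσ, h⟩ := kernel_exists B (prod_ne_zero_iff.1 hx q.1 (mem_univ _))
    have h1 := abs_le.1 ((hw _).2 _ h q.2)
    have h2 := abs_le.1 ((norm_le_pi_norm (mv B σ) q.2).trans (hC σ hσ))
    simp only [Pi.sub_apply, Prod.mk.eta] at h1
    rw [abs_le]
    constructor <;> linarith [h1.1, h1.2, h2.1, h2.2]
  have h1 := integral_tsum_lattice
    (fun x : β × ι → ℝ => ∏ b, ∫ σ in cube κ, w b ((fun l => x (b, l)) - mv B σ)) hs
    (continuous_finsetProd _ fun b _ => (kernel_cont_int B (hw b).1).comp (by fun_prop))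
    (fun t => c + mv A t) (continuous_const.add (continuous_mv A))
    (fun t a => g t fun b l => a (b, l)) fun a => hg _
  have h2 : ∀ t, ∑' a : β → ι → ℤ,
      (∏ b, ∫ σ in cube κ, w b (zc (a b) - yb A c t b - mv B σ)) * g t a =
      ∑' a : β × ι → ℤ, (∏ b, ∫ σ in cube κ,
        w b ((fun l => (zc a - (c + mv A t)) (b, l)) - mv B σ)) * g t fun b l => a (b, l) :=
    fun t => ((Equiv.curry β ι ℤ).tsum_eq _).symm
  simp only [h2]
  rw [h1]
  refine tsum_congr fun a => ?_
  have cm := continuous_mv A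
  have cm' := continuous_mv B
  have h3 := integral_cube_sum_prod (fun t => g t fun b l => a (b, l))
    (fun b t σ => w b ((fun l => (zc a - (c + mv A t)) (b, l)) - mv B σ)) (hg _)
    fun b => (hw b).1.comp (by fun_prop)
  simp only [mul_comm _ (g _ _)]
  rw [← h3]
  refine integral_congr_ae (Filter.Eventually.of_forall fun τ => ?_)
  simp only
  congr 1
  refine prod_congr rfl fun b _ => ?_
  congr 1
  funext l
  simp only [Pi.sub_apply, Pi.add_apply, mv_stp_apply]
  ring

theorem IE_stp (g : (K → ℝ) → (β → ι → ℤ) → ℝ) (hg : ∀ a, Continuous fun t => g t a) :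
    IE W (stp A B) c (fun τ a => g (fun i => τ (Sum.inl i)) fun b l => a (b, l)) =
      ∫ t in cube K, EP (pt W A B c t) (g t) := by
  refine Eq.trans ?_ (pcj_core A B c (fun _ => W.Phi) (fun _ => pcW_Phi W) g hg)
  simp only [IE, sub_sub]
  rw [integral_tsum_lattice W.Phi (pcW_Phi W).2 (pcW_Phi W).1 (fun τ => c + mv (stp A B) τ)
    (continuous_const.add (continuous_mv _))
    (fun τ a => g (fun i => τ (Sum.inl i)) fun b l => a (b, l))
    fun a => (hg _).comp (by fun_prop)]
  simp only [Win.Phi, Fintype.prod_prod_type]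

theorem Ex_stp (f : (β × ι → ℤ) → ℝ) :
    Ex W (stp A B) c f = ∫ t in cube K, EP (pt W A B c t) fun a => f fun q => a q.1 q.2 := by
  rw [Ex_eq_IE]
  exact IE_stp W A B c (fun _ a => f fun q => a q.1 q.2) fun _ => continuous_const

theorem pcj_ed {I : Type} [Fintype I] [DecidableEq I] (l : I) (x : I → ℝ) :
    W.ed l x = ∏ j, if j = l then W.ed1 (x j) else W.phi (x j) := by
  rw [← mul_prod_erase _ _ (mem_univ l), if_pos rfl, Win.ed]
  congr 1
  exact prod_congr rfl fun j hj => (if_neg (ne_of_mem_erase hj)).symm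

theorem pcj_ed_prod (b : β) (l : ι) (x : β × ι → ℝ) : W.ed (b, l) x =
    ∏ b', (if b' = b then W.ed l else W.Phi) fun l' => x (b', l') := by
  rw [pcj_ed, Fintype.prod_prod_type]
  refine prod_congr rfl fun b' _ => ?_
  split_ifs with hb
  · simp [pcj_ed, hb]
  · simp [Win.Phi, hb]

theorem Per_stp (f : (β × ι → ℤ) → ℝ) :
    Per W (stp A B) c f = ∫ t in cube K, ∑ b, EP (pt W A B c t) fun a =>
      Per W B (yb A c t b) fun x => f fun q => Function.update a b x q.1 q.2 := by
  obtain ⟨R, -, -, hR⟩ := exists_supp W B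
  set g : β → ι → (β → ι → ℤ) → ℝ := fun b l a =>
    |f ((fun q => a q.1 q.2) + Pi.single (b, l) 1) - f fun q => a q.1 q.2| with hg
  have pe : ∀ {I : Type} [Fintype I] [DecidableEq I] (l : I), PcW (W.ed l) := fun l =>
    ⟨W.continuous_ed l, kernelA_supp_ed W l⟩
  have h1 : ∀ b l, ∑' a : β × ι → ℤ, ew W (stp A B) (b, l) (zc a - c) *
      |f (a + Pi.single (b, l) 1) - f a| = ∫ t in cube K, EP (pt W A B c t) fun a =>
        ∑' x : ι → ℤ, ew W B l (zc x - yb A c t b) * g b l (Function.update a b x) :=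
    fun b l => by
      have := pcj_core A B c (fun b' => if b' = b then W.ed l else W.Phi)
        (fun b' => by split_ifs; exacts [pe l, pcW_Phi W]) (fun _ => g b l)
        fun _ => continuous_const
      simp only [← pcj_ed_prod] at this
      simp only [ew, sub_sub _ c, ← integral_mul_const]
      refine this.trans (integral_congr_ae (Filter.Eventually.of_forall fun t => ?_))
      obtain ⟨T, hT⟩ := leva_box W A B c ‖t‖
      simp only [integral_mul_const]
      refine Eq.trans (tsum_congr fun a => ?_) (EP_update (finProb_pt W A B c t) b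
        (fun x => ew W B l (zc x - yb A c t b)) T
        (fun x hx => (hT t le_rfl b x hx).2.2 l) (g b l)).symm
      rw [← mul_prod_erase _ _ (mem_univ b), if_pos rfl]
      congr 2
      exact prod_congr rfl fun b' hb => by rw [if_neg (ne_of_mem_erase hb)]; rfl
  have h2 : ∀ b l, IntegrableOn (fun t => EP (pt W A B c t) fun a =>
      ∑' x : ι → ℤ, ew W B l (zc x - yb A c t b) * g b l (Function.update a b x)) (cube K) :=
    fun b l => integrableOn_cube (continuous_EP_pt W A B c _ fun a =>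
      continuous_tsum_lattice (ew W B l) (hR l) (continuous_ew W B l) _ (leva_cont_yb A c b)
        (fun _ x => g b l (Function.update a b x)) fun _ => continuous_const)
  rw [Per, Fintype.sum_prod_type]
  simp only [h1]
  simp only [← integral_finsetSum _ fun l _ => h2 _ l]
  rw [← integral_finsetSum _ fun b _ => integrable_finsetSum _ fun l _ => h2 b l]
  refine integral_congr_ae (Filter.Eventually.of_forall fun t => sum_congr rfl fun b _ => ?_)
  rw [← EP_sum (finProb_pt W A B c t)]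
  congr 1
  funext a
  refine sum_congr rfl fun l _ => tsum_congr fun x => ?_
  simp only [hg]
  congr 4
  funext q
  obtain ⟨b', l'⟩ := q
  by_cases hb : b' = b <;> simp [hb, Pi.single_apply]

/-- Poincare inequality for functions of the top hidden point and of all blocks -/
theorem pcj (L : Set (K → ℝ)) (hLZ : ∀ n : K → ℤ, zc n ∈ L) (hL : L ⊆ LatOf A)
    {kk Bc Γ : ℝ} (hk : 0 < kk) (hB : 0 ≤ Bc) (hΓ : 0 ≤ Γ)
    (hlow : ∀ z, kk * nsq z ≤ Bc * nsq (mtv A z))
    (hprim : ∀ v : K → ℤ, Dual L v → ∀ cc, nsq (zc v - mtv A cc) < kk / 2 →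
      ∃ z : β × ι → ℤ, zc v = mtv A (zc z))
    (hω : DualW B Γ) (g : (K → ℝ) → (β → ι → ℤ) → ℝ) (D : (K → ℝ) → (β → ι → ℤ) → K → ℝ)
    (hc : ∀ a, Continuous fun t => g t a) (Dc : ∀ a, Continuous fun t => D t a)
    (hD : ∀ t w a, HasDerivAt (fun s : ℝ => g (t + s • w) a) (ip (D t a) w) 0)
    (htop : ∀ t0 ∈ L, ∀ z : β × ι → ℤ, mv A t0 = zc z →
      ∀ t a, g (t + t0) (a + fun b l => z (b, l)) = g t a)
    (hblk : ∀ d : β → ι → ℤ, (∀ b, InU B (zc (d b))) → ∀ t a, g t (a + d) = g t a) :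
    (∫ t in cube K, EP (pt W A B c t) fun a => g t a ^ 2) -
        (∫ t in cube K, EP (pt W A B c t) (g t)) ^ 2 ≤
      2 * ((Bc + 2 + Γ * Bc) / kk) * ∫ t in cube K, EP (pt W A B c t) fun a => nsq (D t a) := by
  obtain ⟨R, θ, hR, hθ, hdual, hq⟩ := geo A B L (zc_zero (ι := K) ▸ hLZ 0) hk hB hΓ hlow hprim hω
  have split : ∀ t : K ⊕ β × κ → ℝ, (fun i => t (Sum.inl i)) ∈ L →
      (∀ b, (fun i => t (Sum.inr (b, i))) ∈ LatOf B) → ∃ (z0 : β × ι → ℤ) (d : β → ι → ℤ),
      mv A (fun i => t (Sum.inl i)) = zc z0 ∧ (∀ b, InU B (zc (d b))) ∧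
        mv (stp A B) t = zc fun q => d q.1 q.2 + z0 q := fun t h1 h2 => by
    obtain ⟨z0, hz0⟩ := hL h1
    choose d hd using h2
    refine ⟨z0, d, hz0, fun b => ⟨_, (hd b).symm⟩, ?_⟩
    funext ⟨b, l⟩
    rw [mv_stp_apply, hz0, hd]
    simp [zc, add_comm]
  have cl : Continuous fun (τ : K ⊕ β × κ → ℝ) i => τ (Sum.inl i) := by fun_prop
  have Dc' : ∀ a : β × ι → ℤ, Continuous fun τ : K ⊕ β × κ → ℝ =>
      (Sum.elim (D (fun i => τ (Sum.inl i)) fun b l => a (b, l)) 0 : K ⊕ β × κ → ℝ) := fun a =>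
    continuous_pi fun
      | Sum.inl i => (continuous_apply i).comp ((Dc _).comp cl)
      | Sum.inr _ => continuous_const
  have key := pc W (stp A B) c
    {t | (fun i => t (Sum.inl i)) ∈ L ∧ ∀ b, (fun i => t (Sum.inr (b, i))) ∈ LatOf B} (fun n => ⟨hLZ fun i => n (Sum.inl i),
      fun b => zc_mem_latOf B fun i => n (Sum.inr (b, i))⟩)
    (fun t ht => by
      obtain ⟨z0, d, -, -, h⟩ := split t ht.1 ht.2
      exact ⟨_, h⟩)
    (fun τ a => g (fun i => τ (Sum.inl i)) fun b l => a (b, l))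
    (fun τ a => Sum.elim (D (fun i => τ (Sum.inl i)) fun b l => a (b, l)) 0)
    (fun a => (hc _).comp cl) Dc'
    (fun τ w a => (hD (fun i => τ (Sum.inl i)) (fun i => w (Sum.inl i)) _).congr_deriv
      (by simp [ip, Fintype.sum_sum_type]))
    (fun t ht z hz τ a => by
      obtain ⟨z0, d, h1, h2, h3⟩ := split t ht.1 ht.2
      have h4 := zc_injective (hz.symm.trans h3)
      rw [← hblk d h2 _ fun b l => a (b, l), ← htop _ ht.1 z0 h1 _ ((fun b l => a (b, l)) + d)]
      congr 1
      funext b l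
      simp [h4, add_assoc])
    R hR θ hθ hdual
  have cn : ∀ a, Continuous fun t => nsq (D t a) := fun a => by
    have := Dc a
    unfold nsq
    fun_prop
  rw [← IE_stp W A B c (fun t a => g t a ^ 2) fun a => (hc a).fun_pow 2, ← IE_stp W A B c g hc,
    ← IE_stp W A B c (fun t a => nsq (D t a)) cn, mul_assoc, ← pca_IE_mul]
  refine key.trans (mul_le_mul_of_nonneg_left (pca_IE_mono W (fun a => ?_)
    (fun a => continuous_const.mul ((cn _).comp cl)) fun τ a => hq _) zero_le_two)
  have := Dc' a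
  unfold ip
  fun_prop

end Vale.Agent.P318
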