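import Vale.Agent.P318.Basic

open Finset MeasureTheory
open scoped Classical

noncomputable section

namespace Vale.Agent.P318

section pr
variable {ι X : Type} [Fintype ι] [DecidableEq ι] [Fintype X] {p : X → ℝ}

theorem Pr_nonneg (hp : ∀ x, 0 ≤ p x) (E : (ι → X) → Prop) : 0 ≤ Pr p E :=
  sum_nonneg fun _ _ => ite_nonneg (prod_nonneg fun _ _ => hp _) le_rfl
theorem Pr_mono (hp : ∀ x, 0 ≤ p x) {E F : (ι → X) → Prop}
    (h : ∀ A, (∀ l, p (A l) ≠ 0) → E A → F A) : Pr p E ≤ Pr p F := by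
  refine sum_le_sum fun A _ => ?_
  have h0 : 0 ≤ ∏ l, p (A l) := prod_nonneg fun _ _ => hp _
  split_ifs with h1 h2
  · exact le_rfl
  · by_contra h3
    exact h2 (h A (fun l hl => h3 (prod_eq_zero (mem_univ l) hl).le) h1)
  · exact h0
  · exact le_rfl
theorem rma_prod_sum {R : Type} [CommSemiring R] (f : ι → X → R) :
    ∑ A : ι → X, ∏ l, f l (A l) = ∏ l, ∑ x, f l x := by
  rw [prod_univ_sum, Fintype.piFinset_univ]
theorem Pr_true (h1 : ∑ x, p x = 1) : Pr p (fun _ : ι → X => True) = 1 := by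
  simp [Pr, rma_prod_sum fun _ x => p x, h1]
theorem Pr_or (hp : ∀ x, 0 ≤ p x) (E F : (ι → X) → Prop) :
    Pr p (fun A => E A ∨ F A) ≤ Pr p E + Pr p F := by
  unfold Pr
  rw [← sum_add_distrib]
  refine sum_le_sum fun A _ => ?_
  have h0 : 0 ≤ ∏ l, p (A l) := prod_nonneg fun _ _ => hp _
  by_cases h1 : E A <;> by_cases h2 : F A <;> simp [h1, h2, h0]
theorem Pr_exists (hp : ∀ x, 0 ≤ p x) {I : Type} (s : Finset I) (E : I → (ι → X) → Prop) :
    Pr p (fun A => ∃ i ∈ s, E i A) ≤ ∑ i ∈ s, Pr p (E i) := by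
  induction s using Finset.induction_on with
  | empty => simp [Pr]
  | insert a s ha ih =>
    rw [sum_insert ha]
    exact (Pr_mono hp fun A _ h => by simpa using h).trans
      ((Pr_or hp (E a) _).trans (add_le_add le_rfl ih))
/-- Chernoff bound -/
theorem Pr_chernoff (hp : ∀ x, 0 ≤ p x) (g : ι → X → ℝ) (T : ℝ) :
    Pr p (fun A => T ≤ ∑ l, g l (A l)) ≤
      Real.exp (-T) * ∏ l, ∑ x, p x * Real.exp (g l x) := by
  rw [← rma_prod_sum, mul_sum]
  refine sum_le_sum fun A _ => ?_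
  have h0 : 0 ≤ ∏ l, p (A l) := prod_nonneg fun _ _ => hp _
  rw [prod_mul_distrib, ← Real.exp_sum, mul_left_comm, ← Real.exp_add]
  split_ifs with h
  · exact le_mul_of_one_le_right h0 (Real.one_le_exp (by linarith))
  · positivity
/-- lower tail for bounded nonnegative variables of mean at least one half -/
theorem Pr_lower (hp : ∀ x, 0 ≤ p x) (h1 : ∑ x, p x = 1) (g : ι → X → ℝ)
    (h0 : ∀ l x, 0 ≤ g l x) (h2 : ∀ l x, g l x ≤ 2) (hm : ∀ l, 1 / 2 ≤ ∑ x, p x * g l x) :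
    Pr p (fun A => ∑ l, g l (A l) ≤ Fintype.card ι / 10) ≤
      Real.exp (-(Fintype.card ι / 10 : ℝ)) := by
  have a1 : ∀ l, ∑ x, p x * Real.exp (-g l x) ≤ Real.exp (-(1 / 5)) := fun l => by
    have a2 : ∀ x, p x * Real.exp (-g l x) ≤ p x - 2 / 5 * (p x * g l x) := fun x => by
      have b1 := Real.quadratic_le_exp_of_nonneg (h0 l x)
      have b2 := h0 l x
      have b3 := h2 l x
      have b4 : Real.exp (-g l x) ≤ 1 - 2 / 5 * g l x := by
        rw [Real.exp_neg, inv_le_iff_one_le_mul₀ (Real.exp_pos _)]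
        refine le_trans ?_ (mul_le_mul_of_nonneg_left b1 (by linarith))
        nlinarith [mul_nonneg b2 (mul_nonneg (sub_nonneg.2 b3) (by linarith : 0 ≤ g l x + 3 / 2))]
      linarith [mul_le_mul_of_nonneg_left b4 (hp x)]
    refine (sum_le_sum fun x _ => a2 x).trans ?_
    rw [sum_sub_distrib, ← mul_sum, h1]
    linarith [hm l, Real.add_one_le_exp (-(1 / 5))]
  refine (Pr_mono hp fun A _ h => ?_).trans ((Pr_chernoff hp (fun l x => -g l x)
    (-(Fintype.card ι / 10))).trans ?_)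
  · rw [sum_neg_distrib]; exact neg_le_neg h
  · refine (mul_le_mul_of_nonneg_left (prod_le_prod (fun l _ => sum_nonneg fun x _ =>
      mul_nonneg (hp x) (Real.exp_pos _).le) fun l _ => a1 l) (Real.exp_pos _).le).trans ?_
    rw [prod_const, card_univ, ← Real.exp_nat_mul, ← Real.exp_add]
    exact le_of_eq (by congr 1; ring)
theorem Pr_marg (h1 : ∑ x, p x = 1) (S : Finset ι) (E : (S → X) → Prop) :
    Pr p (fun A : ι → X => E fun l => A l) = Pr p E := by
  unfold Pr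
  rw [← (Equiv.piEquivPiSubtypeProd (· ∈ S) fun _ => X).symm.sum_comp, Fintype.sum_prod_type]
  refine sum_congr rfl fun B _ => ?_
  have e : ∀ C : {l // l ∉ S} → X, ∏ l, p ((Equiv.piEquivPiSubtypeProd (· ∈ S)
      fun _ => X).symm (B, C) l) = (∏ l, p (B l)) * ∏ l, p (C l) := fun C => by
    rw [← Fintype.prod_subtype_mul_prod_subtype (· ∈ S)]
    congr 1
    · exact prod_congr (by ext; simp only [mem_univ]) fun l _ => by simp
    · exact prod_congr rfl fun l _ => by simp [Equiv.piEquivPiSubtypeProd_symm_apply, l.2]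
  have e' : ∀ C : {l // l ∉ S} → X, (fun l : S => (Equiv.piEquivPiSubtypeProd (· ∈ S)
      fun _ => X).symm (B, C) l) = B := fun C => by
    funext l; simp
  simp only [e, e']
  split_ifs
  · rw [← mul_sum, rma_prod_sum fun _ x => p x]; simp [h1]
  · simp

end pr

theorem abs_rv_le {k m : ℕ} (x : Row k m) (i : Fin k) : |rv x i| ≤ m := by
  have := (x i).2
  unfold rv
  rw [abs_le]
  omega
theorem bw_nonneg (m : ℕ) (j : Fin (2 * m + 1)) : 0 ≤ bw m j := by
  unfold bw; positivity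
theorem sum_bw (m : ℕ) : ∑ j, bw m j = 1 := by
  unfold bw
  rw [← sum_div, Fin.sum_univ_eq_sum_range (fun j => ((2 * m).choose j : ℝ)), ← Nat.cast_sum,
    Nat.sum_range_choose, pow_mul]
  norm_num
theorem rma_central (m : ℕ) : m.centralBinom ^ 2 * (2 * m + 1) ≤ 16 ^ m := by
  induction m with
  | zero => simp
  | succ m ih =>
    refine Nat.le_of_mul_le_mul_left ?_ (show 0 < (m + 1) ^ 2 by positivity)
    calc (m + 1) ^ 2 * ((m + 1).centralBinom ^ 2 * (2 * (m + 1) + 1))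
        = ((m + 1) * (m + 1).centralBinom) ^ 2 * (2 * m + 3) := by ring
      _ = 4 * ((2 * m + 1) * (2 * m + 3)) * (m.centralBinom ^ 2 * (2 * m + 1)) := by
        rw [Nat.succ_mul_centralBinom_succ]; ring
      _ ≤ 4 * (4 * (m + 1) ^ 2) * 16 ^ m :=
        Nat.mul_le_mul (Nat.mul_le_mul_left _ (by nlinarith)) ih
      _ = _ := by ring
theorem bw_le {m : ℕ} (hm : 2 ^ 14 ≤ m) (j : Fin (2 * m + 1)) : bw m j ≤ 1 / 128 := by
  have h1 : ((2 * m).choose j * 128) ^ 2 ≤ (4 ^ m) ^ 2 := by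
    rw [mul_pow, ← pow_mul, mul_comm m, pow_mul]
    exact (Nat.mul_le_mul (Nat.pow_le_pow_left (Nat.choose_le_centralBinom _ _) 2)
      (by omega)).trans (rma_central m)
  rw [bw, div_le_div_iff₀ (by positivity) (by norm_num), one_mul]
  exact_mod_cast (Nat.pow_le_pow_iff_left two_ne_zero).1 h1
theorem sum_bw_exp (m : ℕ) (z : ℂ) :
    ∑ j : Fin (2 * m + 1), (bw m j : ℂ) * Complex.exp (z * ((((j : ℕ) : ℤ) - m : ℤ) : ℂ)) =
      Complex.cosh (z / 2) ^ (2 * m) := by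
  rw [Complex.cosh, div_pow, add_pow, sum_div, ← Fin.sum_univ_eq_sum_range fun j =>
    Complex.exp (z / 2) ^ j * Complex.exp (-(z / 2)) ^ (2 * m - j) * ((2 * m).choose j : ℂ) /
      2 ^ (2 * m)]
  refine sum_congr rfl fun j _ => ?_
  rw [← Complex.exp_nat_mul, ← Complex.exp_nat_mul, ← Complex.exp_add,
    Nat.cast_sub (Nat.le_of_lt_succ j.2), bw, pow_mul]
  push_cast
  rw [show (j : ℕ) * (z / 2) + (2 * m - (j : ℕ)) * -(z / 2) = z * ((j : ℕ) - m) by ring]
  ring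
theorem w0_nonneg {k m : ℕ} (x : Row k m) : 0 ≤ w0 x := prod_nonneg fun _ _ => bw_nonneg _ _
theorem sum_w0 (k m : ℕ) : ∑ x : Row k m, w0 x = 1 := by
  simp [w0, rma_prod_sum fun _ j => bw m j, sum_bw]
theorem w0_le {k m : ℕ} (hm : 2 ^ 14 ≤ m) (x : Row k m) : w0 x ≤ (1 / 128) ^ k :=
  (prod_le_prod (fun _ _ => bw_nonneg _ _) fun i _ => bw_le hm (x i)).trans (by simp)
theorem sum_w0_exp (k m : ℕ) (ζ : Fin k → ℂ) :
    ∑ x : Row k m, (w0 x : ℂ) * Complex.exp (∑ i, ζ i * (rv x i : ℂ)) =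
      ∏ i, Complex.cosh (ζ i / 2) ^ (2 * m) := by
  simp only [← sum_bw_exp, ← rma_prod_sum, w0, rv, Complex.exp_sum, Complex.ofReal_prod,
    prod_mul_distrib]
theorem rma_sin (y : ℝ) : 4 * fr y ^ 2 ≤ Real.sin (Real.pi * y) ^ 2 := by
  have h1 := Real.mul_abs_le_abs_sin (x := Real.pi * (y - round y)) (by
    rw [abs_mul, abs_of_pos Real.pi_pos, div_eq_mul_one_div]
    exact mul_le_mul_of_nonneg_left (fr_le_half y) Real.pi_pos.le)
  rw [abs_mul, abs_of_pos Real.pi_pos, ← mul_assoc, div_mul_cancel₀ _ Real.pi_pos.ne'] at h1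
  have h2 := pow_le_pow_left₀ (by positivity) h1 2
  rw [show Real.pi * y = Real.pi * (y - round y) + round y * Real.pi by ring,
    Real.sin_add_int_mul_pi, ← sq_abs (_ * _), abs_mul, abs_zpow, abs_neg, abs_one, one_zpow,
    one_mul, fr]
  linarith
theorem cos_sq_le (y : ℝ) : Real.cos (Real.pi * y) ^ 2 ≤ Real.exp (-(4 * fr y ^ 2)) := by
  linarith [rma_sin y, Real.add_one_le_exp (-(4 * fr y ^ 2)), Real.cos_sq' (Real.pi * y)]
theorem one_sub_cos_le (y : ℝ) : 1 - Real.cos (2 * Real.pi * y) ≤ 20 * y ^ 2 := by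
  have h1 : Real.pi ^ 2 ≤ 10 := by nlinarith [Real.pi_lt_d2, Real.pi_pos]
  nlinarith [Real.one_sub_sq_div_two_le_cos (x := 2 * Real.pi * y), sq_nonneg y]
theorem abs_cos_sub_le (x y : ℝ) :
    |Real.cos (2 * Real.pi * x) - Real.cos (2 * Real.pi * y)| ≤ 7 * |x - y| := by
  refine (Real.abs_cos_sub_cos_le _ _).trans ?_
  rw [← mul_sub, abs_mul, abs_of_pos Real.two_pi_pos]
  exact mul_le_mul_of_nonneg_right (by linarith [Real.pi_lt_d2]) (abs_nonneg _)
theorem cosh_pi_I (y : ℝ) :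
    Complex.cosh ((2 * Real.pi * y : ℝ) * Complex.I / 2) = (Real.cos (Real.pi * y) : ℝ) := by
  rw [Complex.ofReal_cos, ← Complex.cosh_mul_I]
  congr 1
  push_cast
  ring
theorem rma_cosh (x y : ℝ) : ‖Complex.cosh ((x + (2 * Real.pi * y : ℝ) * Complex.I) / 2)‖ ^ 2 =
    Real.cosh (x / 2) ^ 2 - Real.sin (Real.pi * y) ^ 2 := by
  rw [show ((x + (2 * Real.pi * y : ℝ) * Complex.I) / 2 : ℂ) =
    (x / 2 : ℝ) + (Real.pi * y : ℝ) * Complex.I by push_cast; ring, Complex.cosh_add,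
    Complex.cosh_mul_I, Complex.sinh_mul_I, ← Complex.ofReal_cosh, ← Complex.ofReal_cos,
    ← Complex.ofReal_sinh, ← Complex.ofReal_sin, ← mul_assoc, ← Complex.ofReal_mul,
    ← Complex.ofReal_mul, Complex.sq_norm, Complex.normSq_add_mul_I, mul_pow, mul_pow, Real.cos_sq',
    Real.sinh_sq]
  ring
theorem rma_cosh_sq (x : ℝ) : Real.cosh (x / 2) ^ 2 ≤ Real.exp (x ^ 2 / 4) := by
  refine (pow_le_pow_left₀ (Real.cosh_pos _).le (Real.cosh_le_exp_half_sq _) 2).trans (le_of_eq ?_)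
  rw [← Real.exp_nat_mul]
  congr 1
  push_cast
  ring
theorem norm_cosh_sq_le (x y : ℝ) :
    ‖Complex.cosh ((x + (2 * Real.pi * y : ℝ) * Complex.I) / 2)‖ ^ 2 ≤ Real.exp (x ^ 2 / 4) := by
  linarith [rma_cosh x y, rma_cosh_sq x, sq_nonneg (Real.sin (Real.pi * y))]
theorem norm_cosh_sq_le' (x y : ℝ) (hx : |x| ≤ 1) :
    ‖Complex.cosh ((x + (2 * Real.pi * y : ℝ) * Complex.I) / 2)‖ ^ 2 ≤
      Real.exp (x ^ 2 / 4) * Real.exp (-(3 * fr y ^ 2)) := by
  have h1 : Real.exp (x ^ 2 / 4) ≤ 4 / 3 := by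
    have h2 := Real.add_one_le_exp (-(x ^ 2 / 4))
    have h3 : x ^ 2 ≤ 1 := (sq_le_one_iff_abs_le_one x).2 hx
    rw [Real.exp_neg, le_inv_comm₀ (by linarith) (Real.exp_pos _)] at h2
    exact h2.trans ((inv_le_comm₀ (by linarith) (by norm_num)).2 (by linarith))
  have h2 := mul_le_mul_of_nonneg_left (Real.add_one_le_exp (-(3 * fr y ^ 2)))
    (Real.exp_pos (x ^ 2 / 4)).le
  nlinarith [rma_cosh x y, rma_cosh_sq x, rma_sin y, sq_nonneg (fr y)]

end Vale.Agent.P318
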