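import Vale.Agent.P318.RMA

open Finset MeasureTheory
open scoped Classical

noncomputable section

namespace Vale.Agent.P318

variable {h k q m : ℕ} [Fact q.Prime]

theorem rmb_q : (0 : ℝ) < (q : ℝ) ^ h := pow_pos (Nat.cast_pos.2 (Fact.out : q.Prime).pos) h

theorem rmb_ind (H : Fin h → Fin k → ZMod q) (v : Fin k → ℤ) :
    ∑ u : Fin h → ZMod q, Complex.exp (∑ i, (2 * Real.pi * hu H u i : ℝ) * Complex.I * (v i : ℂ)) =
      if InK H v then (q : ℂ) ^ h else 0 := by
  have e : ∀ u : Fin h → ZMod q,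
      Complex.exp (∑ i, (2 * Real.pi * hu H u i : ℝ) * Complex.I * (v i : ℂ)) =
        ∏ r, ZMod.stdAddChar (u r * ∑ i, H r i * (v i : ZMod q)) := fun u => by
    have e1 : ∀ {ι : Type} (s : Finset ι) (f : ι → ZMod q),
        ∏ r ∈ s, ZMod.stdAddChar (f r) = ZMod.stdAddChar (∑ r ∈ s, f r) := fun s f => by
      induction s using Finset.induction_on with
      | empty => simp
      | insert a s ha ih => rw [prod_insert ha, sum_insert ha, AddChar.map_add_eq_mul, ih]
    simp only [e1, mul_sum, ← mul_assoc]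
    rw [sum_comm, ← e1, Complex.exp_sum]
    refine prod_congr rfl fun i _ => ?_
    rw [← sum_mul, show (∑ r, u r * H r i) * (v i : ZMod q) =
      (((∑ r, u r * H r i).val * v i : ℤ) : ZMod q) by simp, ZMod.stdAddChar_coe, hu]
    congr 1
    push_cast
    ring
  simp only [e]
  rw [rma_prod_sum fun r x => ZMod.stdAddChar (x * ∑ i, H r i * (v i : ZMod q))]
  simp only [AddChar.sum_mulShift _ (ZMod.isPrimitive_stdAddChar q), ZMod.card]
  split_ifs with hv
  · simp [hv _]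
  · obtain ⟨r, hr⟩ := not_forall.1 hv
    exact prod_eq_zero (mem_univ r) (by simp [hr])

theorem rmb_master (H : Fin h → Fin k → ZMod q) (ζ : Fin k → ℂ) :
    (q : ℂ) ^ h * ∑ x : Row k m, ((if InK H (rv x) then w0 x else 0 : ℝ) : ℂ) *
      Complex.exp (∑ i, ζ i * (rv x i : ℂ)) = ∑ u : Fin h → ZMod q,
        ∏ i, Complex.cosh ((ζ i + (2 * Real.pi * hu H u i : ℝ) * Complex.I) / 2) ^ (2 * m) := by
  simp only [← sum_w0_exp, add_mul, sum_add_distrib, Complex.exp_add, ← mul_assoc]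
  rw [sum_comm, mul_sum]
  refine sum_congr rfl fun x _ => ?_
  rw [← mul_sum, rmb_ind]
  split_ifs
  · ring
  · simp

theorem rmb_hu_zero (H : Fin h → Fin k → ZMod q) (i : Fin k) : hu H 0 i = 0 := by simp [hu]

theorem ZH_ge (H : Fin h → Fin k → ZMod q) : ((q : ℝ) ^ h)⁻¹ ≤ ZH m H := by
  have h1 := rmb_master (m := m) H 0
  simp only [Pi.zero_apply, zero_mul, sum_const_zero, Complex.exp_zero, mul_one, zero_add,
    cosh_pi_I] at h1
  have h2 : (q : ℝ) ^ h * ZH m H =
      ∑ u : Fin h → ZMod q, ∏ i, Real.cos (Real.pi * hu H u i) ^ (2 * m) := by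
    unfold ZH
    exact_mod_cast h1
  rw [inv_le_iff_one_le_mul₀' rmb_q, h2]
  refine le_trans (le_of_eq ?_) (single_le_sum (fun u _ => prod_nonneg fun i _ =>
    (even_two_mul m).pow_nonneg _) (mem_univ 0))
  simp [rmb_hu_zero]
theorem rmb_Z (H : Fin h → Fin k → ZMod q) : 0 < ZH m H := (inv_pos.2 rmb_q).trans_le (ZH_ge H)
theorem wH_nonneg (H : Fin h → Fin k → ZMod q) (x : Row k m) : 0 ≤ wH H x :=
  div_nonneg (ite_nonneg (w0_nonneg x) le_rfl) (rmb_Z H).le
theorem sum_wH (H : Fin h → Fin k → ZMod q) : ∑ x : Row k m, wH H x = 1 := by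
  unfold wH
  rw [← sum_div]
  exact div_self (rmb_Z H).ne'
theorem wH_le (H : Fin h → Fin k → ZMod q) (x : Row k m) :
    wH H x ≤ (q : ℝ) ^ h * (if InK H (rv x) then w0 x else 0) := by
  rw [wH, mul_comm, ← div_inv_eq_mul]
  exact div_le_div_of_nonneg_left (ite_nonneg (w0_nonneg x) le_rfl) (inv_pos.2 rmb_q) (ZH_ge H)
theorem inK_of_wH_ne {H : Fin h → Fin k → ZMod q} {x : Row k m} (hx : wH H x ≠ 0) :
    InK H (rv x) := by
  by_contra h
  simp [wH, h] at hx

theorem rmb_norm (H : Fin h → Fin k → ZMod q) (ζ : Fin k → ℂ) :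
    ‖∑ x : Row k m, (wH H x : ℂ) * Complex.exp (∑ i, ζ i * (rv x i : ℂ))‖ ≤ ∑ u : Fin h → ZMod q,
      ∏ i, (‖Complex.cosh ((ζ i + (2 * Real.pi * hu H u i : ℝ) * Complex.I) / 2)‖ ^ 2) ^ m := by
  have h1 := congrArg norm (rmb_master (m := m) H ζ)
  simp only [wH, Complex.ofReal_div, div_mul_eq_mul_div, ← sum_div, norm_div]
  rw [norm_mul, norm_pow, Complex.norm_natCast] at h1
  rw [Complex.norm_of_nonneg (rmb_Z H).le]
  refine (div_le_div_of_nonneg_left (norm_nonneg _) (inv_pos.2 rmb_q) (ZH_ge H)).trans ?_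
  rw [div_inv_eq_mul, mul_comm, h1]
  exact (norm_sum_le _ _).trans (le_of_eq (by simp only [norm_prod, norm_pow, pow_mul]))

theorem rmb_sub (H : Fin h → Fin k → ZMod q) (u u' : Fin h → ZMod q) (i : Fin k) :
    ∃ n : ℤ, hu H (u - u') i = hu H u i - hu H u' i + n := by
  have hq : (q : ℝ) ≠ 0 := Nat.cast_ne_zero.2 (Fact.out : q.Prime).ne_zero
  simp only [hu, Pi.sub_apply, sub_mul, sum_sub_distrib]
  generalize ∑ r, u r * H r i = a
  generalize ∑ r, u' r * H r i = b
  obtain ⟨n, hn⟩ := (ZMod.intCast_zmod_eq_zero_iff_dvd ((a - b).val - (a.val - b.val)) q).1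
    (by simp)
  refine ⟨n, ?_⟩
  have : ((a - b).val : ℝ) - (a.val - b.val) = q * n := by exact_mod_cast hn
  field_simp
  linarith

omit [Fact q.Prime] in
theorem rmb_pow (hq : q ^ h ≤ 64 ^ k) : (q : ℝ) ^ h ≤ Real.exp (5 * k) := by
  have h1 : (64 : ℝ) ≤ Real.exp 5 := by
    have := pow_le_pow_left₀ (by norm_num) Real.exp_one_gt_d9.le 5
    rw [← Real.exp_nat_mul] at this
    norm_num at this
    linarith
  rw [mul_comm, Real.exp_nat_mul]
  exact le_trans (by exact_mod_cast hq) (pow_le_pow_left₀ (by norm_num) h1 k)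

theorem rmb_tail (hq : q ^ h ≤ 64 ^ k) (hk : 0 < k) {s : Finset (Fin h → ZMod q)}
    {T : (Fin h → ZMod q) → ℝ} {C : ℝ} (hC : 0 ≤ C)
    (hT : ∀ u ∈ s, T u ≤ C * Real.exp (-(50 * k))) : ∑ u ∈ s, T u ≤ C / 4 := by
  refine (sum_le_card_nsmul _ _ _ hT).trans ?_
  have h1 : (s.card : ℝ) ≤ (q : ℝ) ^ h := by
    exact_mod_cast (card_le_univ s).trans (by simp [ZMod.card])
  have h2 : (1 : ℝ) ≤ k := by exact_mod_cast hk
  have h3 : Real.exp (5 * k) * Real.exp (-(50 * k)) ≤ 1 / 4 := by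
    rw [← Real.exp_add, ← neg_neg (_ + _), Real.exp_neg, inv_le_comm₀ (Real.exp_pos _)
      (by norm_num)]
    linarith [Real.add_one_le_exp (-(5 * k + -(50 * k)) : ℝ)]
  rw [nsmul_eq_mul, mul_left_comm, div_eq_mul_one_div]
  exact mul_le_mul_of_nonneg_left ((mul_le_mul_of_nonneg_right (h1.trans (rmb_pow hq))
    (Real.exp_pos _).le).trans h3) hC

omit [Fact q.Prime] in
theorem rmb_count {s : Finset (Fin k)} {f : Fin k → ℝ} (hf : ∀ i, 0 ≤ f i) {c : ℝ}
    (hs : ∀ i ∈ s, c ≤ f i) : s.card * c ≤ ∑ i, f i :=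
  (by simpa using card_nsmul_le_sum s f c hs : _ ≤ ∑ i ∈ s, f i).trans
    (sum_le_sum_of_subset_of_nonneg (subset_univ _) fun i _ _ => hf i)

/-- the characteristic function is small away from the lattice -/
theorem wH_char {H : Fin h → Fin k → ZMod q} (hH : GoodH H) (hq : q ^ h ≤ 64 ^ k)
    (hm : 10 ^ 14 ≤ m) (hk : 0 < k) (Δ : Fin k → ℝ) (hΔ : ∀ t ∈ LH H, 1 / 256 ≤ nsq (Δ - t))
    (s : ℝ) :
    ∑ x : Row k m, wH H x * Real.cos (2 * Real.pi * (ip (zc (rv x)) Δ + s)) ≤ 1 / 2 := by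
  have hm' : (10 : ℝ) ^ 14 ≤ m := by exact_mod_cast hm
  obtain ⟨S, hS⟩ : ∃ S : (Fin h → ZMod q) → ℝ, S = fun u => ∑ i, fr (Δ i + hu H u i) ^ 2 :=
    ⟨_, rfl⟩
  have a1 : ∑ x : Row k m, wH H x * Real.cos (2 * Real.pi * (ip (zc (rv x)) Δ + s)) ≤
      ∑ u, Real.exp (-(4 * m * S u)) := by
    have e : ∑ x : Row k m, wH H x * Real.cos (2 * Real.pi * (ip (zc (rv x)) Δ + s)) =
        (Complex.exp ((2 * Real.pi * s : ℝ) * Complex.I) * ∑ x : Row k m, (wH H x : ℂ) *
          Complex.exp (∑ i, (2 * Real.pi * Δ i : ℝ) * Complex.I * (rv x i : ℂ))).re := by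
      rw [mul_sum, Complex.re_sum]
      refine sum_congr rfl fun x _ => ?_
      rw [mul_left_comm, Complex.re_ofReal_mul, ← Complex.exp_add, ← Complex.exp_ofReal_mul_I_re]
      congr 3
      simp only [ip, zc]
      push_cast
      rw [mul_add, add_mul, add_comm, mul_sum, sum_mul]
      exact congrArg _ (sum_congr rfl fun i _ => by ring)
    rw [e]
    refine (Complex.re_le_norm _).trans ?_
    rw [norm_mul, Complex.norm_exp_ofReal_mul_I, one_mul]
    refine (rmb_norm H _).trans (sum_le_sum fun u _ => ?_)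
    rw [hS, mul_sum, ← sum_neg_distrib, Real.exp_sum]
    refine prod_le_prod (fun i _ => by positivity) fun i _ => ?_
    rw [← add_mul, ← Complex.ofReal_add, ← mul_add, cosh_pi_I, Complex.norm_real, Real.norm_eq_abs,
      sq_abs]
    refine (pow_le_pow_left₀ (sq_nonneg _) (cos_sq_le _) m).trans (le_of_eq ?_)
    rw [← Real.exp_nat_mul]
    congr 1
    ring
  have a2 : ∀ u, 1 / 256 ≤ S u := fun u => by
    choose n hn using rmb_sub H 0 u
    refine (hΔ _ ⟨0 - u, fun i => round (Δ i + hu H u i) - n i, rfl⟩).trans (le_of_eq ?_)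
    rw [hS]
    refine sum_congr rfl fun i _ => ?_
    simp only [fr, sq_abs, Pi.sub_apply, Pi.add_apply, hn, zc, rmb_hu_zero]
    push_cast
    ring
  have a3 : (univ.filter fun u => S u < k / (8 * 10 ^ 12)).card ≤ 1 := by
    refine card_le_one.2 fun u hu1 u' hu2 => ?_
    by_contra hne
    have b1 := (Nat.cast_le (α := ℝ)).2 (hH (u - u') (sub_ne_zero.2 hne))
    rw [Nat.cast_mul, Nat.cast_ofNat] at b1
    have b2 := rmb_count (f := fun i => 2 * fr (Δ i + hu H u i) ^ 2 + 2 * fr (Δ i + hu H u' i) ^ 2)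
      (fun i => by positivity) (c := 1 / 10 ^ 12)
      (s := univ.filter fun i => (1 : ℝ) / 10 ^ 6 ≤ fr (hu H (u - u') i)) fun i hi => by
        have c1 := (mem_filter.1 hi).2
        obtain ⟨n, hn⟩ := rmb_sub H u u' i
        have c2 := fr_add_le (Δ i + hu H u i) (-(Δ i + hu H u' i))
        rw [hn, fr_add_int] at c1
        rw [fr_neg, show Δ i + hu H u i + -(Δ i + hu H u' i) = hu H u i - hu H u' i by ring] at c2
        have c3 := pow_le_pow_left₀ (by norm_num) (c1.trans c2) 2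
        nlinarith [sq_nonneg (fr (Δ i + hu H u i) - fr (Δ i + hu H u' i))]
    have b3 := (mem_filter.1 hu1).2
    have b4 := (mem_filter.1 hu2).2
    rw [sum_add_distrib, ← mul_sum, ← mul_sum] at b2
    simp only [hS] at b3 b4
    linarith
  refine a1.trans ?_
  rw [← sum_filter_add_sum_filter_not univ fun u => S u < k / (8 * 10 ^ 12)]
  have a4 := rmb_tail hq hk (s := univ.filter fun u => ¬S u < k / (8 * 10 ^ 12))
    (T := fun u => Real.exp (-(4 * m * S u))) zero_le_one fun u hu => by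
      have := mul_le_mul hm' (not_lt.1 (mem_filter.1 hu).2) (by positivity) (by positivity)
      rw [one_mul]
      exact Real.exp_le_exp.2 (by linarith)
  have a5 := sum_le_card_nsmul (univ.filter fun u => S u < k / (8 * 10 ^ 12))
    (fun u => Real.exp (-(4 * m * S u))) (1 / 4) fun u _ => by
      have := mul_le_mul hm' (a2 u) (by positivity) (by positivity)
      rw [Real.exp_neg, inv_le_comm₀ (Real.exp_pos _) (by norm_num)]
      linarith [Real.add_one_le_exp (4 * m * S u)]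
  have a6 : ((univ.filter fun u => S u < k / (8 * 10 ^ 12)).card : ℝ) ≤ 1 := by exact_mod_cast a3
  rw [nsmul_eq_mul] at a5
  linarith

/-- sub-Gaussian moment generating function -/
theorem wH_mgf {H : Fin h → Fin k → ZMod q} (hH : GoodH H) (hq : q ^ h ≤ 64 ^ k)
    (hm : 10 ^ 14 ≤ m) (hk : 0 < k) (θ : Fin k → ℝ) :
    ∑ x : Row k m, wH H x * Real.exp (ip (zc (rv x)) θ) ≤ 2 * Real.exp ((m + 20) * nsq θ) := by
  have hm' : (10 : ℝ) ^ 14 ≤ m := by exact_mod_cast hm
  have h0 := nsq_nonneg θ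
  have a1 := le_trans ((le_abs_self (∑ x : Row k m, wH H x * Real.exp (ip (zc (rv x)) θ))).trans
    (le_of_eq (by
      rw [← Real.norm_eq_abs, ← Complex.norm_real]
      simp only [ip, zc, mul_comm (θ _ : ℂ)]
      push_cast
      rfl))) (rmb_norm (m := m) H fun i => θ i)
  have a2 : ∀ u : Fin h → ZMod q, ∀ s : Finset (Fin k), (∀ i ∈ s, |θ i| ≤ 1) → ∀ c : ℝ, 0 ≤ c →
      (∀ i ∈ s, c ≤ fr (hu H u i)) →
      ∏ i, (‖Complex.cosh ((θ i + (2 * Real.pi * hu H u i : ℝ) * Complex.I) / 2)‖ ^ 2) ^ m ≤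
        Real.exp (m * nsq θ) * Real.exp (-(3 * m * (s.card * c ^ 2))) := fun u s h1 c hc h2 => by
    have b1 : ∀ i, ‖Complex.cosh ((θ i + (2 * Real.pi * hu H u i : ℝ) * Complex.I) / 2)‖ ^ 2 ≤
        Real.exp (θ i ^ 2 - if i ∈ s then 3 * c ^ 2 else 0) := fun i => by
      split_ifs with hi
      · refine (norm_cosh_sq_le' _ _ (h1 i hi)).trans ?_
        rw [← Real.exp_add]
        have := pow_le_pow_left₀ hc (h2 i hi) 2
        exact Real.exp_le_exp.2 (by linarith [sq_nonneg (θ i)])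
      · exact (norm_cosh_sq_le _ _).trans (Real.exp_le_exp.2 (by linarith [sq_nonneg (θ i)]))
    refine (prod_le_prod (fun i _ => by positivity) fun i _ =>
      pow_le_pow_left₀ (by positivity) (b1 i) m).trans (le_of_eq ?_)
    rw [prod_pow, ← Real.exp_sum, ← Real.exp_nat_mul, ← Real.exp_add, sum_sub_distrib,
      sum_ite_mem, univ_inter, sum_const, nsmul_eq_mul, nsq]
    congr 1
    ring
  have a3 := fun u => a2 u ∅ (by simp) 0 le_rfl (by simp)
  simp only [card_empty, Nat.cast_zero, zero_mul, mul_zero, neg_zero, Real.exp_zero,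
    mul_one] at a3
  have a4 := Real.exp_pos (m * nsq θ)
  refine a1.trans ?_
  rw [add_mul, Real.exp_add]
  rcases le_total (nsq θ) (k / 4) with hθ | hθ
  · rw [← add_sum_erase _ _ (mem_univ 0)]
    have b1 := rmb_tail hq hk (s := univ.erase 0) a4.le fun u hu0 => (a2 u
      ((univ.filter fun i => (1 : ℝ) / 10 ^ 6 ≤ fr (hu H u i)) \ univ.filter fun i => 1 < |θ i|)
      (fun i hi => by simpa using (mem_sdiff.1 hi).2) (1 / 10 ^ 6) (by norm_num)
      fun i hi => (mem_filter.1 (mem_sdiff.1 hi).1).2).trans (by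
        have c1 := (Nat.cast_le (α := ℝ)).2 (hH u (mem_erase.1 hu0).1)
        have c2 := rmb_count (f := fun i => θ i ^ 2) (fun i => sq_nonneg _) (c := 1)
          (s := univ.filter fun i => 1 < |θ i|) fun i hi =>
            (one_le_sq_iff_one_le_abs _).2 (mem_filter.1 hi).2.le
        have c3 := (Nat.cast_le (α := ℝ)).2 (card_le_card_sdiff_add_card (s := univ.filter
          fun i => (1 : ℝ) / 10 ^ 6 ≤ fr (hu H u i)) (t := univ.filter fun i => 1 < |θ i|))
        rw [Nat.cast_mul, Nat.cast_ofNat] at c1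
        rw [Nat.cast_add] at c3
        refine mul_le_mul_of_nonneg_left (Real.exp_le_exp.2 (neg_le_neg ?_)) a4.le
        unfold nsq at hθ
        refine le_trans ?_ (mul_le_mul (mul_le_mul_of_nonneg_left hm' zero_le_three)
          (mul_le_mul_of_nonneg_right (show (k : ℝ) / 4 ≤ _ by linarith) (sq_nonneg _))
          (by positivity) (by positivity))
        linarith [(Nat.cast_nonneg k : (0 : ℝ) ≤ k)])
    have b2 := mul_le_mul_of_nonneg_left (Real.one_le_exp (show 0 ≤ 20 * nsq θ by linarith)) a4.le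
    linarith [a3 0]
  · refine (sum_le_card_nsmul _ _ _ fun u _ => a3 u).trans ?_
    have b1 : ((univ : Finset (Fin h → ZMod q)).card : ℝ) ≤ Real.exp (20 * nsq θ) :=
      le_trans (by simp [ZMod.card]) ((rmb_pow hq).trans (Real.exp_le_exp.2 (by linarith)))
    rw [nsmul_eq_mul]
    nlinarith [Real.exp_pos (20 * nsq θ)]

end Vale.Agent.P318
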