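import Vale.Agent.P318.RMA

open Finset MeasureTheory
open scoped Classical

noncomputable section

namespace Vale.Agent.P318

variable {h k q : ℕ} [Fact q.Prime]

theorem rmc_small (hq6 : 10 ^ 6 ≤ q) :
    10 ^ 6 * (univ.filter fun y : ZMod q => ¬(1 : ℝ) / 10 ^ 6 ≤ fr ((y.val : ℝ) / q)).card ≤
      3 * q := by
  obtain ⟨n, hn⟩ : ∃ n, n = q / 10 ^ 6 := ⟨_, rfl⟩
  have h1 : 1 ≤ n := hn ▸ (Nat.one_le_div_iff (by norm_num)).2 hq6
  have h2 : 10 ^ 6 * n ≤ q := hn ▸ Nat.mul_div_le q _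
  have h3 : q < 10 ^ 6 * (n + 1) := by omega
  have hq : (0 : ℝ) < q := by exact_mod_cast (by omega : 0 < q)
  have h4 : (univ.filter fun y : ZMod q => ¬(1 : ℝ) / 10 ^ 6 ≤ fr ((y.val : ℝ) / q)).card ≤
      (Icc (-(n : ℤ)) n).card := by
    refine card_le_card_of_injOn (fun y => (y.val : ℤ) - q * round ((y.val : ℝ) / q))
      (fun y hy => ?_) fun y _ y' _ hy => ?_
    · have h5 := not_le.1 (mem_filter.1 hy).2
      have h6 : |(((y.val : ℤ) - q * round ((y.val : ℝ) / q) : ℤ) : ℝ)| < (n + 1 : ℤ) := by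
        have h7 : (q : ℝ) < 10 ^ 6 * (n + 1) := by exact_mod_cast h3
        have h8 : (((y.val : ℤ) - q * round ((y.val : ℝ) / q) : ℤ) : ℝ) =
            q * ((y.val : ℝ) / q - round ((y.val : ℝ) / q)) := by
          push_cast
          field_simp
        rw [h8, abs_mul, abs_of_pos hq]
        have h9 := mul_lt_mul_of_pos_left h5 hq
        push_cast
        unfold fr at h9
        linarith
      rw [← Int.cast_abs, Int.cast_lt, Int.lt_add_one_iff, abs_le] at h6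
      exact mem_coe.2 (mem_Icc.2 h6)
    · simpa using congrArg (Int.cast : ℤ → ZMod q) hy
  rw [Int.card_Icc] at h4
  omega

theorem rmc_bal {u : Fin h → ZMod q} (hu0 : u ≠ 0) (g : ZMod q → ℕ) :
    q * ∑ c : Fin h → ZMod q, g (∑ r, u r * c r) = q ^ h * ∑ y, g y := by
  obtain ⟨r0, hr⟩ := Function.ne_iff.1 hu0
  have h1 : ∀ y, ∑ c : Fin h → ZMod q, g (∑ r, u r * c r) =
      ∑ c : Fin h → ZMod q, g (∑ r, u r * c r + y) := fun y => by
    rw [← Equiv.sum_comp (Equiv.addRight (Pi.single r0 (y / u r0)))]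
    refine sum_congr rfl fun c _ => ?_
    simp only [Equiv.coe_addRight, Pi.add_apply, mul_add, sum_add_distrib, Pi.single_apply,
      mul_ite, mul_zero, sum_ite_eq', mem_univ, if_true]
    rw [mul_div_cancel₀ _ hr]
  calc _ = ∑ y : ZMod q, ∑ c : Fin h → ZMod q, g (∑ r, u r * c r + y) := by
        simp only [← h1, sum_const, card_univ, ZMod.card, smul_eq_mul]
    _ = _ := by
        rw [sum_comm]
        have h2 : ∀ x, ∑ y : ZMod q, g (x + y) = ∑ y, g y := fun x =>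
          Equiv.sum_comp (Equiv.addLeft x) g
        simp only [h2, sum_const, card_univ, Fintype.card_fun, ZMod.card, Fintype.card_fin,
          smul_eq_mul]

theorem rmc_one (hq6 : 10 ^ 6 ≤ q) {u : Fin h → ZMod q} (hu0 : u ≠ 0) :
    250 ^ k * (univ.filter fun H : Fin h → Fin k → ZMod q =>
      ¬k ≤ 2 * (univ.filter fun i => (1 : ℝ) / 10 ^ 6 ≤ fr (hu H u i)).card).card ≤
      q ^ (h * k) := by
  obtain ⟨g, hg⟩ : ∃ g : ZMod q → ℕ,
      g = fun y => if (1 : ℝ) / 10 ^ 6 ≤ fr ((y.val : ℝ) / q) then 1 else 1000 ^ 2 := ⟨_, rfl⟩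
  have h1 : ∑ y, g y ≤ 4 * q := by
    have h2 := rmc_small hq6
    have h3 := (card_le_univ (univ.filter fun y : ZMod q =>
      (1 : ℝ) / 10 ^ 6 ≤ fr ((y.val : ℝ) / q))).trans_eq (ZMod.card q)
    rw [hg, sum_ite, sum_const, sum_const, smul_eq_mul, smul_eq_mul]
    omega
  have h2 : ∑ c : Fin h → ZMod q, g (∑ r, u r * c r) ≤ 4 * q ^ h := by
    refine Nat.le_of_mul_le_mul_left ?_ (by omega : 0 < q)
    rw [rmc_bal hu0]
    exact (Nat.mul_le_mul_left _ h1).trans (le_of_eq (by ring))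
  have h3 : ∑ H : Fin h → Fin k → ZMod q, ∏ i, g (∑ r, u r * H r i) ≤ 4 ^ k * q ^ (h * k) := by
    rw [← Equiv.sum_comp (Equiv.piComm fun (_ : Fin k) (_ : Fin h) => ZMod q),
      ← Fintype.piFinset_univ]
    refine le_trans (le_of_eq (prod_univ_sum (fun _ : Fin k => (univ : Finset (Fin h → ZMod q)))
      fun _ c => g (∑ r, u r * c r)).symm) ?_
    rw [prod_const, card_univ, Fintype.card_fin, pow_mul, ← mul_pow]
    exact Nat.pow_le_pow_left h2 k
  refine Nat.le_of_mul_le_mul_left (le_trans ?_ h3) (by positivity : 0 < 4 ^ k)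
  rw [← mul_assoc, ← mul_pow, mul_comm, ← smul_eq_mul]
  refine (card_nsmul_le_sum _ _ _ fun H hH => ?_).trans (sum_le_sum_of_subset (subset_univ _))
  have h4 := (mem_filter.1 hH).2
  have h5 := card_filter_add_card_filter_not (s := univ)
    fun i => (1 : ℝ) / 10 ^ 6 ≤ fr (hu H u i)
  rw [card_univ, Fintype.card_fin] at h5
  rw [hg, prod_ite, prod_const_one, prod_const, one_mul, ← pow_mul]
  refine Nat.pow_le_pow_right (by norm_num) ?_
  unfold hu at h4 h5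
  omega

/-- most parity-check matrices are good -/
theorem card_not_goodH (hq : q ^ h ≤ 64 ^ k) (hq6 : 10 ^ 6 ≤ q) (hk : 3 ≤ k) :
    8 * (univ.filter fun H : Fin h → Fin k → ZMod q => ¬GoodH H).card ≤ q ^ (h * k) := by
  have h1 : (univ.filter fun H : Fin h → Fin k → ZMod q => ¬GoodH H) ⊆
      (univ.filter fun u : Fin h → ZMod q => u ≠ 0).biUnion fun u => univ.filter fun H =>
        ¬k ≤ 2 * (univ.filter fun i => (1 : ℝ) / 10 ^ 6 ≤ fr (hu H u i)).card := fun H hH => by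
    obtain ⟨u, h2⟩ := not_forall.1 (mem_filter.1 hH).2
    obtain ⟨h3, h4⟩ := Classical.not_imp.1 h2
    exact mem_biUnion.2 ⟨u, mem_filter.2 ⟨mem_univ _, h3⟩, mem_filter.2 ⟨mem_univ _, h4⟩⟩
  have h2 := Nat.mul_le_mul_left (250 ^ k) ((card_le_card h1).trans card_biUnion_le)
  rw [mul_sum] at h2
  have h3 := h2.trans (sum_le_card_nsmul _ _ _ fun u hu0 => rmc_one hq6 (mem_filter.1 hu0).2)
  have h4 : (univ.filter fun u : Fin h → ZMod q => u ≠ 0).card ≤ 64 ^ k :=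
    (card_le_univ _).trans (by simpa using hq)
  have h5 : 8 * 64 ^ k ≤ 250 ^ k := by
    obtain ⟨j, rfl⟩ := Nat.exists_eq_add_of_le hk
    have := Nat.pow_le_pow_left (show 64 ≤ 250 by norm_num) j
    rw [pow_add, pow_add]
    omega
  refine Nat.le_of_mul_le_mul_left ?_ (by positivity : 0 < 250 ^ k)
  rw [mul_left_comm]
  refine (Nat.mul_le_mul_left 8 (h3.trans (Nat.mul_le_mul_right _ h4))).trans ?_
  rw [← mul_assoc]
  exact Nat.mul_le_mul_right _ h5

theorem LH_add_zc {H : Fin h → Fin k → ZMod q} {t : Fin k → ℝ} (ht : t ∈ LH H) (n : Fin k → ℤ) :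
    t + zc n ∈ LH H := by
  obtain ⟨u, n', rfl⟩ := ht
  exact ⟨u, n' + n, by rw [zc_add, add_assoc]⟩

theorem LH_min {H : Fin h → Fin k → ZMod q} (hH : GoodH H) (hk : 2 * 10 ^ 12 ≤ k)
    {t : Fin k → ℝ} (ht : t ∈ LH H) (h0 : t ≠ 0) : 1 ≤ nsq t := by
  obtain ⟨u, n, rfl⟩ := ht
  by_cases hu0 : u = 0
  · have h1 : hu H u = 0 := by
      funext i
      simp [hu, hu0]
    rw [h1, zero_add] at h0 ⊢
    obtain ⟨i, hi⟩ := Function.ne_iff.1 h0
    refine le_trans ?_ (sq_le_nsq _ i)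
    have h2 : n i ≠ 0 := fun h2 => hi (by simp [zc, h2])
    have h3 : 0 < n i ^ 2 := by positivity
    unfold zc
    exact_mod_cast Int.add_one_le_of_lt h3
  · have h1 : ((2 * 10 ^ 12 : ℕ) : ℝ) ≤ (2 * _ : ℕ) := Nat.cast_le.2 (hk.trans (hH u hu0))
    have h2 := card_nsmul_le_sum (univ.filter fun i => (1 : ℝ) / 10 ^ 6 ≤ fr (hu H u i))
      (fun i => (hu H u + zc n) i ^ 2) ((1 / 10 ^ 6) ^ 2) fun i hi => by
        rw [← sq_abs ((hu H u + zc n) i)]
        exact pow_le_pow_left₀ (by positivity) (((mem_filter.1 hi).2.trans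
          (fr_add_int _ (n i)).ge).trans (fr_le_abs _)) 2
    have h3 := nsqOn_le (univ.filter fun i => (1 : ℝ) / 10 ^ 6 ≤ fr (hu H u i)) (hu H u + zc n)
    unfold nsqOn at h3
    rw [nsmul_eq_mul] at h2
    push_cast at h1
    linarith

theorem LH_subset {ι : Type} {H : Fin h → Fin k → ZMod q} (A : ι → Fin k → ℤ)
    (hA : ∀ l, InK H (A l)) : LH H ⊆ LatOf A := by
  rintro _ ⟨u, n, rfl⟩
  have hq : (q : ℝ) ≠ 0 := Nat.cast_ne_zero.2 (Fact.out : q.Prime).ne_zero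
  have h1 : ∀ l, ∃ z : ℤ, ∑ i, A l i * ((∑ r, u r * H r i).val : ℤ) = q * z := fun l => by
    refine (ZMod.intCast_zmod_eq_zero_iff_dvd _ q).1 ?_
    push_cast
    simp only [ZMod.natCast_val, ZMod.cast_id', id_eq, mul_sum]
    rw [sum_comm]
    refine sum_eq_zero fun r _ => ?_
    rw [← mul_zero (u r), ← hA l r, mul_sum]
    exact sum_congr rfl fun i _ => by ring
  choose z hz using h1
  refine ⟨z + fun l => ∑ i, A l i * n i, ?_⟩
  rw [mv_add, mv_zc, zc_add, add_left_inj]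
  funext l
  have h2 := congrArg (Int.cast : ℤ → ℝ) (hz l)
  push_cast at h2
  simp only [mv, hu, zc, ← mul_div_assoc, ← sum_div]
  rw [div_eq_iff hq, mul_comm, ← h2]

theorem inK_of_dual {H : Fin h → Fin k → ZMod q} {v : Fin k → ℤ} (hv : Dual (LH H) v) :
    InK H v := fun r => by
  have hq : (q : ℝ) ≠ 0 := Nat.cast_ne_zero.2 (Fact.out : q.Prime).ne_zero
  obtain ⟨n, hn⟩ := hv (hu H (Pi.single r 1)) ⟨Pi.single r 1, 0, by rw [zc_zero, add_zero]⟩
  simp only [ip, zc, hu, Pi.single_apply, ite_mul, one_mul, zero_mul, sum_ite_eq', mem_univ,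
    if_true, ← mul_div_assoc, ← sum_div] at hn
  rw [div_eq_iff hq] at hn
  have h1 : ∑ i, v i * ((H r i).val : ℤ) = n * q := by exact_mod_cast hn
  have h2 := congrArg (Int.cast : ℤ → ZMod q) h1
  push_cast at h2
  simpa [mul_comm] using h2

variable {σ : Type} [Fintype σ]

theorem rmc_mtv_smul {κ : Type} (β : σ → κ → ℤ) (s : ℝ) (z : σ → ℝ) :
    mtv β (s • z) = s • mtv β z := by
  rw [mtv_eq_mv, mtv_eq_mv, mv_smul]

theorem rmc_mtv_add {κ : Type} (β : σ → κ → ℤ) (y z : σ → ℝ) :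
    mtv β (y + z) = mtv β y + mtv β z := by
  rw [mtv_eq_mv, mtv_eq_mv, mtv_eq_mv, mv_add]

theorem rmc_mtv_sub {κ : Type} (β : σ → κ → ℤ) (y z : σ → ℝ) :
    mtv β (y - z) = mtv β y - mtv β z := by
  rw [mtv_eq_mv, mtv_eq_mv, mtv_eq_mv, mv_sub]

theorem rmc_abs_mtv {κ : Type} {β : σ → κ → ℤ} {m : ℕ} (hβ : ∀ l i, |β l i| ≤ m) (z : σ → ℝ)
    (i : κ) : |mtv β z i| ≤ m * l1 z := by
  rw [l1, mul_sum]
  refine (abs_sum_le_sum_abs _ _).trans (sum_le_sum fun l _ => ?_)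
  rw [abs_mul]
  exact mul_le_mul_of_nonneg_right (by exact_mod_cast hβ l i) (abs_nonneg _)

theorem P0.low {β : σ → Fin k → ℤ} (h : P0 β) (z : σ → ℝ) : k * nsq z ≤ 4 * nsq (mtv β z) := by
  rcases (nsq_nonneg z).eq_or_lt with h0 | h0
  · rw [← h0, mul_zero]
    linarith [nsq_nonneg (mtv β z)]
  obtain ⟨s, hs⟩ : ∃ s : ℝ, s ^ 2 * nsq z = 1 / 100 :=
    ⟨√(1 / 100 / nsq z), by rw [Real.sq_sqrt (by positivity), div_mul_cancel₀ _ h0.ne']⟩
  have h1 : ∀ l, fr ((s • z) l) ^ 2 = (s • z) l ^ 2 := fun l => by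
    have h2 := sq_le_nsq (s • z) l
    rw [nsq_smul, hs] at h2
    rw [fr_eq_abs (abs_le_of_sq_le_sq (by linarith) (by norm_num)), sq_abs]
  have h2 := h (s • z) (by
    simp only [h1]
    exact ((nsq_smul s z).trans hs).ge)
  have h3 : (k : ℝ) / 20 ≤ 20 * (s ^ 2 * nsq (mtv β z)) := by
    rw [← nsq_smul, ← rmc_mtv_smul, nsq, mul_sum]
    exact h2.trans (sum_le_sum fun i _ => one_sub_cos_le _)
  have h4 := mul_le_mul_of_nonneg_right h3 h0.le
  have h5 : 20 * (s ^ 2 * nsq (mtv β z)) * nsq z = 20 * (1 / 100) * nsq (mtv β z) := by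
    rw [← hs]
    ring
  linarith

theorem rmc_mult {β : σ → Fin k → ℤ} (h : P0 β) {Q : ℝ} (hQ : 0 < Q) {w : Fin k → ℤ} {θ : σ → ℝ}
    {e : Fin k → ℝ} (hw : zc w = mtv β θ + Q⁻¹ • e) (he : nsq e < k / 2) (j : ℕ)
    (hj : 20 * j ≤ Q) : ∑ l, fr (j * θ l) ^ 2 < 1 / 100 := by
  by_contra h1
  have h2 := h ((j : ℝ) • θ) (not_lt.1 h1)
  have h3 : (k : ℝ) / 20 ≤ 20 * ((j / Q) ^ 2 * nsq e) := by
    rw [← nsq_smul, nsq, mul_sum]
    refine h2.trans (sum_le_sum fun i _ => le_trans (le_of_eq ?_) (one_sub_cos_le _))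
    have h4 := congrFun hw i
    simp only [zc, Pi.add_apply, Pi.smul_apply, smul_eq_mul] at h4
    rw [rmc_mtv_smul, ← Real.cos_neg (2 * Real.pi * _), ← Real.cos_add_int_mul_two_pi _ (j * w i)]
    congr 2
    push_cast
    simp only [Pi.smul_apply, smul_eq_mul, h4]
    ring
  have h4 : ((j : ℝ) / Q) ^ 2 ≤ (1 / 20) ^ 2 :=
    pow_le_pow_left₀ (by positivity) (by rw [div_le_iff₀ hQ]; linarith) 2
  have h5 := mul_le_mul_of_nonneg_right h4 (nsq_nonneg e)
  linarith [nsq_nonneg e]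

theorem rmc_tiny {Q : ℝ} (hQ : 40 ≤ Q) {θ : σ → ℝ}
    (h : ∀ j : ℕ, 20 * j ≤ Q → ∑ l, fr (j * θ l) ^ 2 < 1 / 100) :
    nsq (θ - zc fun l => round (θ l)) ≤ (4 / Q) ^ 2 := by
  obtain ⟨y, hy⟩ : ∃ y, y = θ - zc fun l => round (θ l) := ⟨_, rfl⟩
  rw [← hy]
  by_contra h0
  obtain ⟨d, hd⟩ : ∃ d, d = √(nsq y) := ⟨_, rfl⟩
  have hd2 : d ^ 2 = nsq y := hd ▸ Real.sq_sqrt (nsq_nonneg y)
  have hQ0 : 0 < Q := by linarith
  have h1 : 4 / Q < d := hd ▸ Real.lt_sqrt_of_sq_lt (not_le.1 h0)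
  have hd0 : 0 < d := lt_trans (by positivity) h1
  have h2 : d < 1 / 10 := by
    have := h 1 (by push_cast; linarith)
    simp only [Nat.cast_one, one_mul, fr, sq_abs] at this
    refine lt_of_pow_lt_pow_left₀ 2 (by norm_num) ?_
    rw [hd2, hy]
    exact this.trans_le (by norm_num)
  obtain ⟨j, hj⟩ : ∃ j, j = ⌈1 / (10 * d)⌉₊ := ⟨_, rfl⟩
  have h3 : 1 / 10 ≤ j * d := by
    have := Nat.le_ceil (1 / (10 * d))
    rw [← hj, div_le_iff₀ (by positivity)] at this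
    linarith
  have h4 : j * d < 1 / 10 + d := by
    have := mul_lt_mul_of_pos_right (Nat.ceil_lt_add_one (show 0 ≤ 1 / (10 * d) by positivity)) hd0
    rwa [← hj, add_mul, one_mul, show 1 / (10 * d) * d = 1 / 10 by field_simp] at this
  have h5 : 20 * (j : ℝ) ≤ Q := by
    rw [div_lt_iff₀ hQ0] at h1
    refine le_of_mul_le_mul_right ?_ hd0
    linarith
  refine absurd (h j h5) (not_lt.2 ?_)
  have h6 : ∀ l, fr (j * θ l) ^ 2 = j ^ 2 * y l ^ 2 := fun l => by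
    have h7 : |y l| ≤ d := abs_le_of_sq_le_sq (hd2 ▸ sq_le_nsq y l) hd0.le
    have h8 : (j : ℝ) * θ l = j * y l + (j * round (θ l) : ℤ) := by
      simp only [hy, Pi.sub_apply, zc]
      push_cast
      ring
    rw [h8, fr_add_int, fr_eq_abs, sq_abs, mul_pow]
    rw [abs_mul, Nat.abs_cast]
    linarith [mul_le_mul_of_nonneg_left h7 (Nat.cast_nonneg j)]
  simp only [h6, ← mul_sum]
  refine le_trans ?_ ((pow_le_pow_left₀ (by norm_num) h3 2).trans_eq ?_)
  · norm_num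
  · rw [mul_pow, hd2, nsq]

/-- a vector of the reduction lattice close to the real span lies in the integer span -/
theorem P0.prim {β : σ → Fin k → ℤ} (h : P0 β) {m Q : ℕ} (hβ : ∀ l i, |β l i| ≤ m) (hm : 0 < m)
    (hσ : Fintype.card σ ≤ k) (hQ : 5 * m * k < Q) (hQ40 : 40 ≤ Q) (v w : Fin k → ℤ) (z : σ → ℤ)
    (hv : zc v = mtv β (zc z) + (Q : ℝ) • zc w) (cc : σ → ℝ)
    (hc : nsq (zc v - mtv β cc) < k / 2) : ∃ z' : σ → ℤ, zc v = mtv β (zc z') := by
  have hQ1 : (40 : ℝ) ≤ Q := by exact_mod_cast hQ40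
  have hQ0 : (0 : ℝ) < Q := by linarith
  obtain ⟨e, he⟩ : ∃ e, e = zc v - mtv β cc := ⟨_, rfl⟩
  obtain ⟨θ, hθ⟩ : ∃ θ, θ = (Q : ℝ)⁻¹ • (cc - zc z) := ⟨_, rfl⟩
  have hw : zc w = mtv β θ + (Q : ℝ)⁻¹ • e := by
    rw [hθ, he, hv, rmc_mtv_smul, rmc_mtv_sub, ← smul_add, eq_inv_smul_iff₀ hQ0.ne']
    abel
  rw [← he] at hc
  have h1 := rmc_tiny hQ1 (rmc_mult h hQ0 hw hc)
  obtain ⟨n, hn⟩ : ∃ n : σ → ℤ, n = fun l => round (θ l) := ⟨_, rfl⟩
  rw [← hn] at h1
  have hk : (1 : ℝ) ≤ k := by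
    have : (0 : ℝ) < k := by linarith [nsq_nonneg e]
    exact_mod_cast this
  have hk2 : (k : ℝ) ≤ k ^ 2 := le_self_pow₀ hk two_ne_zero
  have h2 : l1 (θ - zc n) ≤ k * (4 / Q) := by
    refine le_of_pow_le_pow_left₀ two_ne_zero (by positivity) ((l1_sq_le _).trans ?_)
    rw [mul_pow]
    exact mul_le_mul ((Nat.cast_le.2 hσ).trans hk2) h1 (nsq_nonneg _) (by positivity)
  have h3 : zc w = mtv β (zc n) := by
    rw [mtv_eq_mv, mv_zc]
    funext i
    have h4 := congrFun hw i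
    have h5 := rmc_abs_mtv hβ (θ - zc n) i
    rw [rmc_mtv_sub, Pi.sub_apply, mtv_eq_mv _ (zc n), mv_zc] at h5
    have h6 : |e i| ≤ k := abs_le_of_sq_le_sq (by linarith [sq_le_nsq e i]) (by linarith)
    have h7 : (5 * m * k : ℝ) < Q := by exact_mod_cast hQ
    have h8 : (1 : ℝ) ≤ m := by exact_mod_cast hm
    have h9 : m * (k * (4 / Q)) + (Q : ℝ)⁻¹ * k < 1 := by
      refine lt_of_mul_lt_mul_left ?_ hQ0.le
      rw [show Q * (m * (k * (4 / Q)) + (Q : ℝ)⁻¹ * k) = 4 * m * k + k by field_simp]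
      linarith [mul_le_mul_of_nonneg_right h8 (zero_le_one.trans hk)]
    have h10 : |(Q : ℝ)⁻¹ * e i| ≤ (Q : ℝ)⁻¹ * k := by
      rw [abs_mul, abs_of_pos (inv_pos.2 hQ0)]
      exact mul_le_mul_of_nonneg_left h6 (by positivity)
    have h11 := h5.trans (mul_le_mul_of_nonneg_left h2 (Nat.cast_nonneg m))
    simp only [zc, Pi.add_apply, Pi.smul_apply, smul_eq_mul] at h4 h11 ⊢
    rw [Int.cast_inj, ← sub_eq_zero, ← Int.abs_lt_one_iff, ← Int.cast_lt (R := ℝ), Int.cast_abs,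
      Int.cast_sub, h4, Int.cast_one, add_sub_right_comm]
    linarith [abs_add_le (mtv β θ i - ((∑ l, β l i * n l : ℤ) : ℝ)) ((Q : ℝ)⁻¹ * e i)]
  refine ⟨z + (Q : ℤ) • n, ?_⟩
  rw [hv, h3, zc_add, rmc_mtv_add, ← rmc_mtv_smul]
  congr 2
  funext l
  simp [zc]

theorem rmc_geo (R : ℕ) : ∑ j ∈ Icc (-(R : ℤ)) R, (1 / 2 : ℝ) ^ j.natAbs = 3 - 2 * (1 / 2) ^ R := by
  induction R with
  | zero => norm_num
  | succ R ih =>
    have h1 : Icc (-((R + 1 : ℕ) : ℤ)) (R + 1 : ℕ) =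
        insert (-((R + 1 : ℕ) : ℤ)) (insert ((R + 1 : ℕ) : ℤ) (Icc (-(R : ℤ)) R)) := by
      ext j
      simp only [mem_Icc, mem_insert]
      omega
    rw [h1, sum_insert (by simp only [mem_Icc, mem_insert]; omega),
      sum_insert (by simp only [mem_Icc]; omega), ih, Int.natAbs_neg, Int.natAbs_natCast]
    ring

theorem rmc_ball (k : ℕ) :
    ((zbox (Fin k) (2 * k)).filter fun n => 2 * ∑ i, (n i).natAbs ≤ 3 * k).card ≤ 9 ^ k := by
  have h1 := card_nsmul_le_sum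
    ((zbox (Fin k) (2 * k)).filter fun n => 2 * ∑ i, (n i).natAbs ≤ 3 * k)
    (fun n => ∏ i, (1 / 2 : ℝ) ^ (n i).natAbs) ((1 / 3) ^ k) fun n hn => by
      have h2 := (mem_filter.1 hn).2
      have h3 : (2 ^ ∑ i, (n i).natAbs) ^ 2 ≤ (3 ^ k) ^ 2 := by
        rw [← pow_mul, ← pow_mul, mul_comm _ 2, mul_comm _ 2, pow_mul 3]
        exact (Nat.pow_le_pow_right two_pos h2).trans
          (by rw [pow_mul]; exact Nat.pow_le_pow_left (by norm_num) k)
      rw [prod_pow_eq_pow_sum, one_div_pow, one_div_pow]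
      exact one_div_le_one_div_of_le (by positivity)
        (by exact_mod_cast le_of_pow_le_pow_left₀ two_ne_zero (Nat.zero_le _) h3)
  have h2 := h1.trans (sum_le_sum_of_subset_of_nonneg (filter_subset _ _) fun _ _ _ => by positivity)
  rw [zbox, ← prod_univ_sum (fun _ : Fin k => Icc (-((2 * k : ℕ) : ℤ)) (2 * k : ℕ))
    fun _ j => (1 / 2 : ℝ) ^ j.natAbs, rmc_geo, prod_const, card_univ, Fintype.card_fin,
    nsmul_eq_mul, one_div_pow 3, mul_one_div, div_le_iff₀ (by positivity)] at h2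
  have h3 : (3 - 2 * (1 / 2 : ℝ) ^ (2 * k)) ^ k ≤ 3 ^ k := by
    have := pow_le_one₀ (n := 2 * k) (show (0 : ℝ) ≤ 1 / 2 by norm_num) (by norm_num)
    exact pow_le_pow_left₀ (by linarith) (by linarith [pow_pos (show (0 : ℝ) < 1 / 2 by norm_num) (2 * k)]) k
  have h4 := h2.trans (mul_le_mul_of_nonneg_right h3 (by positivity))
  rw [← mul_pow, show (3 : ℝ) * 3 = (9 : ℕ) by norm_num] at h4
  exact_mod_cast h4

theorem rmc_grid {β : σ → Fin k → ℤ} {m : ℕ} (hβ : ∀ l i, |β l i| ≤ m) (cc : σ → ℝ) (i : Fin k) :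
    |mtv β cc i - mtv β (fun l => (round (cc l * (4 * m * Fintype.card σ : ℕ)) : ℝ) /
      (4 * m * Fintype.card σ : ℕ)) i| ≤ 1 / 8 := by
  rw [← Pi.sub_apply, ← rmc_mtv_sub]
  refine (rmc_abs_mtv hβ _ i).trans ?_
  rcases Nat.eq_zero_or_pos m with rfl | hm
  · norm_num
  have h1 := sum_le_card_nsmul univ (fun l => |(cc - fun l =>
      (round (cc l * (4 * m * Fintype.card σ : ℕ)) : ℝ) / (4 * m * Fintype.card σ : ℕ)) l|)
      (1 / (8 * m * Fintype.card σ)) fun l _ => by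
    have h2 : 0 < Fintype.card σ := Fintype.card_pos_iff.2 ⟨l⟩
    have h3 : (0 : ℝ) < (4 * m * Fintype.card σ : ℕ) := by positivity
    have h4 := abs_sub_round (cc l * (4 * m * Fintype.card σ : ℕ))
    rw [Pi.sub_apply, sub_div' h3.ne', abs_div, abs_of_pos h3, div_le_iff₀ h3]
    refine h4.trans (le_of_eq ?_)
    push_cast
    field_simp
    norm_num
  refine (mul_le_mul_of_nonneg_left h1 (Nat.cast_nonneg m)).trans ?_
  rw [nsmul_eq_mul, card_univ]
  rcases Nat.eq_zero_or_pos (Fintype.card σ) with h2 | h2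
  · simp [h2]
  · exact le_of_eq (by field_simp)

/-- few integer points are close to a parallelepiped -/
theorem exists_near_set [DecidableEq σ] (β : σ → Fin k → ℤ) {m : ℕ} (hβ : ∀ l i, |β l i| ≤ m) :
    ∃ 𝒱 : Finset (Fin k → ℤ),
      𝒱.card ≤ (4 * m * Fintype.card σ + 1) ^ Fintype.card σ * 9 ^ k ∧
      ∀ (v : Fin k → ℤ) (cc : σ → ℝ), (∀ l, |cc l| ≤ 1 / 2) →
        nsq (zc v - mtv β cc) < k / 2 → v ∈ 𝒱 := by
  refine ⟨((zbox σ (2 * m * Fintype.card σ)) ×ˢ ((zbox (Fin k) (2 * k)).filter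
    fun n => 2 * ∑ i, (n i).natAbs ≤ 3 * k)).image fun p i =>
      round (mtv β (fun l => (p.1 l : ℝ) / (4 * m * Fintype.card σ : ℕ)) i) + p.2 i,
    card_image_le.trans ?_, fun v cc h1 h2 => ?_⟩
  · rw [card_product]
    refine Nat.mul_le_mul (le_of_eq ?_) (rmc_ball k)
    rw [zbox, Fintype.card_piFinset, prod_const, card_univ, Int.card_Icc, mul_assoc, mul_assoc]
    congr 1
    omega
  obtain ⟨x, hx⟩ : ∃ x, x = mtv β fun l => (round (cc l * (4 * m * Fintype.card σ : ℕ)) : ℝ) /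
      (4 * m * Fintype.card σ : ℕ) := ⟨_, rfl⟩
  have h3 : l1 (zc v - mtv β cc) ≤ 3 / 4 * k := by
    refine le_of_pow_le_pow_left₀ two_ne_zero (by positivity) ((l1_sq_le _).trans ?_)
    rw [Fintype.card_fin]
    linarith [mul_le_mul_of_nonneg_left h2.le (Nat.cast_nonneg k), sq_nonneg (k : ℝ)]
  have h4 : ∑ i, (((v i - round (x i)).natAbs : ℕ) : ℝ) ≤ l1 (zc v - mtv β cc) + 5 / 8 * k := by
    have h5 : ∀ i, (((v i - round (x i)).natAbs : ℕ) : ℝ) ≤ |(zc v - mtv β cc) i| + 5 / 8 :=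
      fun i => by
        have h6 := rmc_grid hβ cc i
        rw [← hx] at h6
        rw [Nat.cast_natAbs, Int.cast_abs, Int.cast_sub, Pi.sub_apply, zc]
        linarith [abs_sub_round (x i), abs_sub_le (v i : ℝ) (mtv β cc i) (round (x i)),
          abs_sub_le (mtv β cc i) (x i) (round (x i))]
    refine (sum_le_sum fun i _ => h5 i).trans (le_of_eq ?_)
    rw [sum_add_distrib, sum_const, card_univ, Fintype.card_fin, nsmul_eq_mul, mul_comm, l1]
  have h5 : 2 * ∑ i, (v i - round (x i)).natAbs ≤ 3 * k := by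
    rw [← Nat.cast_le (α := ℝ)]
    rw [Nat.cast_mul, Nat.cast_mul, Nat.cast_sum, Nat.cast_ofNat, Nat.cast_ofNat]
    linarith [Nat.cast_nonneg (α := ℝ) k]
  refine mem_image.2 ⟨⟨fun l => round (cc l * (4 * m * Fintype.card σ : ℕ)),
    fun i => v i - round (x i)⟩, mem_product.2 ⟨?_, mem_filter.2 ⟨?_, h5⟩⟩, ?_⟩
  · refine Fintype.mem_piFinset.2 fun l => mem_Icc.2 (abs_le.1 ?_)
    have h6 := abs_sub_round (cc l * (4 * m * Fintype.card σ : ℕ))
    have h7 : |cc l * (4 * m * Fintype.card σ : ℕ)| ≤ (2 * m * Fintype.card σ : ℕ) := by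
      rw [abs_mul, Nat.abs_cast]
      refine (mul_le_mul_of_nonneg_right (h1 l) (Nat.cast_nonneg _)).trans (le_of_eq ?_)
      push_cast
      ring
    rw [← Int.lt_add_one_iff, ← Int.cast_lt (R := ℝ), Int.cast_abs, Int.cast_add, Int.cast_natCast,
      Int.cast_one]
    linarith [abs_sub_abs_le_abs_sub (round (cc l * (4 * m * Fintype.card σ : ℕ)) : ℝ)
      (cc l * (4 * m * Fintype.card σ : ℕ)), abs_sub_comm (round (cc l *
        (4 * m * Fintype.card σ : ℕ)) : ℝ) (cc l * (4 * m * Fintype.card σ : ℕ))]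
  · refine Fintype.mem_piFinset.2 fun i => mem_Icc.2 ?_
    have h6 := single_le_sum (f := fun i => (v i - round (x i)).natAbs)
      (fun _ _ => Nat.zero_le _) (mem_univ i)
    dsimp only at h6 ⊢
    omega
  · funext i
    simp only [← hx, add_sub_cancel]

end Vale.Agent.P318
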