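import Vale.Agent.P318.Cube

open Finset MeasureTheory

noncomputable section

namespace Vale.Agent.P318

section aux
variable {κ : Type} [Fintype κ]

theorem torus_cont_ip (v : κ → ℝ) : Continuous fun τ : κ → ℝ => ip v τ := by
  unfold ip; fun_prop

theorem torus_ip_int (v n : κ → ℤ) : ip (zc v) (zc n) = ((∑ i, v i * n i : ℤ) : ℝ) := by
  simp [ip, zc]

/-- descent of a periodic function to the torus -/
theorem torus_lift (G : (κ → ℝ) → ℝ) (hG : Continuous G)
    (hper : ∀ τ (n : κ → ℤ), G (τ + zc n) = G τ) :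
    ∃ F : C(UnitAddTorus κ, ℂ), ∀ x : κ → ℝ, F (fun i => (x i : UnitAddCircle)) = G x := by
  have hq : IsOpenQuotientMap (Pi.map fun (_ : κ) (s : ℝ) => (s : UnitAddCircle)) :=
    IsOpenQuotientMap.piMap fun _ => QuotientAddGroup.isOpenQuotientMap_mk
  set π : (κ → ℝ) → UnitAddTorus κ := Pi.map fun (_ : κ) (s : ℝ) => (s : UnitAddCircle)
  have key : ∀ x, G (Function.surjInv hq.surjective (π x)) = G x := fun x => by
    have h1 := Function.surjInv_eq hq.surjective (π x)
    set y := Function.surjInv hq.surjective (π x)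
    have h2 : ∀ i, ∃ n : ℤ, y i = x i + n := fun i => by
      have h3 : (y i : UnitAddCircle) = (x i : UnitAddCircle) := congrFun h1 i
      obtain ⟨n, hn⟩ := AddSubgroup.mem_zmultiples_iff.1 (QuotientAddGroup.eq.1 h3.symm)
      refine ⟨n, ?_⟩
      simp only [zsmul_eq_mul, mul_one] at hn
      linarith
    choose n hn using h2
    have : y = x + zc n := funext fun i => hn i
    rw [this, hper]
  refine ⟨⟨fun y => (G (Function.surjInv hq.surjective y) : ℂ), ?_⟩, fun x => ?_⟩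
  · rw [hq.isQuotientMap.continuous_iff]
    have : (fun y => (G (Function.surjInv hq.surjective y) : ℂ)) ∘ π = fun x => (G x : ℂ) :=
      funext fun x => by simp only [Function.comp, key]
    rw [this]
    fun_prop
  · exact congrArg (fun r : ℝ => (r : ℂ)) (key x)

theorem torus_set_eq {E : Type} [NormedAddCommGroup E] [NormedSpace ℝ E] (f : (κ → ℝ) → E) :
    ∫ x in {x : κ → ℝ | ∀ i, x i ∈ Set.Ioc ((0 : κ → ℝ) i) ((0 : κ → ℝ) i + 1)}, f x =
      ∫ x in cube κ, f x := by
  refine setIntegral_congr_set ?_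
  have := Measure.univ_pi_Ioc_ae_eq_Icc (μ := fun _ : κ => (volume : Measure ℝ))
    (f := (0 : κ → ℝ)) (g := (1 : κ → ℝ))
  have e : {x : κ → ℝ | ∀ i, x i ∈ Set.Ioc ((0 : κ → ℝ) i) ((0 : κ → ℝ) i + 1)} =
      Set.univ.pi fun i => Set.Ioc ((0 : κ → ℝ) i) ((1 : κ → ℝ) i) := by
    ext x; simp
  rw [e]
  exact this

/-- Parseval on the cube -/
theorem torus_parseval (G : (κ → ℝ) → ℝ) (hG : Continuous G)
    (hper : ∀ τ (n : κ → ℤ), G (τ + zc n) = G τ) :
    HasSum (fun v : κ → ℤ => (∫ τ in cube κ, G τ * Real.cos (2 * Real.pi * ip (zc v) τ)) ^ 2 +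
      (∫ τ in cube κ, G τ * Real.sin (2 * Real.pi * ip (zc v) τ)) ^ 2)
      (∫ τ in cube κ, G τ ^ 2) := by
  obtain ⟨F, hF⟩ := torus_lift G hG hper
  let : MeasureSpace UnitAddCircle := ⟨AddCircle.haarAddCircle⟩
  have : IsProbabilityMeasure (volume : Measure UnitAddCircle) :=
    inferInstanceAs (IsProbabilityMeasure AddCircle.haarAddCircle)
  have h := UnitAddTorus.hasSum_sq_mFourierCoeff (ContinuousMap.toLp 2 volume ℂ F)
  simp only [UnitAddTorus.mFourierCoeff_toLp] at h
  rw [integral_congr_ae ((ContinuousMap.coeFn_toLp (p := 2) (𝕜 := ℂ) _ F).mono fun x hx => by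
    show _ = ‖F x‖ ^ 2
    rw [hx]), UnitAddTorus.integral_preimage _ 0, torus_set_eq] at h
  simp only [hF, Complex.norm_real, Real.norm_eq_abs, sq_abs] at h
  refine h.congr_fun fun v => ?_
  rw [UnitAddTorus.mFourierCoeff_eq_integral _ _ 0, torus_set_eq]
  have hc := torus_cont_ip (zc v)
  have e : ∀ x : κ → ℝ, UnitAddTorus.mFourier (-v) (fun i => (x i : UnitAddCircle)) •
      F (fun i => (x i : UnitAddCircle)) =
      ((G x * Real.cos (2 * Real.pi * ip (zc v) x) : ℝ) : ℂ) -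
        ((G x * Real.sin (2 * Real.pi * ip (zc v) x) : ℝ) : ℂ) * Complex.I := fun x => by
    have e1 : UnitAddTorus.mFourier (-v) (fun i => (x i : UnitAddCircle)) =
        Complex.exp ((-(2 * Real.pi * ip (zc v) x) : ℝ) * Complex.I) := by
      simp only [UnitAddTorus.mFourier, ContinuousMap.coe_mk, fourier_coe_apply,
        ← Complex.exp_sum]
      congr 1
      simp only [ip, zc, Pi.neg_apply]
      push_cast
      rw [mul_sum, ← sum_neg_distrib, sum_mul]
      exact sum_congr rfl fun i _ => by ring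
    rw [e1, hF, Complex.exp_mul_I, ← Complex.ofReal_cos, ← Complex.ofReal_sin, Real.cos_neg,
      Real.sin_neg, smul_eq_mul]
    push_cast
    ring
  simp only [e]
  rw [integral_sub (integrableOn_cube (by fun_prop)) (integrableOn_cube (by fun_prop)),
    integral_mul_const, integral_complex_ofReal, integral_complex_ofReal, Complex.sq_norm,
    Complex.normSq_apply]
  simp only [Complex.sub_re, Complex.sub_im, Complex.mul_re, Complex.mul_im, Complex.ofReal_re,
    Complex.ofReal_im, Complex.I_re, Complex.I_im]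
  ring

/-- the coefficients of a difference -/
theorem torus_rot (G : (κ → ℝ) → ℝ) (hG : Continuous G)
    (hper : ∀ τ (n : κ → ℤ), G (τ + zc n) = G τ) (w : κ → ℝ) (v : κ → ℤ) :
    (∫ τ in cube κ, (G (τ + w) - G τ) * Real.cos (2 * Real.pi * ip (zc v) τ)) ^ 2 +
      (∫ τ in cube κ, (G (τ + w) - G τ) * Real.sin (2 * Real.pi * ip (zc v) τ)) ^ 2 =
    ((∫ τ in cube κ, G τ * Real.cos (2 * Real.pi * ip (zc v) τ)) ^ 2 +
      (∫ τ in cube κ, G τ * Real.sin (2 * Real.pi * ip (zc v) τ)) ^ 2) *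
      (2 - 2 * Real.cos (2 * Real.pi * ip (zc v) w)) := by
  have hc := torus_cont_ip (zc v)
  set a := 2 * Real.pi * ip (zc v) w with ha
  have hp : ∀ τ (n : κ → ℤ), 2 * Real.pi * ip (zc v) (τ + zc n) - a =
      2 * Real.pi * ip (zc v) τ - a + (∑ i, v i * n i : ℤ) * (2 * Real.pi) := fun τ n => by
    rw [ip_add_right, torus_ip_int]; ring
  have hw : ∀ τ, 2 * Real.pi * ip (zc v) (τ + w) - a = 2 * Real.pi * ip (zc v) τ := fun τ => by
    rw [ip_add_right]; ring
  have h1 := integral_cube_translate (fun τ => G τ * Real.cos (2 * Real.pi * ip (zc v) τ - a))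
    (by fun_prop) (fun τ n => by rw [hper, hp, Real.cos_add_int_mul_two_pi]) w
  have h2 := integral_cube_translate (fun τ => G τ * Real.sin (2 * Real.pi * ip (zc v) τ - a))
    (by fun_prop) (fun τ n => by rw [hper, hp, Real.sin_add_int_mul_two_pi]) w
  simp only [hw] at h1 h2
  have i1 : IntegrableOn (fun τ => G τ * Real.cos (2 * Real.pi * ip (zc v) τ)) (cube κ) :=
    integrableOn_cube (by fun_prop)
  have i2 : IntegrableOn (fun τ => G τ * Real.sin (2 * Real.pi * ip (zc v) τ)) (cube κ) :=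
    integrableOn_cube (by fun_prop)
  have h3 : ∫ τ in cube κ, G τ * Real.cos (2 * Real.pi * ip (zc v) τ - a) =
      (∫ τ in cube κ, G τ * Real.cos (2 * Real.pi * ip (zc v) τ)) * Real.cos a +
        (∫ τ in cube κ, G τ * Real.sin (2 * Real.pi * ip (zc v) τ)) * Real.sin a := by
    rw [← integral_mul_const, ← integral_mul_const, ← integral_add (i1.mul_const _)
      (i2.mul_const _)]
    congr 1; funext τ; rw [Real.cos_sub]; ring
  have h4 : ∫ τ in cube κ, G τ * Real.sin (2 * Real.pi * ip (zc v) τ - a) =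
      (∫ τ in cube κ, G τ * Real.sin (2 * Real.pi * ip (zc v) τ)) * Real.cos a -
        (∫ τ in cube κ, G τ * Real.cos (2 * Real.pi * ip (zc v) τ)) * Real.sin a := by
    rw [← integral_mul_const, ← integral_mul_const, ← integral_sub (i2.mul_const _)
      (i1.mul_const _)]
    congr 1; funext τ; rw [Real.sin_sub]; ring
  simp only [sub_mul]
  rw [integral_sub (integrableOn_cube (by fun_prop)) i1,
    integral_sub (integrableOn_cube (by fun_prop)) i2, h1, h2, h3, h4]
  linear_combination ((∫ τ in cube κ, G τ * Real.cos (2 * Real.pi * ip (zc v) τ)) ^ 2 +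
      (∫ τ in cube κ, G τ * Real.sin (2 * Real.pi * ip (zc v) τ)) ^ 2) * Real.sin_sq_add_cos_sq a

theorem torus_cos_ge {y : ℝ} (hy : |y| ≤ 1 / 2) : y ^ 2 ≤ 2 - 2 * Real.cos (2 * Real.pi * y) := by
  have hp := Real.pi_pos
  have h := Real.cos_le_one_sub_mul_cos_sq (x := 2 * Real.pi * y) (by
    rw [abs_mul, abs_of_pos (by positivity)]; nlinarith)
  have e : 2 / Real.pi ^ 2 * (2 * Real.pi * y) ^ 2 = 8 * y ^ 2 := by field_simp; ring
  rw [e] at h
  nlinarith [sq_nonneg y]

end aux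

/-- Poincare inequality on the torus along prescribed directions -/
theorem torus_poincare {κ I : Type} [Fintype κ] [Fintype I] (G : (κ → ℝ) → ℝ) (hG : Continuous G)
    (hper : ∀ τ (n : κ → ℤ), G (τ + zc n) = G τ) (θ : I → κ → ℝ) (B : ℝ)
    (hv : ∀ v : κ → ℤ,
      ((∫ τ in cube κ, G τ * Real.cos (2 * Real.pi * ip (zc v) τ)) = 0 ∧
        (∫ τ in cube κ, G τ * Real.sin (2 * Real.pi * ip (zc v) τ)) = 0) ∨
      1 ≤ ∑ i, ip (zc v) (θ i) ^ 2)
    (hB : ∀ ε : ℝ, 0 < ε → ∑ i, ∫ τ in cube κ, (G (τ + ε • θ i) - G τ) ^ 2 ≤ ε ^ 2 * B) :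
    ∫ τ in cube κ, G τ ^ 2 ≤ B := by
  refine hasSum_le_of_sum_le (torus_parseval G hG hper) fun S => ?_
  set q : (κ → ℤ) → ℝ := fun v =>
    (∫ τ in cube κ, G τ * Real.cos (2 * Real.pi * ip (zc v) τ)) ^ 2 +
      (∫ τ in cube κ, G τ * Real.sin (2 * Real.pi * ip (zc v) τ)) ^ 2 with hq
  have hq0 : ∀ v, 0 ≤ q v := fun v => by positivity
  set M := ∑ v ∈ S, ∑ i, |ip (zc v) (θ i)| with hM
  have hM0 : 0 ≤ M := sum_nonneg fun _ _ => sum_nonneg fun _ _ => abs_nonneg _
  have hMv : ∀ v ∈ S, ∀ i, |ip (zc v) (θ i)| ≤ M := fun v hv i =>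
    (single_le_sum (f := fun i => |ip (zc v) (θ i)|) (fun _ _ => abs_nonneg _) (mem_univ i)).trans
      (single_le_sum (f := fun v => ∑ i, |ip (zc v) (θ i)|)
        (fun _ _ => sum_nonneg fun _ _ => abs_nonneg _) hv)
  set ε := 1 / (2 * (M + 1)) with hε
  have hε0 : 0 < ε := by positivity
  have h1 : ∀ i, ∑ v ∈ S, q v * (ε ^ 2 * ip (zc v) (θ i) ^ 2) ≤
      ∫ τ in cube κ, (G (τ + ε • θ i) - G τ) ^ 2 := fun i => by
    have hs := torus_parseval (fun τ => G (τ + ε • θ i) - G τ) (by fun_prop) (fun τ n => by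
      rw [add_right_comm, hper, hper])
    refine le_trans ?_ (sum_le_hasSum S (fun v _ => by positivity) hs)
    refine sum_le_sum fun v hv => ?_
    rw [torus_rot G hG hper, ip_smul_right, ← mul_pow]
    refine mul_le_mul_of_nonneg_left (torus_cos_ge ?_) (hq0 v)
    rw [abs_mul, abs_of_pos hε0, hε, one_div_mul_eq_div, div_le_div_iff₀ (by positivity)
      (by positivity)]
    linarith [hMv v hv i]
  have h2 := (sum_le_sum fun i (_ : i ∈ univ) => h1 i).trans (hB ε hε0)
  rw [sum_comm] at h2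
  have h3 : ε ^ 2 * ∑ v ∈ S, q v ≤ ∑ v ∈ S, ∑ i, q v * (ε ^ 2 * ip (zc v) (θ i) ^ 2) := by
    rw [mul_sum]
    refine sum_le_sum fun v _ => ?_
    rw [← mul_sum, ← mul_sum]
    rcases hv v with h | h
    · simp [hq, h.1, h.2]
    · have := mul_le_mul_of_nonneg_left h (mul_nonneg (hq0 v) (sq_nonneg ε))
      linarith
  exact le_of_mul_le_mul_left (h3.trans h2) (by positivity)

/-- a frequency outside the dual of the period lattice does not occur -/
theorem torus_vanish {κ : Type} [Fintype κ] (G : (κ → ℝ) → ℝ) (hG : Continuous G)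
    (hper : ∀ τ (n : κ → ℤ), G (τ + zc n) = G τ) (t : κ → ℝ) (ht : ∀ τ, G (τ + t) = G τ)
    (v : κ → ℤ) (hv : ¬∃ n : ℤ, ip (zc v) t = n) :
    (∫ τ in cube κ, G τ * Real.cos (2 * Real.pi * ip (zc v) τ)) = 0 ∧
      (∫ τ in cube κ, G τ * Real.sin (2 * Real.pi * ip (zc v) τ)) = 0 := by
  have h := torus_rot G hG hper t v
  simp only [ht, sub_self, zero_mul, integral_zero] at h
  have hne : 2 - 2 * Real.cos (2 * Real.pi * ip (zc v) t) ≠ 0 := fun h0 => by
    obtain ⟨n, hn⟩ := (Real.cos_eq_one_iff (2 * Real.pi * ip (zc v) t)).1 (by linarith)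
    refine hv ⟨n, ?_⟩
    have hp := Real.pi_pos
    exact mul_left_cancel₀ (by positivity : 2 * Real.pi ≠ 0) (by linarith)
  have h2 := (mul_eq_zero.1 (by simpa using h.symm)).resolve_right hne
  constructor <;> refine pow_eq_zero_iff two_ne_zero |>.1 (le_antisymm ?_ (sq_nonneg _)) <;>
    nlinarith [sq_nonneg (∫ τ in cube κ, G τ * Real.cos (2 * Real.pi * ip (zc v) τ)),
      sq_nonneg (∫ τ in cube κ, G τ * Real.sin (2 * Real.pi * ip (zc v) τ))]

end Vale.Agent.P318
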