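import Vale.Agent.P318.Basic

open Finset MeasureTheory

noncomputable section

namespace Vale.Agent.P318

theorem win_st_symm (x : ℝ) : Real.smoothTransition (1 - x) = 1 - Real.smoothTransition x := by
  have h := Real.smoothTransition.pos_denom x
  unfold Real.smoothTransition
  rw [sub_sub_cancel, add_comm (expNegInvGlue (1 - x)), eq_sub_iff_add_eq, ← add_div,
    add_comm, div_self h.ne']

theorem win_st_diff : Differentiable ℝ Real.smoothTransition :=
  (Real.smoothTransition.contDiff (n := 1)).differentiable (by simp)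

theorem win_st_cont : Continuous (deriv Real.smoothTransition) :=
  (Real.smoothTransition.contDiff (n := 1)).continuous_deriv (by simp)

theorem win_st_bdd : ∃ C : ℝ, ∀ x, |deriv Real.smoothTransition x| ≤ C := by
  obtain ⟨C, hC⟩ := isCompact_Icc.exists_bound_of_continuousOn
    (s := Set.Icc (0 : ℝ) 1) win_st_cont.continuousOn
  refine ⟨C, fun x => ?_⟩
  have h0 : 0 ≤ C := (norm_nonneg _).trans (hC 0 ⟨le_rfl, zero_le_one⟩)
  by_cases hx : x ∈ Set.Icc (0 : ℝ) 1
  · exact hC x hx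
  · have : deriv Real.smoothTransition x = 0 := by
      rw [Set.mem_Icc, not_and_or, not_le, not_le] at hx
      rcases hx with hx | hx
      · refine IsLocalMin.deriv_eq_zero (Filter.Eventually.of_forall fun y => ?_)
        rw [Real.smoothTransition.zero_of_nonpos hx.le]
        exact Real.smoothTransition.nonneg y
      · refine IsLocalMax.deriv_eq_zero (Filter.Eventually.of_forall fun y => ?_)
        rw [Real.smoothTransition.one_of_one_le hx.le]
        exact Real.smoothTransition.le_one y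
    rw [this, abs_zero]
    exact h0

theorem exists_win : ∃ κ1 : ℝ, 1 ≤ κ1 ∧ ∀ lam : ℝ, 0 < lam → lam ≤ 1 / 100 →
    ∃ W : Win, W.lam = lam ∧ W.kap = κ1 / lam := by
  obtain ⟨C, hC⟩ := win_st_bdd
  refine ⟨max 1 (Real.pi * C), le_max_left _ _, fun lam h0 h1 => ?_⟩
  have hpi := Real.pi_pos
  let θ : ℝ → ℝ := fun s => Real.pi / 2 * Real.smoothTransition (s / lam + 1 / 2)
  let dθ : ℝ → ℝ := fun s =>
    Real.pi / 2 * (deriv Real.smoothTransition (s / lam + 1 / 2) * (1 / lam))
  have hθ : ∀ s, HasDerivAt θ (dθ s) s := fun s => by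
    have h2 : HasDerivAt (fun s : ℝ => s / lam + 1 / 2) (1 / lam) s :=
      ((hasDerivAt_id s).div_const lam).add_const _
    exact ((win_st_diff _).hasDerivAt.comp s h2).const_mul _
  have hθc : Continuous θ := continuous_iff_continuousAt.2 fun s => (hθ s).continuousAt
  have hdθc : Continuous dθ := by
    have := win_st_cont
    simp only [dθ]
    fun_prop
  have hθ0 : ∀ s, 0 ≤ θ s := fun s =>
    mul_nonneg (by positivity) (Real.smoothTransition.nonneg _)
  have hθ1 : ∀ s, θ s ≤ Real.pi / 2 := fun s =>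
    mul_le_of_le_one_right (by positivity) (Real.smoothTransition.le_one _)
  refine ⟨⟨lam, max 1 (Real.pi * C) / lam, fun s => Real.sin (θ s) ^ 2,
    fun s => 2 * Real.sin (θ s) * (Real.cos (θ s) * dθ s), h0, h1, ?_, fun s => ?_, ?_, ?_,
    fun s hs => ?_, fun s hs => ?_, fun s => ?_, fun s => ?_⟩, rfl, rfl⟩
  · rw [le_div_iff₀ h0]
    have := le_max_left 1 (Real.pi * C)
    linarith
  · have h2 := ((hθ s).sin).fun_pow 2
    refine h2.congr_deriv ?_
    simp
  · fun_prop
  · intro a b hab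
    have h2 : θ a ≤ θ b := by
      refine mul_le_mul_of_nonneg_left (Real.smoothTransition.monotone ?_) (by positivity)
      have := div_le_div_of_nonneg_right hab h0.le
      linarith
    have h3 : Real.sin (θ a) ≤ Real.sin (θ b) :=
      Real.sin_le_sin_of_le_of_le_pi_div_two (by linarith [hθ0 a]) (hθ1 b) h2
    have h4 : 0 ≤ Real.sin (θ a) :=
      Real.sin_nonneg_of_nonneg_of_le_pi (hθ0 a) (by linarith [hθ1 a])
    exact pow_le_pow_left₀ h4 h3 2
  · have h2 : s / lam + 1 / 2 ≤ 0 := by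
      have : s / lam ≤ -(1 / 2) := by rw [div_le_iff₀ h0]; linarith
      linarith
    simp only [θ]
    rw [Real.smoothTransition.zero_of_nonpos h2]
    simp
  · have h2 : 1 ≤ s / lam + 1 / 2 := by
      have : 1 / 2 ≤ s / lam := by rw [le_div_iff₀ h0]; linarith
      linarith
    simp only [θ]
    rw [Real.smoothTransition.one_of_one_le h2]
    simp
  · have h2 : θ (-s) = Real.pi / 2 - θ s := by
      have e : -s / lam + 1 / 2 = 1 - (s / lam + 1 / 2) := by ring
      simp only [θ]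
      rw [e, win_st_symm]
      ring
    simp only [h2, Real.sin_pi_div_two_sub, Real.cos_sq']
  · have h2 : |2 * dθ s| ≤ max 1 (Real.pi * C) / lam := by
      have e : 2 * dθ s = Real.pi * deriv Real.smoothTransition (s / lam + 1 / 2) / lam := by
        simp only [dθ]; ring
      rw [e, abs_div, abs_of_pos h0, abs_mul, abs_of_pos hpi]
      refine div_le_div_of_nonneg_right ?_ h0.le
      exact (mul_le_mul_of_nonneg_left (hC _) hpi.le).trans (le_max_right _ _)
    have h3 : (2 * dθ s) ^ 2 ≤ (max 1 (Real.pi * C) / lam) ^ 2 := by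
      rw [← sq_abs]
      exact pow_le_pow_left₀ (abs_nonneg _) h2 2
    have e : (2 * Real.sin (θ s) * (Real.cos (θ s) * dθ s)) ^ 2 =
        (2 * dθ s) ^ 2 * (Real.sin (θ s) ^ 2 * (1 - Real.sin (θ s) ^ 2)) := by
      rw [← Real.cos_sq']; ring
    rw [e]
    refine mul_le_mul_of_nonneg_right h3 ?_
    rw [← Real.cos_sq']
    positivity

namespace Win
variable (W : Win)

theorem P_nonneg (s : ℝ) : 0 ≤ W.P s := by
  rcases le_total s (-(W.lam / 2)) with h | h
  · exact (W.zero s h).ge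
  · rw [← W.zero _ le_rfl]; exact W.mono h
theorem P_le_one (s : ℝ) : W.P s ≤ 1 := by
  rcases le_total s (W.lam / 2) with h | h
  · rw [← W.one _ le_rfl]; exact W.mono h
  · exact (W.one s h).le
theorem dP_of_zero {s : ℝ} (h : W.P s = 0) : W.dP s = 0 := by
  have := W.bound s
  rw [h, zero_mul, mul_zero] at this
  exact pow_eq_zero_iff two_ne_zero |>.1 (le_antisymm this (sq_nonneg _))
theorem dP_of_one {s : ℝ} (h : W.P s = 1) : W.dP s = 0 := by
  have := W.bound s
  rw [h, sub_self, mul_zero, mul_zero] at this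
  exact pow_eq_zero_iff two_ne_zero |>.1 (le_antisymm this (sq_nonneg _))
theorem kap_pos : 0 < W.kap := lt_of_lt_of_le one_pos W.one_le_kap
theorem continuous_P : Continuous W.P :=
  continuous_iff_continuousAt.2 fun s => (W.hasDeriv s).continuousAt

theorem phi_nonneg (s : ℝ) : 0 ≤ W.phi s :=
  sub_nonneg.2 (W.mono (by linarith))
theorem phi_le_one (s : ℝ) : W.phi s ≤ 1 := by
  have := W.P_le_one (s + 1 / 2)
  have := W.P_nonneg (s - 1 / 2)
  unfold phi
  linarith
theorem phi_neg (s : ℝ) : W.phi (-s) = W.phi s := by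
  unfold phi
  rw [show -s + 1 / 2 = -(s - 1 / 2) by ring, show -s - 1 / 2 = -(s + 1 / 2) by ring, W.symm,
    W.symm]
  ring
theorem phi_abs (s : ℝ) : W.phi |s| = W.phi s := by
  rcases abs_choice s with h | h <;> rw [h]
  exact W.phi_neg s
theorem phi_of_nonneg {s : ℝ} (h : 0 ≤ s) : W.phi s = 1 - W.P (s - 1 / 2) := by
  have := W.lam_le
  unfold phi
  rw [W.one _ (by linarith)]
theorem phi_of_nonpos {s : ℝ} (h : s ≤ 0) : W.phi s = W.P (s + 1 / 2) := by
  have := W.lam_le
  unfold phi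
  rw [W.zero (s - 1 / 2) (by linarith), sub_zero]
theorem dphi_of_nonneg {s : ℝ} (h : 0 ≤ s) : W.dphi s = -W.dP (s - 1 / 2) := by
  have := W.lam_le
  unfold dphi
  rw [W.dP_of_one (W.one _ (by linarith)), zero_sub]
theorem dphi_of_nonpos {s : ℝ} (h : s ≤ 0) : W.dphi s = W.dP (s + 1 / 2) := by
  have := W.lam_le
  unfold dphi
  rw [W.dP_of_zero (W.zero (s - 1 / 2) (by linarith)), sub_zero]
theorem phi_eq_zero {s : ℝ} (h : 1 / 2 + W.lam / 2 ≤ |s|) : W.phi s = 0 := by
  rw [← W.phi_abs, W.phi_of_nonneg (abs_nonneg s), W.one _ (by linarith), sub_self]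
theorem phi_eq_one {s : ℝ} (h : |s| ≤ 1 / 2 - W.lam / 2) : W.phi s = 1 := by
  rw [← W.phi_abs, W.phi_of_nonneg (abs_nonneg s), W.zero _ (by linarith), sub_zero]
theorem phi_anti {u s : ℝ} (h : |u| ≤ |s|) : W.phi s ≤ W.phi u := by
  rw [← W.phi_abs, ← W.phi_abs u, W.phi_of_nonneg (abs_nonneg s), W.phi_of_nonneg (abs_nonneg u)]
  have := W.mono (show |u| - 1 / 2 ≤ |s| - 1 / 2 by linarith)
  linarith
theorem hasDerivAt_phi (s : ℝ) : HasDerivAt W.phi (W.dphi s) s :=
  ((W.hasDeriv (s + 1 / 2)).comp_add_const s (1 / 2)).sub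
    ((W.hasDeriv (s - 1 / 2)).comp_sub_const s (1 / 2))
@[fun_prop] theorem continuous_phi : Continuous W.phi :=
  continuous_iff_continuousAt.2 fun s => (W.hasDerivAt_phi s).continuousAt
@[fun_prop] theorem continuous_dphi : Continuous W.dphi := by
  have := W.cont_dP
  unfold dphi
  fun_prop
@[fun_prop] theorem continuous_ed1 : Continuous W.ed1 := by
  unfold ed1
  fun_prop
theorem dphi_eq_zero {s : ℝ} (h : W.phi s = 0) : W.dphi s = 0 := by
  refine IsLocalMin.hasDerivAt_eq_zero (Filter.Eventually.of_forall fun y => ?_)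
    (W.hasDerivAt_phi s)
  rw [h]
  exact W.phi_nonneg y
theorem ed1_nonneg (s : ℝ) : 0 ≤ W.ed1 s := mul_nonneg W.kap_pos.le (Real.sqrt_nonneg _)
theorem ed1_eq_zero {s : ℝ} (h : W.phi s = 0) : W.ed1 s = 0 := by simp [ed1, h]
theorem ed1_le (s : ℝ) {u : ℝ} (hu : 0 < u) :
    W.ed1 s ≤ W.kap / 2 * (u * W.phi s + W.phi (s + 1) / u) := by
  have ha := W.phi_nonneg s
  have hb := W.phi_nonneg (s + 1)
  have h1 : √(W.phi s * W.phi (s + 1)) ≤ (u * W.phi s + W.phi (s + 1) / u) / 2 := by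
    refine Real.sqrt_le_iff.2 ⟨by positivity, ?_⟩
    have e : W.phi s * W.phi (s + 1) = (u * W.phi s) * (W.phi (s + 1) / u) := by
      field_simp
    rw [e]
    nlinarith [sq_nonneg (u * W.phi s - W.phi (s + 1) / u)]
  have := mul_le_mul_of_nonneg_left h1 W.kap_pos.le
  unfold ed1
  linarith

/-- only two lattice points carry weight -/
theorem win_tsum_two (y : ℝ) (m : ℤ) (h0 : (m : ℝ) ≤ y) (h1 : y ≤ m + 1) (F : ℤ → ℝ)
    (hF : ∀ n : ℤ, W.phi (n - y) = 0 → F n = 0) : ∑' n, F n = F m + F (m + 1) := by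
  rw [tsum_eq_sum (s := {m, m + 1}), Finset.sum_pair (by omega)]
  intro n hn
  have hl := W.lam_le
  refine hF n (W.phi_eq_zero ?_)
  simp only [Finset.mem_insert, Finset.mem_singleton, not_or] at hn
  rcases lt_or_gt_of_ne hn.1 with h | h
  · have h2 : (n : ℝ) + 1 ≤ m := by exact_mod_cast h
    rw [abs_of_nonpos (by linarith)]
    linarith
  · have h2 : (m : ℝ) + 2 ≤ n := by
      have : m + 2 ≤ n := by omega
      exact_mod_cast this
    rw [abs_of_nonneg (by linarith)]
    linarith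

theorem win_two (y : ℝ) : ∃ (m : ℤ) (p d : ℝ), 0 ≤ p ∧ p ≤ 1 ∧ d ^ 2 ≤ W.kap ^ 2 * (p * (1 - p)) ∧
    W.phi (m - y) = p ∧ W.phi ((m + 1 : ℤ) - y) = 1 - p ∧ W.dphi (m - y) = d ∧
    W.dphi ((m + 1 : ℤ) - y) = -d ∧ W.ed1 (m - y) = W.kap * √(p * (1 - p)) ∧
    ∀ F : ℤ → ℝ, (∀ n : ℤ, W.phi (n - y) = 0 → F n = 0) → ∑' n, F n = F m + F (m + 1) := by
  have h0 := Int.floor_le y
  have h1 := (Int.lt_floor_add_one y).le
  have e : (((⌊y⌋ + 1 : ℤ) : ℝ) - y) - 1 / 2 = ⌊y⌋ - y + 1 / 2 := by push_cast; ring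
  have hp : (0 : ℝ) ≤ ((⌊y⌋ + 1 : ℤ) : ℝ) - y := by push_cast; linarith
  have a1 : W.phi (⌊y⌋ - y) = W.P (⌊y⌋ - y + 1 / 2) := W.phi_of_nonpos (by linarith)
  have a2 : W.phi ((⌊y⌋ + 1 : ℤ) - y) = 1 - W.P (⌊y⌋ - y + 1 / 2) := by
    rw [W.phi_of_nonneg hp, e]
  refine ⟨⌊y⌋, W.P (⌊y⌋ - y + 1 / 2), W.dP (⌊y⌋ - y + 1 / 2), W.P_nonneg _, W.P_le_one _,
    W.bound _, a1, a2, W.dphi_of_nonpos (by linarith), by rw [W.dphi_of_nonneg hp, e], ?_,
    W.win_tsum_two y _ h0 h1⟩
  unfold ed1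
  rw [a1, ← a2]
  congr 4
  push_cast
  ring

theorem tsum_phi (y : ℝ) : ∑' n : ℤ, W.phi (n - y) = 1 := by
  obtain ⟨m, p, d, -, -, -, a1, a2, -, -, -, h⟩ := W.win_two y
  rw [h _ fun _ h => h, a1, a2]
  ring
theorem tsum_dphi (y : ℝ) : ∑' n : ℤ, W.dphi (n - y) = 0 := by
  obtain ⟨m, p, d, -, -, -, -, -, a1, a2, -, h⟩ := W.win_two y
  rw [h _ fun _ h => W.dphi_eq_zero h, a1, a2]
  ring
theorem tsum_score (y : ℝ) : ∑' n : ℤ, W.dphi (n - y) ^ 2 / W.phi (n - y) ≤ W.kap ^ 2 := by
  obtain ⟨m, p, d, hp0, hp1, hd, a1, a2, b1, b2, -, h⟩ := W.win_two y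
  rw [h _ fun _ h => by rw [h, div_zero], a1, a2, b1, b2, neg_sq]
  have hk : 0 ≤ W.kap ^ 2 := sq_nonneg _
  have h1 : d ^ 2 / p ≤ W.kap ^ 2 * (1 - p) := by
    refine div_le_of_le_mul₀ hp0 (mul_nonneg hk (by linarith)) ?_
    linarith
  have h2 : d ^ 2 / (1 - p) ≤ W.kap ^ 2 * p := by
    refine div_le_of_le_mul₀ (by linarith) (mul_nonneg hk hp0) ?_
    linarith
  linarith
theorem win_ed_ge (y : ℝ) (g : ℤ → ℝ) {m : ℤ}
    (h : ∀ F : ℤ → ℝ, (∀ n : ℤ, W.phi (n - y) = 0 → F n = 0) → ∑' n, F n = F m + F (m + 1)) :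
    W.ed1 (m - y) * |g (m + 1) - g m| ≤ ∑' n : ℤ, W.ed1 (n - y) * |g (n + 1) - g n| := by
  rw [h _ fun _ h => by rw [W.ed1_eq_zero h, zero_mul]]
  exact le_add_of_nonneg_right (mul_nonneg (W.ed1_nonneg _) (abs_nonneg _))
theorem abs_tsum_dphi (y : ℝ) (g : ℤ → ℝ) :
    |∑' n : ℤ, W.dphi (n - y) * g n| ≤ ∑' n : ℤ, W.ed1 (n - y) * |g (n + 1) - g n| := by
  obtain ⟨m, p, d, hp0, hp1, hd, -, -, b1, b2, c1, h⟩ := W.win_two y
  refine le_trans ?_ (W.win_ed_ge y g h)
  rw [h _ fun _ h => by rw [W.dphi_eq_zero h, zero_mul], b1, b2, c1]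
  have e : d * g m + -d * g (m + 1) = -d * (g (m + 1) - g m) := by ring
  rw [e, abs_mul, abs_neg]
  refine mul_le_mul_of_nonneg_right ?_ (abs_nonneg _)
  have hk := W.kap_pos
  refine abs_le_of_sq_le_sq ?_ (by positivity)
  rw [mul_pow, Real.sq_sqrt (mul_nonneg hp0 (by linarith))]
  exact hd
theorem var_le_ed1 (y : ℝ) (g : ℤ → ℝ) (hg : ∀ n, |g n| ≤ 1) :
    (∑' n : ℤ, W.phi (n - y) * g n ^ 2) - (∑' n : ℤ, W.phi (n - y) * g n) ^ 2 ≤
      2 * ∑' n : ℤ, W.ed1 (n - y) * |g (n + 1) - g n| := by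
  obtain ⟨m, p, d, hp0, hp1, -, a1, a2, -, -, c1, h⟩ := W.win_two y
  refine le_trans ?_ (mul_le_mul_of_nonneg_left (W.win_ed_ge y g h) zero_le_two)
  rw [h _ fun _ h => by rw [h, zero_mul], h _ fun _ h => by rw [h, zero_mul], a1, a2, c1]
  have e : p * g m ^ 2 + (1 - p) * g (m + 1) ^ 2 - (p * g m + (1 - p) * g (m + 1)) ^ 2 =
      p * (1 - p) * (|g (m + 1) - g m| * |g (m + 1) - g m|) := by
    rw [abs_mul_abs_self]; ring
  rw [e]
  have hq : 0 ≤ p * (1 - p) := mul_nonneg hp0 (by linarith)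
  have h1 : |g (m + 1) - g m| ≤ 2 := (abs_sub _ _).trans (by linarith [hg m, hg (m + 1)])
  have h2 : p * (1 - p) ≤ √(p * (1 - p)) := by
    refine Real.le_sqrt_of_sq_le ?_
    have : p * (1 - p) ≤ 1 := by nlinarith
    nlinarith
  have h3 : p * (1 - p) ≤ W.kap * √(p * (1 - p)) :=
    h2.trans (le_mul_of_one_le_left (Real.sqrt_nonneg _) W.one_le_kap)
  have h4 := abs_nonneg (g (m + 1) - g m)
  calc _ ≤ p * (1 - p) * (2 * |g (m + 1) - g m|) :=
        mul_le_mul_of_nonneg_left (mul_le_mul_of_nonneg_right h1 h4) hq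
    _ ≤ W.kap * √(p * (1 - p)) * (2 * |g (m + 1) - g m|) :=
        mul_le_mul_of_nonneg_right h3 (by positivity)
    _ = _ := by ring

theorem win_abs_lt {s : ℝ} (h : W.phi s ≠ 0) : |s| < 1 / 2 + W.lam / 2 := by
  by_contra hn
  exact h (W.phi_eq_zero (not_lt.1 hn))

theorem hasCompactSupport_phi : HasCompactSupport W.phi := by
  refine HasCompactSupport.intro (isCompact_Icc (a := (-1 : ℝ)) (b := 1)) fun x hx => ?_
  by_contra h
  have h1 := W.win_abs_lt h
  have h2 := W.lam_le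
  exact hx (abs_le.1 (by linarith))

theorem win_integrable {g : ℝ → ℝ} (hg : Continuous g) : Integrable fun s => W.phi s * g s :=
  (W.continuous_phi.mul hg).integrable_of_hasCompactSupport W.hasCompactSupport_phi.mul_right

theorem win_integral_eq (g : ℝ → ℝ) :
    ∫ s, W.phi s * g s = ∫ s in (-1 : ℝ)..1, W.phi s * g s := by
  refine (intervalIntegral.integral_eq_integral_of_support_subset fun s hs => ?_).symm
  have h1 := abs_lt.1 (W.win_abs_lt (left_ne_zero_of_mul hs))
  have h2 := W.lam_le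
  constructor <;> linarith [h1.1, h1.2]

theorem win_integral_split {g : ℝ → ℝ} (hg : Continuous g) :
    ∫ s, W.phi s * g s =
      (∫ s in (0 : ℝ)..1, W.phi s * g (-s)) + ∫ s in (0 : ℝ)..1, W.phi s * g s := by
  have hc : Continuous fun s => W.phi s * g s := W.continuous_phi.mul hg
  rw [W.win_integral_eq, ← intervalIntegral.integral_add_adjacent_intervals (b := 0)
    (hc.intervalIntegrable _ _) (hc.intervalIntegrable _ _)]
  congr 1
  have := intervalIntegral.integral_comp_neg (a := 0) (b := 1) fun s => W.phi s * g s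
  simp only [W.phi_neg, neg_zero] at this
  exact this.symm

/-- unfolding of a lattice sum on the line -/
theorem integral_tsum_phi (g : ℝ → ℝ) (hg : Continuous g) :
    ∫ y in (0 : ℝ)..1, ∑' n : ℤ, W.phi (n - y) * g (n - y) = ∫ s, W.phi s * g s := by
  have hc : Continuous fun s => W.phi s * g s := W.continuous_phi.mul hg
  have e : ∫ y in (0 : ℝ)..1, ∑' n : ℤ, W.phi (n - y) * g (n - y) =
      ∫ y in (0 : ℝ)..1, (W.phi y * g (-y) + W.phi (1 - y) * g (1 - y)) := by
    refine intervalIntegral.integral_congr fun y hy => ?_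
    rw [Set.uIcc_of_le zero_le_one] at hy
    have := W.win_tsum_two y 0 (by simpa using hy.1) (by simpa using hy.2)
      (fun n => W.phi (n - y) * g (n - y)) fun _ h => by rw [h, zero_mul]
    simpa [W.phi_neg] using this
  rw [e, intervalIntegral.integral_add, W.win_integral_split hg]
  · congr 1
    have := intervalIntegral.integral_comp_sub_left (a := 0) (b := 1)
      (fun s => W.phi s * g s) 1
    simpa using this
  · exact Continuous.intervalIntegrable (by fun_prop) _ _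
  · exact Continuous.intervalIntegrable (by fun_prop) _ _

theorem integral_phi : ∫ s, W.phi s = 1 := by
  have := W.integral_tsum_phi (fun _ => 1) continuous_const
  simp only [mul_one, W.tsum_phi] at this
  rw [← this]
  simp
theorem integral_phi_mul_id : ∫ s, W.phi s * s = 0 := by
  rw [W.win_integral_split (g := fun s => s) continuous_id]
  simp only [mul_neg, intervalIntegral.integral_neg]
  ring
theorem integral_phi_sq (r : ℝ) : 1 / 100 ≤ ∫ s, W.phi s * (s - r) ^ 2 := by
  have hc : Continuous fun s : ℝ => (s - r) ^ 2 := by fun_prop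
  have h1 : ∫ s in (-(1 / 4) : ℝ)..(1 / 4), W.phi s * (s - r) ^ 2 ≤ ∫ s, W.phi s * (s - r) ^ 2 := by
    rw [intervalIntegral.integral_of_le (by norm_num)]
    exact setIntegral_le_integral (W.win_integrable hc)
      (Filter.Eventually.of_forall fun s => mul_nonneg (W.phi_nonneg s) (sq_nonneg _))
  have h2 : ∫ s in (-(1 / 4) : ℝ)..(1 / 4), W.phi s * (s - r) ^ 2 =
      ∫ s in (-(1 / 4) : ℝ)..(1 / 4), (s - r) ^ 2 := by
    refine intervalIntegral.integral_congr fun s hs => ?_
    rw [Set.uIcc_of_le (by norm_num)] at hs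
    have := W.lam_le
    have h3 : |s| ≤ 1 / 4 := abs_le.2 hs
    simp only [W.phi_eq_one (s := s) (by linarith), one_mul]
  have h3 : ∫ s in (-(1 / 4) : ℝ)..(1 / 4), (s - r) ^ 2 =
      ((1 / 4 - r) ^ 3 - (-(1 / 4) - r) ^ 3) / 3 := by
    rw [intervalIntegral.integral_comp_sub_right (fun s => s ^ 2) r, integral_pow]
    norm_num
  rw [h2, h3] at h1
  nlinarith [sq_nonneg r]

theorem win_half (g g' : ℝ → ℝ) (hg : ∀ s, HasDerivAt g (g' s) s) (hc : Continuous g') :
    ∫ s in (0 : ℝ)..1, W.phi s * (g s - g 0) ^ 2 ≤ ∫ s in (0 : ℝ)..1, W.phi s * g' s ^ 2 := by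
  have hgc : Continuous g := continuous_iff_continuousAt.2 fun s => (hg s).continuousAt
  have key : ∀ s ∈ Set.Icc (0 : ℝ) 1,
      W.phi s * (g s - g 0) ^ 2 ≤ ∫ s in (0 : ℝ)..1, W.phi s * g' s ^ 2 := by
    intro s hs
    have e : ∫ u in (0 : ℝ)..s, g' u = g s - g 0 :=
      intervalIntegral.integral_eq_sub_of_hasDerivAt (fun u _ => hg u) (hc.intervalIntegrable _ _)
    have h1 : ∫ u in (0 : ℝ)..s, 2 * (g s - g 0) * g' u ≤
        ∫ u in (0 : ℝ)..s, ((g s - g 0) ^ 2 + g' u ^ 2) :=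
      intervalIntegral.integral_mono_on hs.1 (Continuous.intervalIntegrable (by fun_prop) _ _)
        (Continuous.intervalIntegrable (by fun_prop) _ _)
        fun u _ => by nlinarith [sq_nonneg (g s - g 0 - g' u)]
    rw [intervalIntegral.integral_const_mul, e, intervalIntegral.integral_add
      (Continuous.intervalIntegrable (by fun_prop) _ _)
      (Continuous.intervalIntegrable (by fun_prop) _ _), intervalIntegral.integral_const,
      sub_zero, smul_eq_mul] at h1
    have h2 : (g s - g 0) ^ 2 ≤ ∫ u in (0 : ℝ)..s, g' u ^ 2 := by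
      nlinarith [mul_nonneg (sub_nonneg.2 hs.2) (sq_nonneg (g s - g 0))]
    calc _ ≤ W.phi s * ∫ u in (0 : ℝ)..s, g' u ^ 2 :=
          mul_le_mul_of_nonneg_left h2 (W.phi_nonneg s)
      _ = ∫ u in (0 : ℝ)..s, W.phi s * g' u ^ 2 := (intervalIntegral.integral_const_mul _ _).symm
      _ ≤ ∫ u in (0 : ℝ)..s, W.phi u * g' u ^ 2 := by
          refine intervalIntegral.integral_mono_on hs.1
            (Continuous.intervalIntegrable (by fun_prop) _ _)
            (Continuous.intervalIntegrable (by fun_prop) _ _) fun u hu => ?_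
          refine mul_le_mul_of_nonneg_right (W.phi_anti ?_) (sq_nonneg _)
          rw [abs_of_nonneg hu.1, abs_of_nonneg hs.1]
          exact hu.2
      _ ≤ _ := intervalIntegral.integral_mono_interval le_rfl hs.1 hs.2
          (Filter.Eventually.of_forall fun u => mul_nonneg (W.phi_nonneg u) (sq_nonneg _))
          (Continuous.intervalIntegrable (by fun_prop) _ _)
  have := intervalIntegral.integral_mono_on (μ := volume) zero_le_one
    (Continuous.intervalIntegrable (u := fun s => W.phi s * (g s - g 0) ^ 2) (by fun_prop) _ _)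
    (Continuous.intervalIntegrable continuous_const _ _) key
  simpa using this

/-- one-dimensional Poincare inequality -/
theorem poincare1 (g g' : ℝ → ℝ) (hg : ∀ s, HasDerivAt g (g' s) s) (hc : Continuous g') :
    (∫ s, W.phi s * g s ^ 2) - (∫ s, W.phi s * g s) ^ 2 ≤ ∫ s, W.phi s * g' s ^ 2 := by
  have hgc : Continuous g := continuous_iff_continuousAt.2 fun s => (hg s).continuousAt
  have h1 : ∫ s, W.phi s * (g s - g 0) ^ 2 ≤ ∫ s, W.phi s * g' s ^ 2 := by
    rw [W.win_integral_split (g := fun s => (g s - g 0) ^ 2) (by fun_prop),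
      W.win_integral_split (g := fun s => g' s ^ 2) (by fun_prop)]
    refine add_le_add ?_ (W.win_half g g' hg hc)
    have := W.win_half (fun s => g (-s)) (fun s => -g' (-s))
      (fun s => ((hg (-s)).comp s (hasDerivAt_neg s)).congr_deriv (by ring)) (by fun_prop)
    simpa using this
  have e : ∫ s, W.phi s * (g s - g 0) ^ 2 =
      (∫ s, W.phi s * g s ^ 2) - 2 * g 0 * (∫ s, W.phi s * g s) + g 0 ^ 2 := by
    have i1 := W.win_integrable (g := fun s => g s ^ 2) (by fun_prop)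
    have i2 := (W.win_integrable hgc).const_mul (2 * g 0)
    have i3 := W.win_integrable (g := fun _ => g 0 ^ 2) continuous_const
    have e1 : ∫ s, W.phi s * g 0 ^ 2 = g 0 ^ 2 := by
      rw [integral_mul_const, W.integral_phi, one_mul]
    have i4 : Integrable fun s => W.phi s * g s ^ 2 - 2 * g 0 * (W.phi s * g s) := i1.sub i2
    rw [← integral_const_mul, ← e1, ← integral_sub i1 i2, ← integral_add i4 i3]
    refine integral_congr_ae (Filter.Eventually.of_forall fun s => ?_)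
    simp only
    ring
  nlinarith [sq_nonneg (g 0 - ∫ s, W.phi s * g s)]

theorem win_meas : Measurable fun s => ENNReal.ofReal (W.phi s) :=
  W.continuous_phi.measurable.ennreal_ofReal

instance : IsProbabilityMeasure W.nu := by
  constructor
  unfold nu
  rw [withDensity_apply _ MeasurableSet.univ, Measure.restrict_univ,
    ← ofReal_integral_eq_lintegral_ofReal
      (W.continuous_phi.integrable_of_hasCompactSupport W.hasCompactSupport_phi)
      (Filter.Eventually.of_forall W.phi_nonneg), W.integral_phi, ENNReal.ofReal_one]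
instance (ι : Type) [Fintype ι] : IsProbabilityMeasure (W.piNu ι) := by
  unfold piNu; infer_instance
theorem nu_le_volume : W.nu ≤ volume := by
  have : W.nu ≤ volume.withDensity 1 :=
    withDensity_mono (Filter.Eventually.of_forall fun s =>
      ENNReal.ofReal_le_one.2 (W.phi_le_one s))
  rwa [withDensity_one] at this
theorem nu_ae : ∀ᵐ s ∂W.nu, |s| ≤ 1 / 2 + W.lam / 2 := by
  unfold nu
  rw [ae_withDensity_iff W.win_meas]
  refine Filter.Eventually.of_forall fun s hs => (W.win_abs_lt fun h => hs ?_).le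
  rw [h, ENNReal.ofReal_zero]
theorem integral_nu (g : ℝ → ℝ) : ∫ s, g s ∂W.nu = ∫ s, W.phi s * g s := by
  unfold nu
  rw [integral_withDensity_eq_integral_toReal_smul W.win_meas
    (Filter.Eventually.of_forall fun _ => ENNReal.ofReal_lt_top)]
  simp only [ENNReal.toReal_ofReal (W.phi_nonneg _), smul_eq_mul]

variable {ι : Type} [Fintype ι]

theorem Phi_nonneg (x : ι → ℝ) : 0 ≤ W.Phi x := prod_nonneg fun _ _ => W.phi_nonneg _
theorem Phi_le_one (x : ι → ℝ) : W.Phi x ≤ 1 :=
  prod_le_one (fun _ _ => W.phi_nonneg _) fun _ _ => W.phi_le_one _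
@[fun_prop] theorem continuous_Phi : Continuous (W.Phi : (ι → ℝ) → ℝ) := by
  unfold Phi
  fun_prop
theorem abs_lt_of_Phi_ne {x : ι → ℝ} (h : W.Phi x ≠ 0) (l : ι) : |x l| < 1 / 2 + W.lam / 2 :=
  W.win_abs_lt (prod_ne_zero_iff.1 h l (mem_univ l))
theorem abs_le_one_of_Phi_ne {x : ι → ℝ} (h : W.Phi x ≠ 0) (l : ι) : |x l| ≤ 1 := by
  have := W.abs_lt_of_Phi_ne h l
  have := W.lam_le
  linarith
theorem hasCompactSupport_Phi : HasCompactSupport (W.Phi : (ι → ℝ) → ℝ) := by
  refine HasCompactSupport.intro (isCompact_Icc (a := fun _ : ι => (-1 : ℝ)) (b := fun _ => 1))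
    fun x hx => ?_
  by_contra h
  exact hx ⟨fun l => (abs_le.1 (W.abs_le_one_of_Phi_ne h l)).1,
    fun l => (abs_le.1 (W.abs_le_one_of_Phi_ne h l)).2⟩
theorem integral_Phi : ∫ x : ι → ℝ, W.Phi x = 1 := by
  unfold Phi
  rw [integral_fintype_prod_volume_eq_prod (fun _ : ι => W.phi)]
  simp [W.integral_phi]

variable [DecidableEq ι]

@[fun_prop] theorem continuous_dPhi (l : ι) : Continuous (W.dPhi l) := by
  unfold dPhi
  fun_prop
@[fun_prop] theorem continuous_ed (l : ι) : Continuous (W.ed l) := by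
  unfold ed
  fun_prop
theorem win_Phi_eq (l : ι) (x : ι → ℝ) :
    W.Phi x = W.phi (x l) * ∏ l' ∈ univ.erase l, W.phi (x l') :=
  (mul_prod_erase univ (fun l => W.phi (x l)) (mem_univ l)).symm
theorem win_Phi_shift (l : ι) (x : ι → ℝ) :
    W.Phi (x + Pi.single l 1) = W.phi (x l + 1) * ∏ l' ∈ univ.erase l, W.phi (x l') := by
  rw [W.win_Phi_eq l]
  congr 1
  · simp
  · refine prod_congr rfl fun l' hl' => ?_
    simp [Pi.single_eq_of_ne (ne_of_mem_erase hl')]
theorem dPhi_eq_zero (l : ι) {x : ι → ℝ} (h : W.Phi x = 0) : W.dPhi l x = 0 := by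
  rw [W.win_Phi_eq l] at h
  unfold dPhi
  rcases mul_eq_zero.1 h with h | h
  · rw [W.dphi_eq_zero h, zero_mul]
  · rw [h, mul_zero]
theorem ed_nonneg (l : ι) (x : ι → ℝ) : 0 ≤ W.ed l x :=
  mul_nonneg (W.ed1_nonneg _) (prod_nonneg fun _ _ => W.phi_nonneg _)
theorem ed_eq_zero (l : ι) {x : ι → ℝ} (h : W.Phi x = 0) : W.ed l x = 0 := by
  rw [W.win_Phi_eq l] at h
  unfold ed
  rcases mul_eq_zero.1 h with h | h
  · rw [W.ed1_eq_zero h, zero_mul]
  · rw [h, mul_zero]
theorem ed_eq_zero' (l : ι) {x : ι → ℝ} (h : W.Phi (x + Pi.single l 1) = 0) : W.ed l x = 0 := by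
  rw [W.win_Phi_shift l] at h
  unfold ed
  rcases mul_eq_zero.1 h with h | h
  · simp [ed1, h]
  · rw [h, mul_zero]
theorem ed_le (l : ι) (x : ι → ℝ) {u : ℝ} (hu : 0 < u) :
    W.ed l x ≤ W.kap / 2 * (u * W.Phi x + W.Phi (x + Pi.single l 1) / u) := by
  rw [W.win_Phi_shift l, W.win_Phi_eq l]
  have h := mul_le_mul_of_nonneg_right (W.ed1_le (x l) hu)
    (prod_nonneg (s := univ.erase l) fun l' _ => W.phi_nonneg (x l'))
  unfold ed
  refine h.trans (le_of_eq ?_)
  ring
theorem hasDerivAt_Phi (x v : ι → ℝ) (s : ℝ) :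
    HasDerivAt (fun s : ℝ => W.Phi (x + s • v)) (∑ l, W.dPhi l (x + s • v) * v l) s := by
  have h := HasDerivAt.fun_finsetProd (u := (univ : Finset ι))
    (f := fun l (s : ℝ) => W.phi (x l + s * v l))
    (f' := fun l => W.dphi (x l + s * v l) * v l) (x := s) fun l _ => by
      have h1 : HasDerivAt (fun s : ℝ => x l + s * v l) (v l) s := by
        simpa using ((hasDerivAt_id s).mul_const (v l)).const_add (x l)
      exact (W.hasDerivAt_phi _).comp s h1
  have e : ∑ l, W.dPhi l (x + s • v) * v l =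
      ∑ l, (∏ j ∈ univ.erase l, W.phi (x j + s * v j)) • (W.dphi (x l + s * v l) * v l) := by
    refine sum_congr rfl fun l _ => ?_
    simp only [dPhi, Pi.add_apply, Pi.smul_apply, smul_eq_mul]
    ring
  rw [e]
  exact h

end Win

end Vale.Agent.P318
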